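import Crest.Agent.N111.F.Toi
import Crest.Agent.N111.D.Mid

-- ▼ part N111/F/Inv
section

/-! # Row 111: the inversion `t ↦ t⁻¹`. -/

set_option autoImplicit false
set_option linter.unusedSectionVars false
set_option linter.unusedVariables false

namespace Crest.Agent.N111

open MeasureTheory Topology Filter Matrix
open scoped InnerProductSpace

variable {K : Type} [NormedAddCommGroup K] [InnerProductSpace ℂ K] [CompleteSpace K]

namespace InvA

variable {P : Fin 3 → POVM ℝ K} {c : ℝ × ℝ → ℂ}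

theorem word3 (P : Fin 3 → POVM ℝ K) (f : Fin 3 → ℝ → ℂ) :
    word P f = (P 0).E (f 0) * (P 1).E (f 1) * (P 2).E (f 2) := by
  simp [word, List.ofFn_succ, mul_assoc]

/-- weighted words in the coordinate `φ` -/
noncomputable def Wu (P : Fin 3 → POVM ℝ K) (u : Fin 3 → ℝ → ℂ) (φ : ℝ → ℝ)
    (f : Fin 3 → ℝ → ℂ) : K →L[ℂ] K := word P fun k t => u k t * f k (φ t)

theorem isPoly_Wu (P : Fin 3 → POVM ℝ K) {u : Fin 3 → ℝ → ℂ} (hu : ∀ k, BM (u k)) {φ : ℝ → ℝ}
    (hφ : Measurable φ) : IsPoly (Wu P u φ) :=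
  (isPoly_word P).comp (φ := fun _ => φ) (fun _ => hφ) hu

theorem isPoly_φ (P : Fin 3 → POVM ℝ K) {φ : ℝ → ℝ} (hφ : Measurable φ) :
    IsPoly fun f : Fin 3 → ℝ → ℂ => word P fun k t => f k (φ t) := by
  simpa only [one_mul] using
    (isPoly_word P).comp (φ := fun _ => φ) (u := fun _ _ => 1) (fun _ => hφ) fun _ => BM.one

theorem bm3 {f g h : ℝ → ℂ} (hf : BM f) (hg : BM g) (hh : BM h) : ∀ k, BM (![f, g, h] k) :=
  fun k => by fin_cases k <;> assumption

theorem toi_mul_ic (hP : (P 2).IsPVM) (hc : Integrable c) {φ : ℝ → ℝ} (hφ : Measurable φ)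
    {J : Set ℝ} (hJ : MeasurableSet J) (l : ℝ) :
    toi (fun f => word P fun k t => f k (φ t)) c l * (P 2).E (ic J)
      = toi (Wu P ![fun _ => 1, fun _ => 1, ic J] φ) c l := by
  have h1 := isPoly_φ P hφ
  rw [← one_mul (toi _ c l), toi_mul h1 hc]
  refine toi_congr (fun f hf => ?_) l
  rw [Wu, word3, word3, one_mul, mul_assoc, ← hP _ _ ((hf 2).comp hφ) (BM.ic hJ)]
  simp [mul_comm]

/-- **CUT** -/
theorem cut (hc : Integrable c) {R : ℝ} (hK : ∀ p : ℝ × ℝ, R < ‖p‖ → K2 c p = 0) {φ : ℝ → ℝ}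
    (hφ : Measurable φ) {J Z D' Z' : Set ℝ} (hJ : MeasurableSet J) (hZ : MeasurableSet Z)
    (hD' : IsCompact D') (hZ' : IsOpen Z') (h1 : D' ⊆ Z') (h2 : ∀ t ∈ J, φ t ∈ D')
    (h3 : ∀ t, φ t ∈ Z' → t ∈ Z) :
    ∀ᶠ l in atTop, toi (Wu P ![fun _ => 1, fun _ => 1, ic J] φ) c l
      = toi (Wu P ![ic Z, ic Z, ic J] φ) c l := by
  obtain ⟨δ, hδ, hth⟩ := hD'.exists_thickening_subset_open hZ' h1
  have p1 := isPoly_Wu P (bm3 BM.one BM.one (BM.ic hJ)) hφ
  have p2 := isPoly_Wu P (bm3 (BM.ic hZ) (BM.ic hZ) (BM.ic hJ)) hφ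
  filter_upwards [eventually_gt_atTop (|R| / δ)] with l hl
  have hl0 : 0 < l := lt_of_le_of_lt (by positivity) hl
  rw [div_lt_iff₀ hδ] at hl
  rw [← sub_eq_zero, toi_sub_W p1 p2 hc]
  refine toi_eq_zero (p1.sub p2) hc hK fun z hz => ?_
  have e2 : z 2 ∈ D' := by
    by_contra h
    refine hz ![Set.univ, Set.univ, D'ᶜ] (fun k => ?_) fun f hf h0 => ?_
    · fin_cases k
      exacts [univ_mem, univ_mem, hD'.isClosed.isOpen_compl.mem_nhds h]
    · have : (fun t => ic J t * f 2 (φ t)) = fun _ => 0 := funext fun t => by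
        by_cases ht : t ∈ J
        · rw [h0 2 _ (by simpa using h2 t ht), mul_zero]
        · rw [ic_of_notMem ht, zero_mul]
      simp [Wu, word3, this, POVM.E_zero]
  have far : ∀ y, y ∉ Z' → R < |l * (z 2 - y)| := fun y hy => by
    have : δ ≤ |z 2 - y| := by
      by_contra h
      exact hy (hth (Metric.mem_thickening_iff.2 ⟨_, e2, by
        rw [Real.dist_eq, abs_sub_comm]; exact not_le.1 h⟩))
    rw [abs_mul, abs_of_pos hl0]
    exact (le_abs_self R).trans_lt (hl.trans_le (by gcongr))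
  by_cases h0 : z 0 ∈ Z'
  · by_cases h1 : z 1 ∈ Z'
    · refine absurd (fun f hf h0 => ?_) (hz ![Z', Z', Set.univ] fun k => ?_)
      · have : ∀ k : Fin 3, (∀ y, y ∉ Z' → f k y = 0) →
            (fun t => ic Z t * f k (φ t)) = fun t => f k (φ t) := fun k hk => funext fun t => by
          by_cases ht : φ t ∈ Z'
          · rw [ic_of_mem (h3 t ht), one_mul]
          · rw [hk _ ht, mul_zero]
        simp [Wu, word3, this 0 (h0 0), this 1 (h0 1)]
      · fin_cases k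
        exacts [hZ'.mem_nhds h0, hZ'.mem_nhds h1, univ_mem]
    · refine (far _ h1).trans_le (le_trans (le_of_eq ?_) (norm_snd_le _))
      rw [Real.norm_eq_abs, ← abs_neg]
      congr 1
      ring
  · exact (far _ h0).trans_le (norm_fst_le ((_, _) : ℝ × ℝ))

theorem exists_cut {M : ℝ} (hM : 0 < M) : ∃ ϑ : ℝ → ℝ, ContDiff ℝ (⊤ : ℕ∞) ϑ ∧
    (∀ r, 1 / (2 * M) ≤ |r| → |r| ≤ 2 * M → ϑ r = 1) ∧
    ∀ r, ϑ r ≠ 0 → 1 / (4 * M) ≤ |r| ∧ |r| ≤ 3 * M := by
  let β : ContDiffBump (0 : ℝ) := ⟨2 * M, 3 * M, by positivity, by linarith⟩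
  let γ : ContDiffBump (0 : ℝ) := ⟨1 / (4 * M), 1 / (2 * M), by positivity,
    one_div_lt_one_div_of_lt (by positivity) (by linarith)⟩
  refine ⟨fun r => β r * (1 - γ r), β.contDiff.mul (contDiff_const.sub γ.contDiff),
    fun r h1 h2 => ?_, fun r h => ⟨?_, ?_⟩⟩
  · beta_reduce
    rw [β.one_of_mem_closedBall (by simpa using h2), γ.zero_of_le_dist (by simpa [γ] using h1)]
    simp
  · by_contra h'
    exact h (by beta_reduce; rw [γ.one_of_mem_closedBall (by simpa [γ] using (not_le.1 h').le)]; simp)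
  · by_contra h'
    exact h (by beta_reduce; rw [β.zero_of_le_dist (by simpa using (not_le.1 h').le)]; simp)

/-- the five dimensional density -/
theorem exists_five (hs : ContDiff ℝ (⊤ : ℕ∞) (K2 c)) {R : ℝ}
    (hK : ∀ p : ℝ × ℝ, R < ‖p‖ → K2 c p = 0) {M : ℝ} (hM : 0 < M) :
    ∃ d : (Fin 5 → ℝ) → ℂ, Integrable d ∧ Integrable (fun w => ‖d w‖ * ‖w‖) ∧
      ∀ (s y : ℝ) (r : Fin 3 → ℝ), (∀ k, 1 / (2 * M) ≤ |r k| ∧ |r k| ≤ 2 * M) →
        KN d ![s, y, r 0, r 1, r 2] = K2 c (s * r 0 * r 2, y * r 1 * r 2) := by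
  obtain ⟨ϑ, h1, h2, h3⟩ := exists_cut hM
  have h1' : ContDiff ℝ (⊤ : ℕ∞) fun r => (ϑ r : ℂ) := Complex.ofRealCLM.contDiff.comp h1
  obtain ⟨d, d1, d2, d3⟩ := exists_KN (f := fun p : Fin 5 → ℝ =>
    K2 c (p 0 * p 2 * p 4, p 1 * p 3 * p 4) * (ϑ (p 2) : ℂ) * (ϑ (p 3) : ℂ) * (ϑ (p 4) : ℂ))
    ((((hs.comp (by fun_prop)).mul (h1'.comp (by fun_prop))).mul
      (h1'.comp (by fun_prop))).mul (h1'.comp (by fun_prop)))
    (HasCompactSupport.intro (isCompact_closedBall 0 (3 * M + |R| * (4 * M) ^ 2)) fun p hp => by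
      by_contra h
      simp only [mul_eq_zero, not_or, Complex.ofReal_eq_zero] at h
      obtain ⟨⟨⟨k0, k2⟩, k3⟩, k4⟩ := h
      have hR : ‖((p 0 * p 2 * p 4, p 1 * p 3 * p 4) : ℝ × ℝ)‖ ≤ |R| :=
        (not_lt.1 fun h => k0 (hK _ h)).trans (le_abs_self R)
      have key : ∀ a b e : ℝ, ϑ b ≠ 0 → ϑ e ≠ 0 → |a * b * e| ≤ |R| → |a| ≤ |R| * (4 * M) ^ 2 :=
        fun a b e hb he h => by
          have b1 := (h3 b hb).1
          have e1 := (h3 e he).1
          rw [div_le_iff₀ (by positivity)] at b1 e1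
          rw [abs_mul, abs_mul] at h
          calc |a| = |a| * 1 * 1 := by ring
            _ ≤ |a| * (|b| * (4 * M)) * (|e| * (4 * M)) := by gcongr
            _ = |a| * |b| * |e| * (4 * M) ^ 2 := by ring
            _ ≤ _ := by gcongr
      have hp0 : 0 ≤ |R| * (4 * M) ^ 2 := by positivity
      refine hp (mem_closedBall_zero_iff.2 ((pi_norm_le_iff_of_nonneg (by positivity)).2 fun i => ?_))
      rw [Real.norm_eq_abs]
      fin_cases i
      · exact (key _ _ _ k2 k4 ((norm_fst_le ((_, _) : ℝ × ℝ)).trans hR)).trans (by linarith)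
      · exact (key _ _ _ k3 k4 ((norm_snd_le ((_, _) : ℝ × ℝ)).trans hR)).trans (by linarith)
      · exact (h3 _ k2).2.trans (by linarith)
      · exact (h3 _ k3).2.trans (by linarith)
      · exact (h3 _ k4).2.trans (by linarith))
  refine ⟨d, d1, d2, fun s y r hr => ?_⟩
  rw [d3]
  simp [h2 _ (hr 0).1 (hr 0).2, h2 _ (hr 1).1 (hr 1).2, h2 _ (hr 2).1 (hr 2).2]

/-- the five dimensional phases -/
noncomputable def p5 (l : ℝ) (ψ : ℝ → ℝ) (w : Fin 5 → ℝ) (k : Fin 3) (t : ℝ) : ℂ :=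
  ph l (w 0, w 1) k t * ex (w (k.addNat 2) * ψ t)

theorem integral_p5 (d : (Fin 5 → ℝ) → ℂ) (l : ℝ) (ψ : ℝ → ℝ) (z : Fin 3 → ℝ) :
    ∫ w, d w * ∏ k, p5 l ψ w k (z k)
      = KN d ![l * (z 2 - z 0), l * (z 1 - z 2), ψ (z 0), ψ (z 1), ψ (z 2)] := by
  refine integral_congr_ae (ae_of_all _ fun w => ?_)
  simp only [p5, ph, Fin.prod_univ_three, Fin.sum_univ_five, Matrix.cons_val_zero,
    Matrix.cons_val_one, Matrix.cons_val, ← ex_add]
  congr 2
  change _ + w 2 * _ + (_ + w 3 * _) + (_ + w 4 * _) = _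
  ring

theorem continuous_ph_t (l : ℝ) (w : ℝ × ℝ) (k : Fin 3) : Continuous (ph l w k) :=
  (continuous_ph k).comp (f := fun t : ℝ => ((l, w, t) : ℝ × (ℝ × ℝ) × ℝ)) (by fun_prop)
theorem continuous_ph_w (l : ℝ) (k : Fin 3) (t : ℝ) : Continuous fun w => ph l w k t :=
  (continuous_ph k).comp (f := fun w : ℝ × ℝ => ((l, w, t) : ℝ × (ℝ × ℝ) × ℝ)) (by fun_prop)

theorem kRep_p5 {d : (Fin 5 → ℝ) → ℂ} (hd : Integrable d) (l : ℝ) {ψ : ℝ → ℝ} (hψ : Measurable ψ)
    {Z : Set ℝ} (hZ : ContinuousOn ψ Z) : KRep _ volume d (p5 l ψ) fun _ => Z where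
  int := hd
  meas w k := (bm_ph _ _ _).1.mul (BM.ex (measurable_const.mul hψ)).1
  bd w k t := by rw [p5, norm_mul, norm_ph, norm_ex, one_mul]
  contω k t := ((continuous_ph_w l k t).comp (by fun_prop)).mul (continuous_ex.comp (by fun_prop))
  contY w k := (continuous_ph_t _ _ _).continuousOn.mul
    (continuous_ex.comp_continuousOn (continuousOn_const.mul hZ))

theorem kRep_ph (hc : Integrable c) (l : ℝ) {ψ : ℝ → ℝ} (hψ : Measurable ψ)
    {Z : Set ℝ} (hZ : ContinuousOn ψ Z) :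
    KRep _ volume c (fun w k t => ph l w k (ψ t)) fun _ => Z where
  int := hc
  meas w k := (bm_ph _ _ _).1.comp hψ
  bd w k t := (norm_ph _ _ _ _).le
  contω k t := continuous_ph_w l k _
  contY w k := (continuous_ph_t _ _ _).comp_continuousOn hZ

theorem norm_mul3 {a b e a' b' e' : K →L[ℂ] K} {ε : ℝ} (hb : ‖b‖ ≤ 1) (he : ‖e‖ ≤ 1)
    (ha' : ‖a'‖ ≤ 1) (hb' : ‖b'‖ ≤ 1) (h1 : ‖a - a'‖ ≤ ε) (h2 : ‖b - b'‖ ≤ ε) (h3 : ‖e - e'‖ ≤ ε) :
    ‖a * b * e - a' * b' * e'‖ ≤ 3 * ε := by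
  have hε : 0 ≤ ε := (norm_nonneg _).trans h1
  have : a * b * e - a' * b' * e' = (a - a') * b * e + a' * (b - b') * e + a' * b' * (e - e') := by
    noncomm_ring
  rw [this]
  have n3 : ∀ x y z : K →L[ℂ] K, ‖x * y * z‖ ≤ ‖x‖ * ‖y‖ * ‖z‖ := fun x y z =>
    (norm_mul_le _ _).trans (by gcongr; exact norm_mul_le _ _)
  have t1 : ‖(a - a') * b * e‖ ≤ ε * 1 * 1 := (n3 _ _ _).trans (by gcongr)
  have t2 : ‖a' * (b - b') * e‖ ≤ 1 * ε * 1 := (n3 _ _ _).trans (by gcongr)
  have t3 : ‖a' * b' * (e - e')‖ ≤ 1 * 1 * ε := (n3 _ _ _).trans (by gcongr)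
  linarith [norm_add₃_le (a := (a - a') * b * e) (b := a' * (b - b') * e) (c := a' * b' * (e - e'))]

/-- **LOC** -/
theorem loc (hc : Integrable c) (he : Ev c) (hs : ContDiff ℝ (⊤ : ℕ∞) (K2 c)) {R : ℝ}
    (hK : ∀ p : ℝ × ℝ, R < ‖p‖ → K2 c p = 0) {M : ℝ} (hM : 1 ≤ M) :
    ∃ C : ℝ, 0 ≤ C ∧ ∀ t₀ δ : ℝ, 1 / M ≤ |t₀| → |t₀| ≤ M → 0 < δ → δ ≤ 1 / (2 * M) →
      ∀ u : Fin 3 → ℝ → ℂ, (∀ k, Measurable (u k)) → (∀ k t, ‖u k t‖ ≤ 1) →
      (∀ k t, t ∉ Metric.ball t₀ δ → u k t = 0) → ∀ l : ℝ,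
      ‖toi (Wu P u Inv.inv) c l - toi (Wu P u id) c (t₀⁻¹ ^ 2 * l)‖ ≤ C * δ := by
  have hM0 : 0 < M := by linarith
  obtain ⟨d, d1, d2, d3⟩ := exists_five hs hK hM0
  refine ⟨(∫ w, ‖d w‖ * ‖w‖) * (6 * M ^ 2), mul_nonneg (integral_nonneg fun w => by positivity)
    (by positivity), fun t₀ δ h1 h2 hδ hδ' u hu hu1 hu0 l => ?_⟩
  set Z := Metric.ball t₀ δ with hZ
  have hub : ∀ k, BM (u k) := fun k => ⟨hu k, 1, hu1 k⟩
  have hW := isPoly_Wu P hub measurable_id
  have e2 : 1 / M = 2 * (1 / (2 * M)) := by field_simp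
  have e3 : 1 / M ≤ M := (div_le_one hM0).2 hM |>.trans hM
  have hr : ∀ t ∈ Z, 1 / (2 * M) ≤ |t| ∧ |t| ≤ 2 * M := fun t ht => by
    have h3 : |t - t₀| < δ := ht
    have h4 := abs_abs_sub_abs_le_abs_sub t t₀
    rw [abs_le] at h4
    constructor <;> linarith [h4.1, h4.2]
  have hpos : 0 < 1 / (2 * M) := by positivity
  have hne : ∀ t ∈ Z, t ≠ 0 := fun t ht => abs_pos.1 (hpos.trans_le (hr t ht).1)
  have hri : ∀ t ∈ Z, 1 / (2 * M) ≤ |t⁻¹| ∧ |t⁻¹| ≤ 2 * M := fun t ht => by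
    have h3 := abs_pos.2 (hne t ht)
    rw [abs_inv, one_div]
    refine ⟨inv_anti₀ h3 (hr t ht).2, inv_le_of_inv_le₀ (by positivity) ?_⟩
    rw [← one_div]
    exact (hr t ht).1
  have ht₀ : t₀ ∈ Z := Metric.mem_ball_self hδ
  have hconc : ∀ f : Fin 3 → ℝ → ℂ, (∀ k, BM (f k)) →
      Wu P u id f = Wu P u id fun k y => ic Z y * f k y := fun f _ => by
    unfold Wu
    congr 1
    funext k t
    by_cases ht : t ∈ Z
    · simp [ic_of_mem ht]
    · simp [hu0 k t ht]
  have cinv : ContinuousOn (Inv.inv : ℝ → ℝ) Z := continuousOn_inv₀.mono fun t ht => hne t ht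
  have K3 := kRep_p5 d1 l (ψ := fun _ => t₀⁻¹) measurable_const (Z := Z) continuousOn_const
  have K2' := kRep_p5 d1 l measurable_inv cinv
  have s1 : toi (Wu P u Inv.inv) c l = sInt volume d fun w => Wu P u id (p5 l Inv.inv w) := by
    refine hW.wd (fun _ => Metric.isOpen_ball) hconc (kRep_ph hc l measurable_inv cinv) K2'
      isOpen_univ (fun _ _ _ => trivial) fun z _ hz => ?_
    rw [integral_ph c l fun k => (z k)⁻¹, integral_p5, d3 _ _ (fun k => (z k)⁻¹) fun k => hri _ (hz k)]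
    have : c = fun w => c (-w) := funext fun w => (he w).symm
    rw [this, Fou.K2_neg, ← this]
    have := hne _ (hz 0)
    have := hne _ (hz 1)
    have := hne _ (hz 2)
    congr 1
    ext <;> simp only [Prod.fst_neg, Prod.snd_neg] <;> field_simp <;> ring
  have s2 : toi (Wu P u id) c (t₀⁻¹ ^ 2 * l)
      = sInt volume d fun w => Wu P u id (p5 l (fun _ => t₀⁻¹) w) := by
    refine hW.wd (fun _ => Metric.isOpen_ball) hconc
      (kRep_ph hc _ measurable_id continuousOn_id) K3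
      isOpen_univ (fun _ _ _ => trivial) fun z _ hz => ?_
    simp only [id]
    rw [integral_ph, integral_p5, d3 _ _ (fun _ => t₀⁻¹) fun _ => hri _ ht₀]
    congr 2 <;> ring
  have c2 := hW.sCont K2'.meas K2'.bd K2'.contω
  have c3 := hW.sCont K3.meas K3.bd K3.contω
  rw [s1, s2, ← sInt_sub d1 c2 c3]
  refine (norm_sInt_le' d1 (c2.sub c3) (b := fun w => ‖w‖ * (6 * M ^ 2 * δ))
    (by simpa only [← mul_assoc] using ((d2.mul_const 6).mul_const (M ^ 2)).mul_const δ) fun w => ?_).trans (le_of_eq ?_)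
  · have n1 : ∀ (ψ : ℝ → ℝ) (hψ : Measurable ψ) (k : Fin 3),
        ‖(P k).E fun t => u k t * p5 l ψ w k (id t)‖ ≤ 1 := fun ψ hψ k =>
      (P k).norm_E_le ((hu k).mul ((kRep_p5 d1 l hψ (Z := ∅) (continuousOn_empty _)).meas w k))
        zero_le_one fun t => by
          rw [Pi.mul_apply, norm_mul, p5, norm_mul, norm_ph, norm_ex, mul_one, mul_one]
          exact hu1 k t
    have n2 : ∀ k : Fin 3, ‖(P k).E (fun t => u k t * p5 l Inv.inv w k (id t))
        - (P k).E fun t => u k t * p5 l (fun _ => t₀⁻¹) w k (id t)‖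
          ≤ ‖w‖ * (2 * M ^ 2 * δ) := fun k => by
      have b2 : BM fun t => u k t * p5 l Inv.inv w k (id t) :=
        (hub k).mul ⟨K2'.meas w k, 1, K2'.bd w k⟩
      have b3 : BM fun t => u k t * p5 l (fun _ => t₀⁻¹) w k (id t) :=
        (hub k).mul ⟨K3.meas w k, 1, K3.bd w k⟩
      rw [← (P k).E_sub b2 b3]
      refine (P k).norm_E_le (b2.sub b3).1 (by positivity) fun t => ?_
      by_cases ht : t ∈ Z
      · simp only [p5, id]
        rw [← mul_sub, ← mul_sub, norm_mul, norm_mul, norm_ph, one_mul]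
        refine (mul_le_of_le_one_left (norm_nonneg _) (hu1 k t)).trans
          ((norm_ex_sub_ex_le _ _).trans ?_)
        rw [← mul_sub, abs_mul]
        gcongr
        · exact norm_le_pi_norm w _
        have h3 : |t - t₀| < δ := ht
        have h4 : |t₀⁻¹| ≤ M := by
          rw [abs_inv]
          refine inv_le_of_inv_le₀ hM0 ?_
          rw [← one_div]
          exact h1
        have := hne t ht
        have := hne _ ht₀
        calc |t⁻¹ - t₀⁻¹| = |t⁻¹| * |t₀⁻¹| * |t - t₀| := by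
              rw [← abs_mul, ← abs_mul, ← abs_neg]; congr 1; field_simp; ring
          _ ≤ 2 * M * M * δ := by gcongr; exact (hri t ht).2
          _ = _ := by ring
      · simp only [hu0 k t ht, zero_mul, sub_self, norm_zero]
        positivity
    rw [Wu, Wu, word3, word3]
    exact (norm_mul3 (n1 _ measurable_inv 1) (n1 _ measurable_inv 2) (n1 _ measurable_const 0)
      (n1 _ measurable_const 1) (n2 0) (n2 1) (n2 2)).trans (le_of_eq (by ring))
  · simp only [← mul_assoc]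
    rw [integral_mul_const, integral_mul_const, integral_mul_const]

theorem norm_sum_le {α : Type} (s : Finset α) {X E : α → K →L[ℂ] K} {a : ℝ} (ha : 0 ≤ a)
    (hX : ∀ n ∈ s, ‖X n‖ ≤ a) (hE : ∀ η, ∑ n ∈ s, ‖E n η‖ ^ 2 ≤ 1 * ‖η‖ ^ 2) :
    ‖∑ n ∈ s, X n * E n‖ ≤ a * √s.card := by
  refine ContinuousLinearMap.opNorm_le_bound _ (by positivity) fun η => ?_
  rw [_root_.sum_apply]
  calc _ ≤ ∑ n ∈ s, a * ‖E n η‖ := norm_sum_le_of_le _ fun n hn =>
        ((X n).le_opNorm (E n η)).trans (by gcongr; exact hX n hn)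
    _ = a * ∑ n ∈ s, 1 * ‖E n η‖ := by rw [Finset.mul_sum]; simp only [one_mul]
    _ ≤ a * (√(∑ n ∈ s, 1 ^ 2) * √(∑ n ∈ s, ‖E n η‖ ^ 2)) := by
        gcongr; exact Real.sum_mul_le_sqrt_mul_sqrt _ _ _
    _ ≤ _ := by
        rw [mul_assoc]
        gcongr
        · simp
        · exact Real.sqrt_le_iff.2 ⟨norm_nonneg _, by simpa using hE η⟩

/-- the annulus -/
def An (M : ℝ) : Set ℝ := {t | 1 / M ≤ |t| ∧ |t| ≤ M}

theorem measurableSet_An (M : ℝ) : MeasurableSet (An M) :=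
  (measurableSet_le measurable_const continuous_abs.measurable).inter
    (measurableSet_le continuous_abs.measurable measurable_const)

theorem smooth (hP : (P 2).IsPVM) (hc : Integrable c) (he : Ev c)
    (hs : ContDiff ℝ (⊤ : ℕ∞) (K2 c)) (hs' : HasCompactSupport (K2 c)) {M : ℕ} (hM : 1 ≤ M) :
    AvT atTop (fun l => (toi (fun f => word P fun k t => f k t⁻¹) c l - toi (word P) c l)
      * (P 2).E (ic (An M))) 0 := by
  classical
  obtain ⟨R, -, hK⟩ := Fou.exists_radius hs'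
  have hM1 : (1 : ℝ) ≤ M := by exact_mod_cast hM
  obtain ⟨C, hC, H⟩ := loc (P := P) hc he hs hK hM1
  have p1 := isPoly_φ P measurable_inv
  have c1 := sCont_toi p1 hc
  have c0 := sCont_toi (isPoly_word P) hc
  refine avT_of_approx le_rfl ((c1.sub c0).mul (SCont.const _)) fun ε hε => ?_
  obtain ⟨N, hN4, hN⟩ : ∃ N : ℕ, 4 * M ≤ N ∧ C * (2 / N) * √(2 * M * N + 1) ≤ ε := by
    obtain ⟨N, hN⟩ := exists_nat_ge (max (4 * M : ℝ) (C ^ 2 * 4 * (3 * M) / ε ^ 2))
    have h4 : (4 * M : ℝ) ≤ N := (le_max_left _ _).trans hN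
    have h5 := (le_max_right _ _).trans hN
    have hN0 : (0 : ℝ) < N := by linarith
    refine ⟨N, by exact_mod_cast h4, ?_⟩
    rw [← sq_le_sq₀ (by positivity) hε.le, mul_pow, Real.sq_sqrt (by positivity)]
    rw [div_le_iff₀ (by positivity)] at h5
    calc _ ≤ (C * (2 / N)) ^ 2 * (3 * M * N) := by gcongr; nlinarith
      _ = C ^ 2 * 4 * (3 * M) / N := by field_simp; ring
      _ ≤ _ := by rw [div_le_iff₀ hN0]; linarith
  have h4 : (4 * M : ℝ) ≤ N := by exact_mod_cast hN4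
  have hN0 : (0 : ℝ) < N := by linarith
  let J : ℤ → Set ℝ := fun n => An M ∩ {t | ⌊t * N⌋ = n}
  have hJ : ∀ n, MeasurableSet (J n) := fun n => (measurableSet_An M).inter
    ((measurable_id.mul_const _).floor (measurableSet_singleton n))
  have hx : ∀ n, ∃ x ∈ An M, ∀ t ∈ J n, |t - x| ≤ 1 / N := fun n => by
    by_cases h : (J n).Nonempty
    · obtain ⟨x, hx, hx'⟩ := h
      refine ⟨x, hx, fun t ht => ?_⟩
      have h1 := Int.abs_sub_lt_one_of_floor_eq_floor (ht.2.trans (Eq.symm hx'))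
      rw [← sub_mul, abs_mul, abs_of_pos hN0] at h1
      exact ((lt_div_iff₀ hN0).2 h1).le
    · exact ⟨1, ⟨by simpa using inv_le_one_of_one_le₀ hM1, by simpa using hM1⟩,
        fun t ht => absurd ⟨t, ht⟩ h⟩
  choose x hx hx' using hx
  have hx0 : ∀ n, x n ≠ 0 := fun n => abs_pos.1 (lt_of_lt_of_le (by positivity) (hx n).1)
  have hxp : ∀ n, 0 < (x n)⁻¹ ^ 2 := fun n => sq_pos_of_ne_zero (inv_ne_zero (hx0 n))
  let s : Finset ℤ := Finset.Icc (-(M * N : ℤ)) (M * N)
  have hic : ∀ t, ic (An M) t = ∑ n ∈ s, ic (J n) t := fun t => by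
    by_cases ht : t ∈ An M
    · have h1 := abs_le.1 ht.2
      rw [ic_of_mem ht, Finset.sum_eq_single_of_mem ⌊t * N⌋ (Finset.mem_Icc.2 ⟨Int.le_floor.2 ?_,
        Int.floor_le_iff.2 ?_⟩) fun n _ hn => ic_of_notMem fun h => hn h.2.symm,
        ic_of_mem (show t ∈ J _ from ⟨ht, rfl⟩)]
      · push_cast; nlinarith
      · push_cast; nlinarith
    · rw [ic_of_notMem ht, Finset.sum_eq_zero fun n _ => ic_of_notMem fun h => ht h.1]
  have hE : (P 2).E (ic (An M)) = ∑ n ∈ s, (P 2).E (ic (J n)) := by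
    rw [← (P 2).E_sum s fun n _ => BM.ic (hJ n), ← funext hic]
  have cs : ∀ n, SCont fun r => toi (word P) c ((x n)⁻¹ ^ 2 * r) - toi (word P) c r := fun n =>
    SCont.sub ⟨fun η => (c0.1 η).comp (continuous_const.mul continuous_id),
      c0.2.imp fun _ h _ => h _⟩ c0
  refine ⟨fun r => ∑ n ∈ s, 1 * (toi (word P) c ((x n)⁻¹ ^ 2 * r) - toi (word P) c r)
    * (P 2).E (ic (J n)), ?_, ?_, ?_⟩
  · refine Finset.induction_on s (by simpa using SCont.const 0) fun n s hn ih => ?_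
    simpa only [Finset.sum_insert hn] using
      (((SCont.const 1).mul (cs n)).mul (SCont.const _)).add ih
  · simpa only [mul_zero, zero_mul, Finset.sum_const_zero] using AvT.sum s
      (fun n _ => (avT_shift c0 (r := (x n)⁻¹ ^ 2) (hxp n)).mul 1 ((P 2).E (ic (J n))))
      fun n _ => ((SCont.const 1).mul (cs n)).mul (SCont.const _)
  have key : ∀ n, ∀ᶠ r in atTop, ‖(toi (fun f => word P fun k t => f k t⁻¹) c r
      - toi (word P) c ((x n)⁻¹ ^ 2 * r)) * (P 2).E (ic (J n))‖ ≤ C * (2 / N) := fun n => by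
    have hδ : 2 / (N : ℝ) ≤ 1 / (2 * M) := by
      rw [div_le_div_iff₀ hN0 (by positivity)]; linarith
    have hsub : Metric.closedBall (x n) (1 / N) ⊆ Metric.ball (x n) (2 / N) :=
      Metric.closedBall_subset_ball (by gcongr; norm_num)
    have hne : ∀ t ∈ Metric.ball (x n) (2 / N), t ≠ 0 := fun t ht h0 => by
      have h3 : |t - x n| < 2 / N := ht
      rw [h0, zero_sub, abs_neg] at h3
      have e2 : 1 / (M : ℝ) = 2 * (1 / (2 * M)) := by field_simp
      have : 0 < 1 / (2 * (M : ℝ)) := by positivity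
      linarith [(hx n).1]
    have a1 := cut (P := P) hc hK measurable_inv (hJ n)
      (Metric.isOpen_ball (x := x n) (ε := 2 / N)).measurableSet
      ((isCompact_closedBall (x n) (1 / N)).image_of_continuousOn
        (continuousOn_inv₀.mono fun t ht => hne t (hsub ht)))
      (continuousOn_inv₀.isOpen_inter_preimage isOpen_compl_singleton
        (Metric.isOpen_ball (x := x n) (ε := 2 / N)))
      (by rintro _ ⟨t, ht, rfl⟩
          exact ⟨inv_ne_zero (hne t (hsub ht)), by simpa using hsub ht⟩)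
      (fun t ht => ⟨t, hx' n t ht, rfl⟩) fun t ht => by simpa using ht.2
    have a2 := (tendsto_id.const_mul_atTop (hxp n)).eventually
      (cut (P := P) hc hK measurable_id (hJ n)
        (Metric.isOpen_ball (x := x n) (ε := 2 / N)).measurableSet
        (isCompact_closedBall (x n) (1 / N)) Metric.isOpen_ball hsub (hx' n) fun t ht => ht)
    filter_upwards [a1, a2] with r h1 h2
    rw [sub_mul, toi_mul_ic hP hc measurable_inv (hJ n), h1,
      show toi (word P) c _ * _ = _ from toi_mul_ic hP hc measurable_id (hJ n) _]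
    erw [h2]
    refine H (x n) _ (hx n).1 (hx n).2 (by positivity) hδ _
      (fun k => (bm3 (BM.ic Metric.isOpen_ball.measurableSet)
        (BM.ic Metric.isOpen_ball.measurableSet) (BM.ic (hJ n)) k).1) (fun k t => ?_)
      (fun k t ht => ?_) r
    · fin_cases k <;> exact norm_ic_le _ _
    · fin_cases k
      exacts [ic_of_notMem ht, ic_of_notMem ht, ic_of_notMem fun h => ht (hsub (hx' n t h))]
  filter_upwards [(s.eventually_all).2 fun n _ => key n] with r hr
  rw [hE, Finset.mul_sum, ← Finset.sum_sub_distrib]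
  have e : ∀ n ∈ s, (toi (fun f => word P fun k t => f k t⁻¹) c r - toi (word P) c r)
      * (P 2).E (ic (J n)) - 1 * (toi (word P) c ((x n)⁻¹ ^ 2 * r) - toi (word P) c r)
      * (P 2).E (ic (J n)) = ((toi (fun f => word P fun k t => f k t⁻¹) c r
      - toi (word P) c ((x n)⁻¹ ^ 2 * r)) * (P 2).E (ic (J n))) * (P 2).E (ic (J n)) :=
    fun n _ => by rw [mul_assoc _ ((P 2).E _), hP.ic_idem (hJ n)]; noncomm_ring
  rw [Finset.sum_congr rfl e]
  refine (norm_sum_le s (by positivity) hr fun η => (P 2).sum_norm_E_sq_le s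
    (fun n _ => BM.ic (hJ n)) (fun t => ?_) η).trans (le_trans (le_of_eq ?_) hN)
  · have : ∀ n, ((‖ic (J n) t‖ ^ 2 : ℝ) : ℂ) = ic (J n) t := fun n => by
      by_cases h : t ∈ J n <;> simp [h]
    have h1 : ((∑ n ∈ s, ‖ic (J n) t‖ ^ 2 : ℝ) : ℂ) = ic (An M) t := by
      rw [Complex.ofReal_sum, hic]; simp only [this]
    have h2 := norm_ic_le (An M) t
    rw [← h1, Complex.norm_real] at h2
    exact (le_abs_self _).trans h2
  · congr 2
    have : (s.card : ℤ) = 2 * M * N + 1 := by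
      rw [Int.card_Icc_of_le _ _ (by nlinarith [Int.natCast_nonneg M, Int.natCast_nonneg N])]
      ring
    exact_mod_cast this

end InvA

open InvA in
/-- **INV** -/
theorem toi_inv {P : Fin 3 → POVM ℝ K} (hP : (P 2).IsPVM) {c : ℝ × ℝ → ℂ} (hc : Integrable c)
    (he : Ev c) :
    AvT atTop (fun l => (toi (fun f => word P fun k t => f k t⁻¹) c l - toi (word P) c l)
      * (P 2).E (ic {0}ᶜ)) 0 := by
  have p1 := isPoly_φ P measurable_inv
  have p0 := isPoly_word P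
  refine avT_of_strong ((sCont_toi p1 hc).sub (sCont_toi p0 hc))
    (E := fun n => (P 2).E (ic (An ((n + 1 : ℕ) : ℝ)))) (fun η => (P 2).tendsto_E
      (fun n => (BM.ic (measurableSet_An _)).1) (fun n => norm_ic_le _) (fun t => ?_) η) fun n => ?_
  · refine tendsto_const_nhds.congr' ?_
    by_cases ht : t = 0
    · refine Eventually.of_forall fun n => ?_
      beta_reduce
      rw [ic_of_notMem (by simp [ht]), ic_of_notMem fun h => ?_]
      have := h.1
      rw [ht, abs_zero] at this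
      exact this.not_gt (by positivity)
    · filter_upwards [tendsto_natCast_atTop_atTop.eventually_ge_atTop |t|,
        tendsto_natCast_atTop_atTop.eventually_ge_atTop |t|⁻¹] with n h1 h2
      rw [ic_of_mem (by simpa using ht), ic_of_mem (show t ∈ An _ from
        ⟨?_, by push_cast; linarith⟩)]
      rw [one_div]
      exact inv_le_of_inv_le₀ (abs_pos.2 ht) (by push_cast; linarith)
  · have e : ∀ c : ℝ × ℝ → ℂ, Integrable c → ∀ l,
        (toi (fun f => word P fun k t => f k t⁻¹) c l - toi (word P) c l)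
          * (P 2).E (ic (An ((n + 1 : ℕ) : ℝ)))
        = toi (fun f => 1 * (word P fun k t => f k t⁻¹) * (P 2).E (ic (An ((n + 1 : ℕ) : ℝ)))) c l
          - toi (fun f => 1 * word P f * (P 2).E (ic (An ((n + 1 : ℕ) : ℝ)))) c l :=
      fun c hc l => by rw [← toi_mul p1 hc, ← toi_mul p0 hc, one_mul, one_mul, sub_mul]
    simp only [e c hc]
    refine avT_toi_of_smooth (p1.mul _ _) (p0.mul _ _) le_rfl (fun c hc he h1 h2 => ?_) hc he
    simp only [← e c hc]
    exact smooth hP hc he h1 h2 (Nat.le_add_left 1 n)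

end Crest.Agent.N111
end

-- ▼ part N111/F/Ker
section

/-! # Row 111: the positive even kernels (helper66). -/

set_option autoImplicit false
set_option linter.unusedSectionVars false
set_option linter.unusedVariables false

namespace Crest.Agent.N111

open MeasureTheory Topology Filter
open scoped InnerProductSpace Convolution

namespace Ker

/-- the kernel `∫ χ(u - s) N(u + y)² χ(u) du` -/
noncomputable def kk (χ N : ℝ → ℝ) (p : ℝ × ℝ) : ℂ :=
  ∫ u, ((χ (u - p.1) * (N (u + p.2) * N (u + p.2)) * χ u : ℝ) : ℂ)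

theorem exists_rad {χ : ℝ → ℝ} (h : HasCompactSupport χ) : ∃ R, 0 < R ∧ ∀ x, R ≤ |x| → χ x = 0 :=
  h.exists_pos_le_norm

theorem contDiff_kk {χ N : ℝ → ℝ} (hχ : ContDiff ℝ (⊤ : ℕ∞) χ) (hχ' : HasCompactSupport χ)
    (hN : ContDiff ℝ (⊤ : ℕ∞) N) : ContDiff ℝ (⊤ : ℕ∞) (kk χ N) := by
  obtain ⟨R, hR, h0⟩ := exists_rad hχ'
  have h := contDiffOn_convolution_right_with_param_comp (n := ⊤) (μ := volume)
    (ContinuousLinearMap.lsmul ℝ ℝ : ℝ →L[ℝ] ℂ →L[ℝ] ℂ) (s := Set.univ) (v := fun _ : ℝ × ℝ => (0 : ℝ))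
    contDiffOn_const (f := fun _ : ℝ => (1 : ℝ))
    (g := fun (p : ℝ × ℝ) (x : ℝ) =>
      ((χ (-x - p.1) * (N (-x + p.2) * N (-x + p.2)) * χ (-x) : ℝ) : ℂ))
    isOpen_univ (isCompact_Icc (a := -R) (b := R))
    (fun p x _ hx => by
      rw [h0 (-x) (by
        rw [abs_neg]
        exact le_of_not_gt fun h => hx ⟨(abs_lt.1 h).1.le, (abs_lt.1 h).2.le⟩)]
      simp)
    (locallyIntegrable_const 1)
    (ContDiff.contDiffOn (Complex.ofRealCLM.contDiff.comp (f := fun q : (ℝ × ℝ) × ℝ =>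
      χ (-q.2 - q.1.1) * (N (-q.2 + q.1.2) * N (-q.2 + q.1.2)) * χ (-q.2)) (by fun_prop)))
  rw [contDiffOn_univ] at h
  convert h using 2 with p
  simp [kk, convolution_def]

theorem compact_kk {χ N : ℝ → ℝ} (hχ : HasCompactSupport χ) (hN : HasCompactSupport N) :
    HasCompactSupport (kk χ N) := by
  obtain ⟨R, hR, h0⟩ := exists_rad hχ
  obtain ⟨R', hR', h0'⟩ := exists_rad hN
  refine HasCompactSupport.intro (isCompact_closedBall 0 (2 * R + R')) fun p hp => ?_
  rw [mem_closedBall_zero_iff, not_le, Prod.norm_def, lt_max_iff, Real.norm_eq_abs,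
    Real.norm_eq_abs] at hp
  refine integral_eq_zero_of_ae (Eventually.of_forall fun u => ?_)
  by_cases hu : R ≤ |u|
  · simp [h0 u hu]
  rcases hp with hp | hp
  · have : R ≤ |u - p.1| := by linarith [abs_sub_abs_le_abs_sub p.1 u, abs_sub_comm p.1 u]
    simp [h0 _ this]
  · have : R' ≤ |u + p.2| := by
      have := abs_sub (u + p.2) u
      rw [add_sub_cancel_left] at this
      linarith
    simp [h0' _ this]

variable {K : Type} [NormedAddCommGroup K] [InnerProductSpace ℂ K] [CompleteSpace K]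

theorem key {χ N : ℝ → ℝ} (hχ : Continuous χ) (hχ' : HasCompactSupport χ) (hN : Continuous N)
    (hN' : HasCompactSupport N) {c : ℝ × ℝ → ℂ} (hc : Integrable c) (hK : K2 c = kk χ N)
    {P P' : POVM ℝ K} (hP : P.IsPVM) (hP' : P'.IsPVM) (l T : ℝ) (η : K)
    (hη : P.E (ic (Set.Icc (-T) T)) η = η) :
    Integrable (fun x : ℝ => ‖P'.E (fun t => (N (l * t - x) : ℂ))
        (P.E (fun t => (χ (l * t - x) : ℂ)) η)‖ ^ 2) ∧
      ⟪η, toi (word ![P, P', P]) c l η⟫_ℂ = ((∫ x : ℝ, ‖P'.E (fun t => (N (l * t - x) : ℂ))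
        (P.E (fun t => (χ (l * t - x) : ℂ)) η)‖ ^ 2 : ℝ) : ℂ) := by
  obtain ⟨R, hR, h0⟩ := exists_rad hχ'
  obtain ⟨B₁, hB₁⟩ := hχ.bounded_above_of_compact_support hχ'
  obtain ⟨B₂, hB₂⟩ := hN.bounded_above_of_compact_support hN'
  have hB₁0 : 0 ≤ B₁ := (norm_nonneg _).trans (hB₁ 0)
  have hB₂0 : 0 ≤ B₂ := (norm_nonneg _).trans (hB₂ 0)
  set B : ℝ := B₁ + B₂ * B₂ + 1 with hB
  have hB0 : 0 < B := by positivity
  set X : ℝ := |l| * (|T| + 1) + R with hX
  set a : ℝ → ℝ → ℂ := fun x t => (χ (l * t - x) : ℂ) with ha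
  set n : ℝ → ℝ → ℂ := fun x t => (N (l * t - x) : ℂ) with hn
  have ca : Continuous fun q : ℝ × ℝ => a q.1 q.2 := by simp only [ha]; fun_prop
  have cn : Continuous fun q : ℝ × ℝ => n q.1 q.2 := by simp only [hn]; fun_prop
  have na : ∀ x t, ‖a x t‖ ≤ B₁ := fun x t => by simpa [ha] using hB₁ _
  have nn : ∀ x t, ‖n x t‖ ≤ B₂ := fun x t => by simpa [hn] using hB₂ _
  have ba : ∀ x, BM (a x) := fun x =>
    ⟨(ca.comp (Continuous.prodMk_right x)).measurable, B₁, na x⟩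
  have bn : ∀ x, BM (n x) := fun x =>
    ⟨(cn.comp (Continuous.prodMk_right x)).measurable, B₂, nn x⟩
  have za : ∀ x t, x ∉ Set.Icc (-X) X → |t| ≤ |T| + 1 → a x t = 0 := fun x t hx ht => by
    have h1 : X < |x| := lt_of_not_ge fun h => hx (abs_le.1 h)
    have h2 : |l * t| ≤ |l| * (|T| + 1) := by
      rw [abs_mul]; exact mul_le_mul_of_nonneg_left ht (abs_nonneg l)
    have h3 : R ≤ |l * t - x| := by linarith [abs_sub_abs_le_abs_sub x (l * t), abs_sub_comm x (l * t)]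
    simp [ha, h0 _ h3]
  have bI : BM (ic (Set.Icc (-T) T)) := BM.ic measurableSet_Icc
  have hIT : ∀ t ∈ Set.Icc (-T) T, |t| ≤ |T| := fun t ht => (abs_le.2 ht).trans (le_abs_self T)
  set g : ℝ → ℝ := fun x => ‖P'.E (n x) (P.E (a x) η)‖ ^ 2 with hg
  have zg : ∀ x, x ∉ Set.Icc (-X) X → g x = 0 := fun x hx => by
    have e : (fun t => a x t * ic (Set.Icc (-T) T) t) = fun _ => 0 := funext fun t => by
      by_cases ht : t ∈ Set.Icc (-T) T
      · rw [za x t hx ((hIT t ht).trans (by linarith)), zero_mul]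
      · rw [ic_of_notMem ht, mul_zero]
    have : P.E (a x) η = 0 := by
      rw [← hη, ← mul_apply_eq_comp, ← hP _ _ (ba x) bI, e, P.E_zero, zero_apply]
    simp [hg, this]
  have sa : SCont fun x => P.E (a x) :=
    P.sCont_E (fun x => (ba x).1) na fun t => ca.comp (Continuous.prodMk_left t)
  have sn : SCont fun x => P'.E (n x) :=
    P'.sCont_E (fun x => (bn x).1) nn fun t => cn.comp (Continuous.prodMk_left t)
  have cg : Continuous g := ((sn.mul sa).1 η).norm.pow 2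
  refine ⟨cg.integrable_of_hasCompactSupport (HasCompactSupport.intro isCompact_Icc zg), ?_⟩
  have hW := isPoly_word ![P, P', P]
  have hW' := hW.mul 1 (P.E (ic (Set.Icc (-T) T)))
  set φ : ℝ → Fin 3 → ℝ → ℂ := fun x => ![fun t => (B : ℂ)⁻¹ * a x t,
    fun t => (B : ℂ)⁻¹ * (n x t * n x t), fun t => (B : ℂ)⁻¹ * a x t] with hφ
  have nB : ∀ z : ℂ, ‖z‖ ≤ B → ‖(B : ℂ)⁻¹ * z‖ ≤ 1 := fun z hz => by
    rw [norm_mul, norm_inv, Complex.norm_real, Real.norm_of_nonneg hB0.le]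
    exact inv_mul_le_one_of_le₀ hz hB0.le
  have cφ : ∀ k, Continuous fun q : ℝ × ℝ => φ q.1 k q.2 := fun k => by
    fin_cases k
    · exact continuous_const.mul ca
    · exact continuous_const.mul (cn.mul cn)
    · exact continuous_const.mul ca
  have nφ : ∀ x k t, ‖φ x k t‖ ≤ 1 := fun x k t => by
    have h1 : ‖a x t‖ ≤ B := (na x t).trans (by rw [hB]; nlinarith)
    have h2 : ‖n x t * n x t‖ ≤ B := by
      rw [norm_mul]
      exact (mul_le_mul (nn x t) (nn x t) (norm_nonneg _) hB₂0).trans (by rw [hB]; linarith)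
    fin_cases k
    · exact nB _ h1
    · exact nB _ h2
    · exact nB _ h1
  set Z : Fin 3 → Set ℝ := ![Set.univ, Set.univ, Set.Ioo (-(|T| + 1)) (|T| + 1)] with hZ
  have h₂ : KRep ℝ (volume.restrict (Set.Icc (-X) X)) (fun _ => (B : ℂ) ^ 3) φ Z :=
    ⟨integrable_const _, fun x k => ((cφ k).comp (Continuous.prodMk_right x)).measurable, nφ,
      fun k t => (cφ k).comp (Continuous.prodMk_left t),
      fun x k => ((cφ k).comp (Continuous.prodMk_right x)).continuousOn⟩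
  have h₁ : KRep (ℝ × ℝ) volume c (ph l) Z :=
    ⟨hc, fun w k => (bm_ph l w k).1, fun w k t => (norm_ph l w k t).le,
      fun k t => (continuous_ph k).comp (f := fun w : ℝ × ℝ => (l, w, t)) (by fun_prop),
      fun w k => ((continuous_ph k).comp (f := fun t : ℝ => (l, w, t)) (by fun_prop)).continuousOn⟩
  have hB' : (B : ℂ) ≠ 0 := Complex.ofReal_ne_zero.2 hB0.ne'
  have hwd := hW'.wd (Z := Z) (fun k => by
      fin_cases k
      · exact isOpen_univ
      · exact isOpen_univ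
      · exact isOpen_Ioo)
    (fun f hf => by
      have bZ : BM (ic (Set.Ioo (-(|T| + 1)) (|T| + 1))) := BM.ic measurableSet_Ioo
      have e : (fun t => ic (Set.Ioo (-(|T| + 1)) (|T| + 1)) t * f 2 t * ic (Set.Icc (-T) T) t)
          = fun t => f 2 t * ic (Set.Icc (-T) T) t := funext fun t => by
        by_cases ht : t ∈ Set.Icc (-T) T
        · have := abs_le.1 (hIT t ht)
          rw [ic_of_mem (show t ∈ Set.Ioo _ _ from ⟨by linarith, by linarith⟩), one_mul]
        · rw [ic_of_notMem ht, mul_zero, mul_zero]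
      simp only [word_three, hZ, Matrix.cons_val_zero, Matrix.cons_val_one, Matrix.cons_val,
        ic_univ, one_mul, mul_assoc]
      rw [← hP _ _ (bZ.mul (hf 2)) bI, e, hP _ _ (hf 2) bI])
    h₁ h₂ isOpen_univ (fun _ _ _ => trivial) fun z _ hz => by
      have hz2 : |z 2| ≤ |T| + 1 := (abs_lt.2 (hz 2)).le
      rw [integral_ph, hK, setIntegral_eq_integral_of_forall_compl_eq_zero fun x hx => by
        simp [hφ, Fin.prod_univ_three, za x (z 2) hx hz2], kk,
        ← integral_sub_left_eq_self _ volume (l * z 2)]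
      refine integral_congr_ae (Eventually.of_forall fun x => ?_)
      simp only [hφ, Fin.prod_univ_three, Matrix.cons_val_zero, Matrix.cons_val_one,
        Matrix.cons_val, ha, hn]
      rw [show l * z 2 - x - l * (z 2 - z 0) = l * z 0 - x by ring,
        show l * z 2 - x + l * (z 1 - z 2) = l * z 1 - x by ring]
      push_cast
      field_simp
  have e1 : toi (word ![P, P', P]) c l η
      = (1 * toi (word ![P, P', P]) c l * P.E (ic (Set.Icc (-T) T))) η := by
    rw [one_mul, mul_apply_eq_comp, hη]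
  rw [e1, toi_mul hW hc, toi, hwd, inner_sInt h₂.int (hW'.sCont h₂.meas h₂.bd h₂.contω),
    ← setIntegral_eq_integral_of_forall_compl_eq_zero zg, ← integral_complex_ofReal]
  refine integral_congr_ae (Eventually.of_forall fun x => ?_)
  have s1 : star (P.E (a x)) = P.E (a x) := P.isSelfAdjoint (ba x)
  have e2 : (g x : ℂ) = ⟪η, P.E (a x) (P'.E (fun t => n x t * n x t) (P.E (a x) η))⟫_ℂ := by
    rw [← ContinuousLinearMap.adjoint_inner_left, ← ContinuousLinearMap.star_eq_adjoint, s1]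
    have := hP'.inner_E_E (bn x) (bn x) (P.E (a x) η) (P.E (a x) η)
    simp only [hn, Complex.conj_ofReal] at this
    simp only [hn, ← this, hg, inner_self_eq_norm_sq_to_K]
    push_cast
    rfl
  simp only [e2, hφ, word_three, Matrix.cons_val_zero, Matrix.cons_val_one, Matrix.cons_val,
    one_mul, P.E_smul _ (ba x), P'.E_smul _ ((bn x).mul (bn x)), mul_apply_eq_comp, hη, smul_apply,
    map_smul, inner_smul_right]
  field_simp

theorem exists_ker {χ N : ℝ → ℝ} (hχ : ContDiff ℝ (⊤ : ℕ∞) χ) (hχ' : HasCompactSupport χ)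
    (hN : ContDiff ℝ (⊤ : ℕ∞) N) (hN' : HasCompactSupport N) :
    ∃ c : ℝ × ℝ → ℂ, Integrable c ∧ Ev c ∧ ∀ (K : Type) [NormedAddCommGroup K]
      [InnerProductSpace ℂ K] [CompleteSpace K] (P P' : POVM ℝ K), P.IsPVM → P'.IsPVM →
      ∀ l : ℝ, 0 < l → ∀ (T : ℝ) (η : K), P.E (ic (Set.Icc (-T) T)) η = η →
      Integrable (fun x : ℝ => ‖P'.E (fun t => (N (l * t - x) : ℂ))
        (P.E (fun t => (χ (l * t - x) : ℂ)) η)‖ ^ 2) ∧
      ∫ x : ℝ, ‖P'.E (fun t => (N (l * t - x) : ℂ)) (P.E (fun t => (χ (l * t - x) : ℂ)) η)‖ ^ 2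
        ≤ (⟪η, toi (word ![P, P', P]) c l η⟫_ℂ).re := by
  obtain ⟨c, hc, -, hK, -⟩ := exists_K2 (contDiff_kk hχ hχ' hN) (compact_kk hχ' hN')
  have h1 : (-1 : ℝ) ≠ 0 := by norm_num
  refine ⟨fun w => c w + dil (-1) c w, hc.add (integrable_dil hc h1), fun w => ?_,
    fun K _ _ _ P P' hP hP' l hl T η hη => ?_⟩
  · simp [dil, add_comm]
  · obtain ⟨i1, e1⟩ := key hχ.continuous hχ' hN.continuous hN' hc hK hP hP' l T η hη
    obtain ⟨-, e2⟩ := key hχ.continuous hχ' hN.continuous hN' hc hK hP hP' (-1 * l) T η hη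
    refine ⟨i1, ?_⟩
    rw [toi_add (isPoly_word _) hc (integrable_dil hc h1), toi_dil (isPoly_word _) hc h1,
      add_apply, inner_add_right, e1, e2, Complex.add_re, Complex.ofReal_re, Complex.ofReal_re]
    exact le_add_of_nonneg_right (integral_nonneg fun _ => sq_nonneg _)

end Ker

end Crest.Agent.N111
end

-- ▼ part N111/F/Aff
section

/-! # Row 111: affine changes of chart, junk removal, the positive kernels (fill the proofs IN PLACE). -/

set_option autoImplicit false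
set_option linter.unusedSectionVars false
set_option linter.unusedVariables false

namespace Crest.Agent.N111

open MeasureTheory Topology Filter Matrix
open scoped InnerProductSpace

variable {K : Type} [NormedAddCommGroup K] [InnerProductSpace ℂ K] [CompleteSpace K]

namespace Af

variable {Y Z : Type} [MeasurableSpace Y] [MeasurableSpace Z]

theorem word3 (Q : Fin 3 → POVM Y K) (g : Fin 3 → Y → ℂ) :
    word Q g = (Q 0).E (g 0) * (Q 1).E (g 1) * (Q 2).E (g 2) := by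
  simp [word, List.ofFn_succ, mul_assoc]

theorem ph_mul (l a : ℝ) (w : ℝ × ℝ) (k : Fin 3) (t : ℝ) :
    ph l w k (a * t) = ph (a * l) w k t := by
  fin_cases k <;> simp only [ph, Fin.zero_eta, Fin.mk_one, Fin.reduceFinMk, cons_val_zero,
    cons_val_one, cons_val] <;> congr 1 <;> ring

theorem ph_add (l : ℝ) (w : ℝ × ℝ) (k : Fin 3) (s t : ℝ) :
    ph l w k (s + t) = ph l w k s * ph l w k t := by
  fin_cases k <;> simp only [ph, Fin.zero_eta, Fin.mk_one, Fin.reduceFinMk, cons_val_zero,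
    cons_val_one, cons_val, ← ex_add] <;> congr 1 <;> ring

theorem ph_prod (l : ℝ) (w : ℝ × ℝ) (s : ℝ) : ph l w 0 s * ph l w 1 s * ph l w 2 s = 1 := by
  simp only [ph, cons_val_zero, cons_val_one, cons_val, ← ex_add]
  rw [← ex_zero]
  congr 1
  ring

variable {c : ℝ × ℝ → ℂ} {W W' : (Fin 3 → ℝ → ℂ) → K →L[ℂ] K}

theorem toi_ext (hW : IsPoly W) (hW' : IsPoly W') (hc : Integrable c) {l l' : ℝ} {T : K →L[ℂ] K}
    (h : ∀ w, W (ph l w) * T = W' (ph l' w) * T) : toi W c l * T = toi W' c l' * T := by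
  rw [toi, toi, sInt_mul hc (sCont_ph hW l), sInt_mul hc (sCont_ph hW' l'), funext h]

/-- uniform continuity in the logarithm of the scale -/
theorem modulus (hW : IsPoly W) (hc : Integrable c) {ε : ℝ} (hε : 0 < ε) :
    ∃ δ > (0 : ℝ), ∀ a a' l : ℝ, |a - a'| < δ * |a'| →
      ‖toi W c (a * l) - toi W c (a' * l)‖ ≤ ε := by
  obtain ⟨C, hC⟩ := hW.bdd
  have hC' : 0 < max C 1 := lt_max_of_lt_right one_pos
  obtain ⟨δ, hδ, h⟩ := Metric.eventually_nhds_iff.1 (((tendsto_dil hc one_ne_zero).eventually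
    (gt_mem_nhds (div_pos hε hC'))).and (eventually_ne_nhds one_ne_zero))
  refine ⟨δ, hδ, fun a a' l ha => ?_⟩
  have h0 : a' ≠ 0 := fun h0 => by
    rw [h0, abs_zero, mul_zero] at ha
    exact (abs_nonneg _).not_gt ha
  obtain ⟨h1, h2⟩ := h (y := a / a') (by
    rw [Real.dist_eq, div_sub_one h0, abs_div, div_lt_iff₀ (abs_pos.2 h0)]
    exact ha)
  have e : a * l = a / a' * (a' * l) := by field_simp
  rw [e, ← toi_dil hW hc h2, ← one_mul (a' * l), ← toi_dil hW hc one_ne_zero, one_mul,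
    ← toi_sub hW (integrable_dil hc h2) (integrable_dil hc one_ne_zero)]
  refine (norm_toi_le hW ((integrable_dil hc h2).sub (integrable_dil hc one_ne_zero)) hC'.le
    (fun f hm hf => (hC f hm hf).trans (le_max_left _ _)) _).trans ?_
  exact ((lt_div_iff₀ hC').1 h1).le

theorem part (Ψ : POVM Z K) {α : Type} {φ : Z → α} (hφ : ∀ a, MeasurableSet (φ ⁻¹' {a}))
    {s : Finset α} (hs : ∀ b, φ b ∈ s) : ∑ a ∈ s, Ψ.E (ic (φ ⁻¹' {a})) = 1 := by
  classical
  rw [← Ψ.E_sum s fun a _ => BM.ic (hφ a), ← Ψ.E_one]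
  congr 1
  funext b
  simp [ic_apply, hs b]

/-- block diagonal operators -/
theorem blk {Ψ : POVM Z K} (hΨ : Ψ.IsPVM) {α : Type} {φ : Z → α}
    (hφ : ∀ a, MeasurableSet (φ ⁻¹' {a})) {s : Finset α} (hs : ∀ b, φ b ∈ s) {X : K →L[ℂ] K}
    (hX : ∀ h, BM h → Commute (Ψ.E h) X) {ε : ℝ} (hε : 0 ≤ ε)
    (h : ∀ a ∈ s, ‖X * Ψ.E (ic (φ ⁻¹' {a}))‖ ≤ ε) : ‖X‖ ≤ ε := by
  classical
  have hb : ∀ a ∈ s, BM (ic (φ ⁻¹' {a})) := fun a _ => BM.ic (hφ a)
  have h1 : ∀ y, ∑ a ∈ s, ‖ic (φ ⁻¹' {a}) y‖ ^ 2 ≤ 1 := fun y => by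
    simp [ic_apply, apply_ite, hs y]
  refine ContinuousLinearMap.opNorm_le_bound _ hε fun η => ?_
  have e : X η = ∑ a ∈ s, Ψ.E (ic (φ ⁻¹' {a})) ((X * Ψ.E (ic (φ ⁻¹' {a})))
      (Ψ.E (ic (φ ⁻¹' {a})) η)) := by
    conv_lhs => rw [← mul_one X, ← part Ψ hφ hs, Finset.mul_sum, _root_.sum_apply]
    refine Finset.sum_congr rfl fun a ha => ?_
    rw [← mul_apply_eq_comp, ← mul_apply_eq_comp, ← mul_assoc, (hX _ (hb a ha)).eq, mul_assoc X,
      hΨ.ic_idem (hφ a), mul_assoc, hΨ.ic_idem (hφ a)]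
  refine abs_le_of_sq_le_sq' ?_ (by positivity) |>.2
  rw [e]
  refine (Ψ.norm_sum_E_sq_le s hb zero_le_one h1 _).trans ?_
  rw [one_mul, mul_pow]
  refine le_trans (Finset.sum_le_sum fun a ha => pow_le_pow_left₀ (norm_nonneg _)
    ((ContinuousLinearMap.le_opNorm _ _).trans
      (mul_le_mul_of_nonneg_right (h a ha) (norm_nonneg _))) 2) ?_
  simp only [mul_pow, ← Finset.mul_sum]
  exact mul_le_mul_of_nonneg_left ((Ψ.sum_norm_E_sq_le s hb h1 η).trans_eq (one_mul _))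
    (sq_nonneg _)

/-- three PVMs fibred over a common one -/
structure Fib (Q : Fin 3 → POVM (Y × Z) K) (Ψ : POVM Z K) : Prop where
  pvm : ∀ i, (Q i).IsPVM
  eq : ∀ i h, BM h → (Q i).E (fun z => h z.2) = Ψ.E h

variable {Q : Fin 3 → POVM (Y × Z) K} {Ψ : POVM Z K}

theorem Fib.pvm' (H : Fib Q Ψ) : Ψ.IsPVM := fun f g hf hg => by
  rw [← H.eq 0 _ (hf.mul hg), H.pvm 0 _ _ (hf.comp measurable_snd) (hg.comp measurable_snd),
    H.eq 0 f hf, H.eq 0 g hg]

theorem Fib.comm (H : Fib Q Ψ) {h : Z → ℂ} (hh : BM h) {g : Fin 3 → Y × Z → ℂ}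
    (hg : ∀ k, BM (g k)) : Commute (Ψ.E h) (word Q g) := by
  have : ∀ k, Commute (Ψ.E h) ((Q k).E (g k)) := fun k =>
    H.eq k h hh ▸ (H.pvm k).commute (hh.comp measurable_snd) (hg k)
  rw [word3]
  exact ((this 0).mul_right (this 1)).mul_right (this 2)

theorem Fib.word_mul (H : Fib Q Ψ) {h : Fin 3 → Z → ℂ} (hh : ∀ k, BM (h k))
    {g : Fin 3 → Y × Z → ℂ} (hg : ∀ k, BM (g k)) :
    word Q (fun k z => g k z * h k z.2) = word Q g * Ψ.E fun b => h 0 b * h 1 b * h 2 b := by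
  have e : ∀ k, (Q k).E (fun z => g k z * h k z.2) = (Q k).E (g k) * Ψ.E (h k) := fun k => by
    rw [H.pvm k _ _ (hg k) ((hh k).comp measurable_snd), H.eq k _ (hh k)]
  have m : ∀ i k, Commute (Ψ.E (h i)) ((Q k).E (g k)) := fun i k =>
    H.eq k _ (hh i) ▸ (H.pvm k).commute ((hh i).comp measurable_snd) (hg k)
  rw [word3, word3, e, e, e, H.pvm' _ _ ((hh 0).mul (hh 1)) (hh 2), H.pvm' _ _ (hh 0) (hh 1)]
  simp only [mul_assoc]
  rw [(m 1 2).left_comm, (m 0 1).left_comm, (m 0 2).left_comm]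

theorem ic3 (A : Set Z) : (fun b => ic A b * ic A b * ic A b) = ic A := by
  funext b
  by_cases h : b ∈ A <;> simp [h]

theorem Fib.cut (H : Fib Q Ψ) {A : Set Z} (hA : MeasurableSet A) {g g' : Fin 3 → Y × Z → ℂ}
    (hg : ∀ k, BM (g k)) (hg' : ∀ k, BM (g' k)) (e : ∀ k z, z.2 ∈ A → g k z = g' k z) :
    word Q g * Ψ.E (ic A) = word Q g' * Ψ.E (ic A) := by
  rw [← ic3 A, ← H.word_mul (h := fun _ => ic A) (fun _ => BM.ic hA) hg,
    ← H.word_mul (h := fun _ => ic A) (fun _ => BM.ic hA) hg']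
  congr 1
  funext k z
  by_cases h : z.2 ∈ A
  · rw [e k z h]
  · simp [h]

/-- the word with a fibrewise dilation -/
noncomputable def Wd (Q : Fin 3 → POVM (Y × Z) K) (u : Fin 3 → Y → ℂ) (t : Y → ℝ) (ρ : Z → ℝ)
    (f : Fin 3 → ℝ → ℂ) : K →L[ℂ] K := word Q fun k z => u k z.1 * f k (ρ z.2 * t z.1)

variable {u : Fin 3 → Y → ℂ} {t : Y → ℝ} {ρ ρ' : Z → ℝ}

theorem meas (ht : Measurable t) (hρ : Measurable ρ) : Measurable fun z : Y × Z => ρ z.2 * t z.1 :=
  (hρ.comp measurable_snd).mul (ht.comp measurable_fst)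

theorem bm (hu : ∀ i, BM (u i)) (ht : Measurable t) (hρ : Measurable ρ) (l : ℝ) (w : ℝ × ℝ)
    (k : Fin 3) : BM fun z : Y × Z => u k z.1 * ph l w k (ρ z.2 * t z.1) :=
  ((hu k).comp measurable_fst).mul ((bm_ph l w k).comp (meas ht hρ))

theorem isPoly_Wd (hu : ∀ i, BM (u i)) (ht : Measurable t) (hρ : Measurable ρ) :
    IsPoly (Wd Q u t ρ) :=
  (isPoly_word Q).comp (fun _ => meas ht hρ) fun k => (hu k).comp measurable_fst

theorem Fib.toi_cut (H : Fib Q Ψ) (hu : ∀ i, BM (u i)) (ht : Measurable t) (hρ : Measurable ρ)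
    (hρ' : Measurable ρ') (hc : Integrable c) {A : Set Z} (hA : MeasurableSet A) {a : ℝ}
    (e : ∀ b ∈ A, ρ b = a * ρ' b) (l : ℝ) :
    toi (Wd Q u t ρ) c l * Ψ.E (ic A) = toi (Wd Q u t ρ') c (a * l) * Ψ.E (ic A) :=
  toi_ext (isPoly_Wd hu ht hρ) (isPoly_Wd hu ht hρ') hc fun w =>
    H.cut hA (bm hu ht hρ _ w) (bm hu ht hρ' _ w) fun k z hz => by
      rw [e _ hz, mul_assoc, ph_mul]

theorem Fib.comm_toi (H : Fib Q Ψ) (hu : ∀ i, BM (u i)) (ht : Measurable t) (hρ : Measurable ρ)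
    (hc : Integrable c) (l : ℝ) {h : Z → ℂ} (hh : BM h) :
    Commute (Ψ.E h) (toi (Wd Q u t ρ) c l) :=
  commute_sInt hc (sCont_ph (isPoly_Wd hu ht hρ) l) fun w => H.comm hh (bm hu ht hρ l w)

theorem tendsto_toi (hu : ∀ i, BM (u i)) (ht : Measurable t) (hρ : Measurable ρ)
    (hc : Integrable c) {σ : ℕ → Z → ℝ} (hσ : ∀ n, Measurable (σ n))
    (h : ∀ b, Tendsto (fun n => σ n b) atTop (𝓝 (ρ b))) (l : ℝ) (η : K) :
    Tendsto (fun n => toi (Wd Q u t (σ n)) c l η) atTop (𝓝 (toi (Wd Q u t ρ) c l η)) := by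
  obtain ⟨B, hB0, hB⟩ := exists_bound_pi hu
  obtain ⟨C, hC0, hC⟩ := (isPoly_word Q).norm_le
  have hb : ∀ w k a s, ‖u k a * ph l w k s‖ ≤ B := fun w k a s => by
    rw [norm_mul, norm_ph, mul_one]
    exact hB k a
  simp only [toi, sInt_apply hc (sCont_ph (isPoly_Wd hu ht hρ) l),
    fun n => sInt_apply hc (sCont_ph (isPoly_Wd (Q := Q) hu ht (hσ n)) l)]
  refine tendsto_integral_of_dominated_convergence (fun w => ‖c w‖ * (C * (∏ _k : Fin 3, B) * ‖η‖))
    (fun n => ((sCont_ph (isPoly_Wd hu ht (hσ n)) l).integrable hc η).1) (hc.norm.mul_const _)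
    (fun n => Eventually.of_forall fun w => ?_) (Eventually.of_forall fun w => ?_)
  · rw [norm_smul]
    exact mul_le_mul_of_nonneg_left ((ContinuousLinearMap.le_opNorm _ _).trans
      (mul_le_mul_of_nonneg_right (hC _ _ (fun k => (bm hu ht (hσ n) l w k).meas) (fun _ => hB0)
        fun k z => hb w k _ _) (norm_nonneg _))) (norm_nonneg _)
  · refine Tendsto.const_smul ((isPoly_word Q).lim _ _ B (fun n k => (bm hu ht (hσ n) l w k).meas)
      (fun n k z => hb w k _ _) (fun k z => Tendsto.const_mul _ ?_) η) _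
    have : Continuous (ph l w k) :=
      (continuous_ph k).comp (by fun_prop : Continuous fun s : ℝ => (l, w, s))
    exact (this.tendsto _).comp ((h z.2).mul_const _)

/-- the core: dilation factors bounded above and below -/
theorem Fib.core (H : Fib Q Ψ) (hu : ∀ i, BM (u i)) (ht : Measurable t) (hρ : Measurable ρ)
    (hc : Integrable c) (he : Ev c) {m M : ℝ} (hm : 0 < m) (hL : ∀ b, |ρ b| ∈ Set.Icc m M) :
    AvT atTop (fun l => toi (Wd Q u t ρ) c l - toi (Wd Q u t fun _ => 1) c l) 0 := by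
  have h1 : Measurable fun _ : Z => (1 : ℝ) := measurable_const
  have p1 := isPoly_Wd (Q := Q) hu ht h1
  have s1 := sCont_toi p1 hc
  have hLc : IsCompact {x : ℝ | |x| ∈ Set.Icc m M} :=
    (isCompact_closedBall (0 : ℝ) M).of_isClosed_subset (isClosed_Icc.preimage continuous_abs)
      fun x hx => by simpa using hx.2
  refine avT_of_approx le_rfl ((sCont_toi (isPoly_Wd hu ht hρ) hc).sub s1) fun ε hε => ?_
  obtain ⟨δ, hδ, hmod⟩ := modulus p1 hc hε
  obtain ⟨s, q, hq, hs, hqs⟩ := exists_quant hLc (δ := δ * m / 2) (by positivity)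
  have hqρ : Measurable fun b => q (ρ b) := hq.comp hρ
  have hfib : ∀ a, MeasurableSet ((fun b => q (ρ b)) ⁻¹' {a}) := fun a =>
    hqρ (measurableSet_singleton a)
  refine ⟨fun l => toi (Wd Q u t fun b => q (ρ b)) c l - toi (Wd Q u t fun _ => 1) c l,
    (sCont_toi (isPoly_Wd hu ht hqρ) hc).sub s1, ?_, Eventually.of_forall fun l => ?_⟩
  · have ha : ∀ a ∈ s, 0 < |a| := fun a ha => hm.trans_le (hs ha).1
    have := AvT.sum s (fun a h => (avT_shift s1 (ha a h)).mul 1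
      (Ψ.E (ic ((fun b => q (ρ b)) ⁻¹' {a})))) fun a h => ((SCont.const 1).mul
        (SCont.sub ⟨fun η => (s1.1 η).comp (continuous_const_mul |a|),
          s1.2.imp fun C hC r => hC _⟩ s1)).mul (SCont.const _)
    simp only [mul_zero, zero_mul, Finset.sum_const_zero, one_mul] at this
    refine this.congr le_rfl (Eventually.of_forall fun l => ?_)
    conv_rhs => rw [← mul_one (_ - _), ← part Ψ hfib fun b => (hqs _ (hL b)).1, Finset.mul_sum]
    refine Finset.sum_congr rfl fun a _ => ?_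
    rw [sub_mul, sub_mul, H.toi_cut hu ht hqρ h1 hc (hfib a) (a := a) fun b hb => by
      rw [mul_one]; exact hb]
    rcases abs_choice a with e | e <;> rw [e]
    rw [neg_mul, toi_neg p1 hc he]
  · rw [sub_sub_sub_cancel_right]
    choose s' q' hq' hs' hqs' using fun n : ℕ => exists_quant hLc (δ := 1 / ((n : ℝ) + 1))
      Nat.one_div_pos_of_nat
    have hσ : ∀ n, Measurable fun b => q' n (ρ b) := fun n => (hq' n).comp hρ
    refine ContinuousLinearMap.opNorm_le_bound _ hε.le fun η => ?_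
    have lim := ((tendsto_toi (Q := Q) hu ht hρ hc hσ (fun b => tendsto_iff_dist_tendsto_zero.2
      (squeeze_zero (fun _ => dist_nonneg) (fun n => (hqs' n _ (hL b)).2.le)
        tendsto_one_div_add_atTop_nhds_zero_nat)) l η).sub_const
        (toi (Wd Q u t fun b => q (ρ b)) c l η)).norm
    refine le_of_tendsto lim (((tendsto_one_div_add_atTop_nhds_zero_nat (𝕜 := ℝ)).eventually
      (gt_mem_nhds (show 0 < δ * m / 2 by positivity))).mono fun n hn => ?_)
    rw [← _root_.sub_apply]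
    refine (ContinuousLinearMap.le_opNorm _ _).trans (mul_le_mul_of_nonneg_right ?_ (norm_nonneg _))
    have hf2 : ∀ a : ℝ × ℝ, MeasurableSet ((fun b => (q' n (ρ b), q (ρ b))) ⁻¹' {a}) := fun a =>
      ((hσ n).prodMk hqρ) (measurableSet_singleton a)
    refine blk H.pvm' hf2 (s := s' n ×ˢ s)
      (fun b => Finset.mem_product.2 ⟨(hqs' n _ (hL b)).1, (hqs _ (hL b)).1⟩)
      (fun h hh => (H.comm_toi hu ht (hσ n) hc l hh).sub_right (H.comm_toi hu ht hqρ hc l hh))
      hε.le fun a ha => ?_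
    rcases Set.eq_empty_or_nonempty ((fun b => (q' n (ρ b), q (ρ b))) ⁻¹' {a}) with e | ⟨b, hb⟩
    · rw [e, ic_empty, Ψ.E_zero, mul_zero, norm_zero]
      exact hε.le
    rw [sub_mul, H.toi_cut hu ht (hσ n) h1 hc (hf2 a) (a := a.1) fun b hb => by
        rw [mul_one]; exact congrArg Prod.fst hb,
      H.toi_cut hu ht hqρ h1 hc (hf2 a) (a := a.2) fun b hb => by
        rw [mul_one]; exact congrArg Prod.snd hb, ← sub_mul]
    refine (norm_mul_le _ _).trans ((mul_le_mul (hmod _ _ l ?_) (Ψ.norm_E_le (BM.ic (hf2 a)).meas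
      zero_le_one (norm_ic_le _)) (norm_nonneg _) hε.le).trans_eq (mul_one _))
    have e1 := (hqs' n _ (hL b)).2
    have e2 := (hqs _ (hL b)).2
    have e3 := mul_le_mul_of_nonneg_left (hs (Finset.mem_product.1 ha).2).1 hδ.le
    rw [show q' n (ρ b) = a.1 from congrArg Prod.fst hb] at e1
    rw [show q (ρ b) = a.2 from congrArg Prod.snd hb] at e2
    have e4 := dist_triangle_right a.1 a.2 (ρ b)
    rw [← Real.dist_eq]
    linarith

end Af

open Af in
/-- **AFF** -/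
theorem toi_aff {Y Z : Type} [MeasurableSpace Y] [MeasurableSpace Z] {Q : Fin 3 → POVM (Y × Z) K}
    {Ψ : POVM Z K} (hQ : ∀ i, (Q i).IsPVM)
    (hΨ : ∀ i h, BM h → (Q i).E (fun z => h z.2) = Ψ.E h) {t t' : Y → ℝ} (ht : Measurable t)
    (ht' : Measurable t') {p r : Z → ℝ} (hp : Measurable p) (hr : Measurable r)
    {u : Fin 3 → Y → ℂ} (hu : ∀ i, BM (u i)) {S : Set Z} (hS : MeasurableSet S)
    (hr0 : ∀ b ∈ S, r b ≠ 0)
    (hrel : ∀ i, (Q i).E (ic {z | z.2 ∈ S ∧ u i z.1 ≠ 0 ∧ t' z.1 ≠ p z.2 + r z.2 * t z.1}) = 0)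
    {c : ℝ × ℝ → ℂ} (hc : Integrable c) (he : Ev c) :
    AvT atTop (fun l => (toi (fun f => word Q fun k z => u k z.1 * f k (t' z.1)) c l
      - toi (fun f => word Q fun k z => u k z.1 * f k (t z.1)) c l) * Ψ.E (ic S)) 0 := by
  classical
  have H : Fib Q Ψ := ⟨hQ, hΨ⟩
  have h1 : Measurable fun _ : Z => (1 : ℝ) := measurable_const
  have e0 : ∀ t : Y → ℝ, (fun f : Fin 3 → ℝ → ℂ => word Q fun k z => u k z.1 * f k (t z.1)) =
      Wd Q u t fun _ => 1 := fun t => by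
    funext f
    simp only [Wd, one_mul]
  have bS := BM.ic hS
  have e1 : ∀ l, toi (Wd Q u t' fun _ => 1) c l * Ψ.E (ic S) =
      toi (Wd Q u t r) c l * Ψ.E (ic S) := fun l =>
    toi_ext (isPoly_Wd hu ht' h1) (isPoly_Wd hu ht hr) hc fun w => by
      have b1 : ∀ k, BM fun b => ic S b * ph l w k (p b) := fun k => bS.mul ((bm_ph l w k).comp hp)
      have a1 := H.word_mul b1 (bm hu ht hr l w)
      have a2 := H.word_mul (h := fun _ => ic S) (fun _ => bS) (bm hu ht' h1 l w)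
      have a3 : (fun b => ic S b * ph l w 0 (p b) * (ic S b * ph l w 1 (p b)) *
          (ic S b * ph l w 2 (p b))) = ic S := by
        funext b
        by_cases hb : b ∈ S
        · simp only [ic_of_mem hb, one_mul, ph_prod]
        · simp [hb]
      rw [ic3] at a2
      rw [a3] at a1
      rw [Wd, Wd, ← a1, ← a2, word, word]
      congr 2
      funext k
      refine (Q k).E_congr_of_null ((measurable_snd hS).inter (((measurableSet_eq_fun
        ((hu k).meas.comp measurable_fst) measurable_const).compl).inter (measurableSet_eq_fun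
        (ht'.comp measurable_fst) ((hp.comp measurable_snd).add (meas ht hr))).compl)) (hrel k)
        ((bm hu ht' h1 l w k).mul (bS.comp measurable_snd))
        ((bm hu ht hr l w k).mul ((b1 k).comp measurable_snd)) fun z hz => ?_
      by_cases hb : z.2 ∈ S
      · by_cases h0 : u k z.1 = 0
        · simp [h0]
        · have : t' z.1 = p z.2 + r z.2 * t z.1 := by
            by_contra h
            exact hz ⟨hb, h0, h⟩
          rw [one_mul, this, ph_add]
          ring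
      · simp [hb]
  simp only [e0, sub_mul, e1]
  simp only [← sub_mul]
  let A : ℕ → Set Z := fun n => S ∩ {b | |r b| ∈ Set.Icc (1 / ((n : ℝ) + 1)) (n + 1)}
  have hA : ∀ n, MeasurableSet (A n) := fun n => hS.inter (hr.abs measurableSet_Icc)
  refine avT_of_strong (E := fun n => Ψ.E (ic (A n)))
    ((sCont_toi (isPoly_Wd hu ht hr) hc).sub (sCont_toi (isPoly_Wd hu ht h1) hc))
    (Ψ.tendsto_E (fun n => (BM.ic (hA n)).meas) (fun n => norm_ic_le _) fun b => ?_) fun n => ?_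
  · by_cases hb : b ∈ S
    · rw [ic_of_mem hb]
      refine tendsto_const_nhds.congr' ?_
      filter_upwards [(tendsto_one_div_add_atTop_nhds_zero_nat (𝕜 := ℝ)).eventually
        (ge_mem_nhds (abs_pos.2 (hr0 b hb))), tendsto_natCast_atTop_atTop.eventually_ge_atTop |r b|]
        with n h2 h3
      exact (ic_of_mem (show b ∈ A n from ⟨hb, h2, by linarith⟩)).symm
    · have : ∀ n, ic (A n) b = 0 := fun n => ic_of_notMem fun h => hb h.1
      simp [this, hb]
  · have hρ : Measurable ((A n).piecewise r fun _ => 1) := hr.piecewise (hA n) h1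
    have hn : (0 : ℝ) ≤ n := n.cast_nonneg
    have := (H.core hu ht hρ hc he (m := 1 / ((n : ℝ) + 1)) (M := n + 1) Nat.one_div_pos_of_nat
      fun b => by
        by_cases hb : b ∈ A n
        · rw [Set.piecewise_eq_of_mem _ _ _ hb]
          exact hb.2
        · rw [Set.piecewise_eq_of_notMem _ _ _ hb, abs_one]
          exact ⟨(div_le_one (by positivity)).2 (by linarith), by linarith⟩).mul 1 (Ψ.E (ic (A n)))
    simp only [one_mul, zero_mul, sub_mul] at this ⊢
    refine this.congr le_rfl (Eventually.of_forall fun l => ?_)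
    rw [H.toi_cut hu ht hρ hr hc (hA n) (a := 1) fun b hb => by
      rw [Set.piecewise_eq_of_mem _ _ _ hb, one_mul], one_mul]

theorem Af.toi_null {Y : Type} [MeasurableSpace Y] {P : Fin 3 → POVM Y K} {t : Y → ℝ}
    (ht : Measurable t) {g : Fin 3 → Y → ℂ} (hg : ∀ k, BM (g k)) {c : ℝ × ℝ → ℂ}
    (hc : Integrable c) {R m l : ℝ} (hK : ∀ p : ℝ × ℝ, R < ‖p‖ → K2 c p = 0) (hl0 : 0 ≤ l)
    (hl : R < l * m) {i : Fin 3} (hi : i = 0 ∨ i = 1) (h0 : ∀ a, g i a ≠ 0 → t a = 0)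
    (h2 : ∀ a, g 2 a ≠ 0 → m ≤ |t a|) :
    toi (fun f => word P fun k a => g k a * f k (t a)) c l = 0 := by
  refine toi_eq_zero ((isPoly_word P).comp (fun _ => ht) hg) hc hK fun z hz => ?_
  have key : ∀ (j : Fin 3) (B : Set ℝ), IsClosed B → (∀ a, g j a ≠ 0 → t a ∈ B) → z j ∈ B := by
    intro j B hB h
    have := mem_of_mem_supp (Z := Function.update (fun _ => Set.univ) j B) (fun k => ?_)
      (fun f hf k hk => (isPoly_word P).eq_zero_of_slot
        (fun k => (hg k).mul ((hf k).comp ht)) (i := k) fun a => ?_) hz j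
    · rwa [Function.update_self] at this
    · rcases eq_or_ne k j with rfl | e
      · rwa [Function.update_self]
      · rw [Function.update_of_ne e]
        exact isClosed_univ
    · by_cases ha : g k a = 0
      · rw [ha, zero_mul]
      rw [hk, mul_zero]
      rcases eq_or_ne k j with rfl | e
      · rw [Function.update_self]
        exact h a ha
      · rw [Function.update_of_ne e]
        trivial
  have k0 : z i = 0 := key i {0} isClosed_singleton h0
  have k2 : m ≤ |z 2| := key 2 {s | m ≤ |s|} (isClosed_le continuous_const continuous_abs) h2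
  have k3 := hl.trans_le (mul_le_mul_of_nonneg_left k2 hl0)
  rcases hi with rfl | rfl
  · refine k3.trans_le (le_trans (le_of_eq ?_) (norm_fst_le _))
    simp [k0, abs_of_nonneg hl0]
  · refine k3.trans_le (le_trans (le_of_eq ?_) (norm_snd_le _))
    simp [k0, abs_of_nonneg hl0]

open Af in
/-- **CLEAN**: the junk value `t = 0` off `A` does not matter -/
theorem toi_clean {Y : Type} [MeasurableSpace Y] {P : Fin 3 → POVM Y K} (hP : (P 2).IsPVM)
    {t : Y → ℝ} (ht : Measurable t) {A : Set Y} (hA : MeasurableSet A) (h0 : ∀ a, a ∉ A → t a = 0)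
    {c : ℝ × ℝ → ℂ} (hc : Integrable c) (he : Ev c) :
    AvT atTop (fun l => (toi (fun f => word P fun k a => f k (t a)) c l
      - toi (fun f => word P fun k a => ic A a * f k (t a)) c l)
        * (P 2).E (ic {a | t a ≠ 0})) 0 := by
  have bA := BM.ic hA
  have p1 : IsPoly fun f : Fin 3 → ℝ → ℂ => word P fun k a => f k (t a) := by
    have := (isPoly_word P).comp (fun _ => ht) fun _ => BM.const 1
    simpa only [one_mul] using this
  have p2 : IsPoly fun f : Fin 3 → ℝ → ℂ => word P fun k a => ic A a * f k (t a) :=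
    (isPoly_word P).comp (fun _ => ht) fun _ => bA
  let B : ℕ → Set Y := fun n => {a | 1 / ((n : ℝ) + 1) ≤ |t a|}
  have hB : ∀ n, MeasurableSet (B n) := fun n => measurableSet_le measurable_const ht.abs
  refine avT_of_strong (E := fun n => (P 2).E (ic (B n)))
    ((sCont_toi p1 hc).sub (sCont_toi p2 hc))
    ((P 2).tendsto_E (fun n => (BM.ic (hB n)).meas) (fun n => norm_ic_le _) fun a => ?_) fun n => ?_
  · by_cases ha : t a = 0
    · have : ∀ n, ic (B n) a = 0 := fun n => ic_of_notMem fun h =>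
        (Nat.one_div_pos_of_nat.trans_le (show 1 / ((n : ℝ) + 1) ≤ |t a| from h)).ne'
          (by rw [ha, abs_zero])
      simp [this, ha]
    · rw [ic_of_mem (show a ∈ {a | t a ≠ 0} from ha)]
      refine tendsto_const_nhds.congr' ?_
      filter_upwards [(tendsto_one_div_add_atTop_nhds_zero_nat (𝕜 := ℝ)).eventually
        (ge_mem_nhds (abs_pos.2 ha))] with n h2
      exact (ic_of_mem (show a ∈ B n from h2)).symm
  have bB := BM.ic (hB n)
  have bA' := BM.ic hA.compl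
  have q1 := p1.mul 1 ((P 2).E (ic (B n)))
  have q2 := p2.mul 1 ((P 2).E (ic (B n)))
  have := avT_toi_of_smooth q1 q2 le_rfl (fun c hc he _ hs => ?_) hc he
  · refine this.congr le_rfl (Eventually.of_forall fun l => ?_)
    rw [← toi_mul p1 hc, ← toi_mul p2 hc, one_mul, one_mul, sub_mul]
  obtain ⟨R, -, hK⟩ := Fou.exists_radius hs
  refine (avT_const atTop 0).congr le_rfl ?_
  have hm : (0 : ℝ) < 1 / ((n : ℝ) + 1) := Nat.one_div_pos_of_nat
  filter_upwards [eventually_ge_atTop 0, (tendsto_id.atTop_mul_const hm).eventually_gt_atTop R]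
    with l hl0 hl
  have hn : ∀ {O : Set Y} {a : Y}, ic O a ≠ 0 → a ∈ O := fun h => by
    by_contra h'
    exact h (ic_of_notMem h')
  have g1 : ∀ k, BM (![ic Aᶜ, fun _ => 1, ic (B n)] k) := fun k => by
    fin_cases k
    exacts [bA', BM.const 1, bB]
  have g2 : ∀ k, BM (![ic A, ic Aᶜ, ic (B n)] k) := fun k => by
    fin_cases k
    exacts [bA, bA', bB]
  have z1 := toi_null (P := P) ht g1 hc hK hl0 hl (Or.inl rfl) (fun a ha => h0 a (hn ha))
    fun a ha => hn (O := B n) ha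
  have z2 := toi_null (P := P) ht g2 hc hK hl0 hl (Or.inr rfl) (fun a ha => h0 a (hn ha))
    fun a ha => hn (O := B n) ha
  rw [toi_sub_W q1 q2 hc, ← sub_zero (toi _ c l), ← z1,
    toi_sub_W (q1.sub q2) ((isPoly_word P).comp (fun _ => ht) g1) hc, z1, ← z2]
  refine toi_congr (fun f hf => ?_) l
  have b := fun k => (hf k).comp ht
  have e1 : ∀ k, (P k).E (fun a => ic Aᶜ a * f k (t a)) =
      (P k).E (fun a => f k (t a)) - (P k).E fun a => ic A a * f k (t a) := fun k => by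
    rw [← (P k).E_sub (b k) (bA.mul (b k))]
    simp only [ic_compl, sub_mul, one_mul]
  have e2 : (P 2).E (fun a => f 2 (t a)) * (P 2).E (ic (B n)) =
      (P 2).E fun a => ic (B n) a * f 2 (t a) := by
    rw [← hP _ _ (b 2) bB]
    simp only [mul_comm]
  have e3 : (P 2).E (fun a => ic A a * f 2 (t a)) * (P 2).E (ic (B n)) =
      (P 2).E fun a => ic (B n) a * f 2 (t a) := by
    rw [← hP _ _ (bA.mul (b 2)) bB]
    congr 1
    funext a
    by_cases ha : a ∈ B n
    · have : a ∈ A := by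
        by_contra h
        exact (hm.trans_le ha).ne' (by rw [h0 a h, abs_zero])
      simp [ha, this]
    · simp [ha]
  simp only [word3, one_mul, cons_val_zero, cons_val_one, cons_val, mul_assoc, e1, e2, e3]
  noncomm_ring

/-- **KER**: the positive even kernels -/
theorem exists_ker {χ N : ℝ → ℝ} (hχ : ContDiff ℝ (⊤ : ℕ∞) χ) (hχ' : HasCompactSupport χ)
    (hN : ContDiff ℝ (⊤ : ℕ∞) N) (hN' : HasCompactSupport N) :
    ∃ c : ℝ × ℝ → ℂ, Integrable c ∧ Ev c ∧ ∀ (K : Type) [NormedAddCommGroup K]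
      [InnerProductSpace ℂ K] [CompleteSpace K] (P P' : POVM ℝ K), P.IsPVM → P'.IsPVM →
      ∀ l : ℝ, 0 < l → ∀ (T : ℝ) (η : K), P.E (ic (Set.Icc (-T) T)) η = η →
      Integrable (fun x : ℝ => ‖P'.E (fun t => (N (l * t - x) : ℂ))
        (P.E (fun t => (χ (l * t - x) : ℂ)) η)‖ ^ 2) ∧
      ∫ x : ℝ, ‖P'.E (fun t => (N (l * t - x) : ℂ)) (P.E (fun t => (χ (l * t - x) : ℂ)) η)‖ ^ 2
        ≤ (⟪η, toi (word ![P, P', P]) c l η⟫_ℂ).re :=
  Ker.exists_ker hχ hχ' hN hN'

end Crest.Agent.N111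
end

-- ▼ part N111/F/Chart1
section

/-! # Row 111: charts, flags, covers (first half of `F/Chart`). -/

set_option autoImplicit false
set_option linter.unusedSectionVars false
set_option linter.unusedVariables false

namespace Crest.Agent.N111

open MeasureTheory Topology Filter Matrix
open scoped InnerProductSpace

variable {K : Type} [NormedAddCommGroup K] [InnerProductSpace ℂ K] [CompleteSpace K]

/-- chart coordinate -/
noncomputable def tc (α β : V) (a : V) : ℝ := (β ⬝ᵥ a) / (α ⬝ᵥ a)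
/-- good points -/
def GA (α β : V) : Set V := {a | α ⬝ᵥ a ≠ 0 ∧ β ⬝ᵥ a ≠ 0}
/-- good lines -/
def GB (α β : V) : Set V := {b | (α ⨯₃ β) ⬝ᵥ b ≠ 0}

@[fun_prop] theorem measurable_tc (α β : V) : Measurable (tc α β) := by
  unfold tc dotProduct; fun_prop
theorem continuousOn_tc (α β : V) : ContinuousOn (tc α β) {a | α ⬝ᵥ a ≠ 0} :=
  ContinuousOn.div (by fun_prop) (by fun_prop) fun _ h => h
theorem tc_smul (α β : V) {z : ℝ} (hz : z ≠ 0) (a : V) : tc α β (z • a) = tc α β a := by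
  simp only [tc, dotProduct_smul, smul_eq_mul, mul_div_mul_left _ _ hz]
theorem tc_swap (α β a : V) : tc β α a = (tc α β a)⁻¹ := (inv_div _ _).symm
theorem tc_ac (g : G) (α β a : V) : tc (ac (dl g) α) (ac (dl g) β) (ac g a) = tc α β a := by
  simp only [tc, dotProduct_comm _ (ac g a), ac_dot_ac_dl, dotProduct_comm a]
theorem tc_sub {α β a a' : V} (h : α ⬝ᵥ a ≠ 0) (h' : α ⬝ᵥ a' ≠ 0) :
    tc α β a' - tc α β a = (α ⨯₃ β) ⬝ᵥ (a ⨯₃ a') / ((α ⬝ᵥ a) * (α ⬝ᵥ a')) := by
  rw [cross_dot_cross, tc, tc]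
  field_simp
theorem isOpen_GA (α β : V) : IsOpen (GA α β) :=
  (isOpen_ne_fun (by fun_prop) continuous_const).inter (isOpen_ne_fun (by fun_prop) continuous_const)
theorem isOpen_GB (α β : V) : IsOpen (GB α β) := isOpen_ne_fun (by fun_prop) continuous_const
theorem Ch1.hom0_ic {O : Set V} (h : ∀ z : ℝ, z ≠ 0 → ∀ a, z • a ∈ O ↔ a ∈ O) : Hom0 (ic O) :=
  fun z hz a => by classical simp only [ic_apply, h z hz a]
theorem hom0_ic_GA (α β : V) : Hom0 (ic (GA α β)) :=
  Ch1.hom0_ic fun z hz a => by simp [GA, hz]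
theorem hom0_ic_GB (α β : V) : Hom0 (ic (GB α β)) :=
  Ch1.hom0_ic fun z hz a => by simp [GB, hz]
theorem GA_eq (α β : V) : GA α β = {a | tc α β a ≠ 0} := by
  ext a; simp only [GA, tc, Set.mem_ofPred_eq, ne_eq, div_eq_zero_iff, not_or, and_comm]
/-- a generic vector -/
theorem Ch1.exists_generic {ι : Type} [Finite ι] (v : ι → V) (h : ∀ i, v i ≠ 0) :
    ∃ γ : V, ∀ i, γ ⬝ᵥ v i ≠ 0 := by
  obtain ⟨γ, hγ⟩ := Module.Dual.exists_forall_ne_zero_of_forall_exists
    (fun i => dotProductBilin ℝ ℝ (v i)) fun i => ⟨v i, Pj.dot_ne (h i)⟩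
  exact ⟨γ, fun i => by rw [dotProduct_comm]; exact hγ i⟩
/-- two points of a line have a common good chart -/
theorem exists_chart {a a' b : V} (ha : a ≠ 0) (ha' : a' ≠ 0) (hb : b ≠ 0) (h : a ⬝ᵥ b = 0)
    (h' : a' ⬝ᵥ b = 0) : ∃ α β, a ∈ GA α β ∧ a' ∈ GA α β ∧ b ∈ GB α β := by
  obtain ⟨α, hα⟩ := Ch1.exists_generic ![a, a'] fun i => by fin_cases i <;> assumption
  have h1 : b ⨯₃ α ≠ 0 := fun e => by
    obtain ⟨t, ht⟩ := exists_smul_of_cross_eq_zero hb e
    exact hα 0 (by simp [ht, dotProduct_comm b, h])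
  obtain ⟨β, hβ⟩ := Ch1.exists_generic ![a, a', b ⨯₃ α] fun i => by fin_cases i <;> assumption
  refine ⟨α, β, ⟨hα 0, hβ 0⟩, ⟨hα 1, hβ 1⟩, fun e => hβ 2 ?_⟩
  rw [dotProduct_comm, triple_product_permutation, triple_product_permutation] at e
  exact e
/-- the six standard charts -/
theorem exists_std_chart {a b : V} (ha : a ≠ 0) (hb : b ≠ 0) (h : a ⬝ᵥ b = 0) :
    ∃ i k m : Fin 3, i ≠ k ∧ i ≠ m ∧ k ≠ m ∧ ‖b‖ = |b m| ∧ ‖a‖ ≤ 2 * |a i| := by
  obtain ⟨m, hm⟩ := exists_abs_eq_norm b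
  have hb' : 0 < ‖b‖ := norm_pos_iff.2 hb
  have key : ∀ i k : Fin 3, i ≠ k → i ≠ m → k ≠ m → |a k| ≤ |a i| → ‖a‖ ≤ 2 * |a i| := by
    intro i k hik him hkm hle
    have e : a m * b m = -(a i * b i + a k * b k) := by
      rw [dotProduct, Fin.sum_univ_three] at h
      fin_cases i <;> fin_cases k <;> fin_cases m <;> simp at hik him hkm ⊢ <;> linarith
    have h1 : |a m| * ‖b‖ ≤ 2 * |a i| * ‖b‖ := by
      have hi : |b i| ≤ ‖b‖ := norm_le_pi_norm b i
      have hk : |b k| ≤ ‖b‖ := norm_le_pi_norm b k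
      calc |a m| * ‖b‖ = |a i * b i + a k * b k| := by rw [← hm, ← abs_mul, e, abs_neg]
        _ ≤ |a i| * |b i| + |a k| * |b k| := by rw [← abs_mul, ← abs_mul]; exact abs_add_le _ _
        _ ≤ |a i| * ‖b‖ + |a i| * ‖b‖ := by gcongr
        _ = _ := by ring
    have h2 := le_of_mul_le_mul_right h1 hb'
    have h3 := abs_nonneg (a i)
    refine (pi_norm_le_iff_of_nonneg (by positivity)).2 fun j => ?_
    have : j = i ∨ j = k ∨ j = m := by omega
    rw [Real.norm_eq_abs]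
    rcases this with rfl | rfl | rfl <;> linarith
  have d1 : m + 1 ≠ m + 2 ∧ m + 1 ≠ m ∧ m + 2 ≠ m := by fin_cases m <;> decide
  rcases le_total |a (m + 2)| |a (m + 1)| with H | H
  · exact ⟨m + 1, m + 2, m, d1.1, d1.2.1, d1.2.2, hm.symm, key _ _ d1.1 d1.2.1 d1.2.2 H⟩
  · exact ⟨m + 2, m + 1, m, d1.1.symm, d1.2.2, d1.2.1, hm.symm,
      key _ _ d1.1.symm d1.2.2 d1.2.1 H⟩
theorem mem_std_chart {a b : V} (ha : a ≠ 0) (hb : b ≠ 0) {i k m : Fin 3} (hik : i ≠ k)
    (him : i ≠ m) (hkm : k ≠ m) (h₁ : ‖b‖ = |b m|) (h₂ : ‖a‖ ≤ 2 * |a i|) :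
    a ∈ GA (ev i) (ev k + (3 : ℝ) • ev i) ∧ b ∈ GB (ev i) (ev k + (3 : ℝ) • ev i) ∧
      tc (ev i) (ev k + (3 : ℝ) • ev i) a ∈ Set.Icc (1 : ℝ) 5 := by
  have hi : a i ≠ 0 := fun e => ha (norm_le_zero_iff.1 (by simpa [e] using h₂))
  have hm : b m ≠ 0 := fun e => hb (norm_eq_zero.1 (by simpa [e] using h₁))
  have e : tc (ev i) (ev k + (3 : ℝ) • ev i) a = a k / a i + 3 := by
    simp only [tc, add_dotProduct, smul_dotProduct, ev_dot, smul_eq_mul]
    field_simp
  have h3 : |a k / a i| ≤ 2 := by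
    rw [abs_div, div_le_iff₀ (abs_pos.2 hi)]
    exact (norm_le_pi_norm a k).trans h₂
  have h4 : tc (ev i) (ev k + (3 : ℝ) • ev i) a ∈ Set.Icc (1 : ℝ) 5 := by
    rw [e]; constructor <;> linarith [abs_le.1 h3]
  refine ⟨?_, ?_, h4⟩
  · rw [GA_eq]; exact (zero_lt_one.trans_le h4.1).ne'
  · fin_cases i <;> fin_cases k <;> fin_cases m <;>
      simp [GB, ev, cross_apply, dotProduct, Fin.sum_univ_three] at hik him hkm hm ⊢ <;> exact hm

/-- the word read in a chart -/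
noncomputable def Wc (P : Fin 3 → POVM V K) (α β : V) (f : Fin 3 → ℝ → ℂ) : K →L[ℂ] K :=
  word P fun k a => f k (tc α β a)

theorem isPoly_Wc (P : Fin 3 → POVM V K) (α β : V) : IsPoly (Wc P α β) := by
  have := (isPoly_word P).comp (φ := fun _ => tc α β)
    (fun _ => measurable_tc α β) (u := fun _ _ => 1) fun _ => BM.one
  simp only [one_mul] at this
  exact this
theorem norm_Wc_le (P : Fin 3 → POVM V K) (α β : V) {f : Fin 3 → ℝ → ℂ} (hf : ∀ k, Measurable (f k))
    (h : ∀ k y, ‖f k y‖ ≤ 1) : ‖Wc P α β f‖ ≤ 1 := by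
  have e : ∀ k, ‖(P k).E fun a => f k (tc α β a)‖ ≤ 1 := fun k =>
    (P k).norm_E_le ((hf k).comp (measurable_tc α β)) zero_le_one fun _ => h k _
  simp only [Wc, word, List.ofFn_succ, List.ofFn_zero, List.prod_cons, List.prod_nil, mul_one]
  exact (norm_mul_le _ _).trans (mul_le_one₀ (e _) (norm_nonneg _)
    ((norm_mul_le _ _).trans (mul_le_one₀ (e _) (norm_nonneg _) (e _))))

/-- the projection on the good flags -/
noncomputable def gd (P Ψ : POVM V K) (α β : V) : K →L[ℂ] K :=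
  P.E (ic (GA α β)) * Ψ.E (ic (GB α β))

/-- a point on a line -/
structure Flag (P Ψ : POVM V K) : Prop where
  pvm : P.IsPVM
  pvm' : Ψ.IsPVM
  proj : P.Proj
  proj' : Ψ.Proj
  inc : Inc P Ψ
  comm : ∀ f h, BM f → BM h → Commute (P.E f) (Ψ.E h)

theorem Geo.flag {I I' : Ind K} {L : ℕ → ℝ} {Φ Ψ A B : V → POVM V K} {sc sc' : ℝ → ℝ}
    (h : Geo I I' L Φ Ψ A B sc sc') {x y : V} (hx : x ≠ 0) (hy : y ≠ 0) (hxy : x ⬝ᵥ y = 0) :
    Flag (Φ x) (Ψ y) :=
  ⟨h.pro.pvm x, h.pro'.pvm y, h.pro.proj x, h.pro'.proj y, h.inc.inc x y hx hy hxy,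
    h.inc.comm x y hx hy hxy⟩

variable {P₀ Ψ : POVM V K} {P : Fin 3 → POVM V K} {c : ℝ × ℝ → ℂ}

/-- the joint PVM of a flag lives on incident pairs of unit vectors -/
theorem Flag.exists_joint (h : Flag P₀ Ψ) : ∃ Q : POVM (V × V) K, Q.IsPVM ∧
    (∀ f g, BM f → BM g → Q.E (fun z => f z.1 * g z.2) = P₀.E f * Ψ.E g) ∧
    Q.E (ic {z | ‖z.1‖ = 1 ∧ ‖z.2‖ = 1 ∧ z.1 ⬝ᵥ z.2 = 0}) = 1 := by
  obtain ⟨Q, hQ, hE⟩ := POVM.exists_joint h.pvm h.pvm' h.comm
  refine ⟨Q, hQ, hE, ?_⟩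
  have hs := BM.ic Cv1.closed_sphere.measurableSet
  have hm : MeasurableSet {z : V × V | ‖z.1‖ = 1 ∧ ‖z.2‖ = 1 ∧ z.1 ⬝ᵥ z.2 = 0} :=
    ((isClosed_eq (by fun_prop) continuous_const).inter ((isClosed_eq (by fun_prop)
      continuous_const).inter (isClosed_eq (by fun_prop) continuous_const))).measurableSet
  have e := hE _ _ hs hs
  rw [h.proj.sphere, h.proj'.sphere, mul_one] at e
  rw [← e]
  refine Q.E_congr_ae (BM.ic hm) ((hs.comp measurable_fst).mul (hs.comp measurable_snd)) fun η => ?_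
  have h0 : Q.ν η {z | z.1 ⬝ᵥ z.2 = 0}ᶜ = 0 := measure_null_of_locally_null _ fun z hz => by
    have h1 : ![z.1, z.2] ∉ supp (word ![P₀, Ψ]) := fun h' => hz (h.inc _ h')
    simp only [supp, Set.mem_ofPred_eq, not_forall, not_not] at h1
    obtain ⟨O, hO, hn⟩ := h1
    have m : ∀ k, MeasurableSet (interior (O k)) := fun k => isOpen_interior.measurableSet
    refine ⟨interior (O 0) ×ˢ interior (O 1), mem_nhdsWithin_of_mem_nhds
      (prod_mem_nhds (interior_mem_nhds.2 (hO 0)) (interior_mem_nhds.2 (hO 1))),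
      Q.ν_eq_zero ((m 0).prod (m 1)) ?_⟩
    have h2 := hn (fun k => ic (interior (O k))) (fun k => BM.ic (m k))
      fun k y hy => ic_of_notMem fun h' => hy (interior_subset h')
    rw [word_two, ← hE _ _ (BM.ic (m 0)) (BM.ic (m 1))] at h2
    rw [Set.prod_eq, ic_inter]
    simp only [ic_preimage, h2, _root_.zero_apply]
  filter_upwards [h0] with z hz
  classical
  simp only [ic_apply, Set.mem_ofPred_eq, show z.1 ⬝ᵥ z.2 = 0 from hz, and_true]
  split_ifs <;> simp_all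
/-- finite covers by product sets give partitions of unity -/
theorem Flag.cover (h : Flag P₀ Ψ) {α : Type} [Fintype α] {S₀ T₀ : Set V} (hS₀ : MeasurableSet S₀)
    (hT₀ : MeasurableSet T₀) {S T : α → Set V} (hS : ∀ j, MeasurableSet (S j))
    (hT : ∀ j, MeasurableSet (T j))
    (hc : ∀ a ∈ S₀, ∀ b ∈ T₀, ‖a‖ = 1 → ‖b‖ = 1 → a ⬝ᵥ b = 0 → ∃ j, a ∈ S j ∧ b ∈ T j) :
    ∃ E : α → K →L[ℂ] K, P₀.E (ic S₀) * Ψ.E (ic T₀) = ∑ j, P₀.E (ic (S j)) * Ψ.E (ic (T j)) * E j ∧
      ∀ j (Z : K →L[ℂ] K), (∀ f, BM f → Commute Z (P₀.E f)) → (∀ f, BM f → Commute Z (Ψ.E f)) →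
        Commute Z (E j) := by
  classical
  obtain ⟨Q, hQ, hE, h1⟩ := h.exists_joint
  have b : ∀ {S T : Set V}, MeasurableSet S → MeasurableSet T →
      BM fun z : V × V => ic S z.1 * ic T z.2 := fun hS hT =>
    ((BM.ic hS).comp measurable_fst).mul ((BM.ic hT).comp measurable_snd)
  have hN : ∀ z : V × V, ∑ j, ic (S j) z.1 * ic (T j) z.2
      = ((Finset.univ.filter fun j => z.1 ∈ S j ∧ z.2 ∈ T j).card : ℂ) := fun z => by
    simp only [ic_apply, Finset.card_filter, Nat.cast_sum, Nat.cast_ite, Nat.cast_one, Nat.cast_zero]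
    exact Finset.sum_congr rfl fun j _ => by split_ifs <;> simp_all
  have bN : BM fun z : V × V => (∑ j, ic (S j) z.1 * ic (T j) z.2)⁻¹ :=
    BM.of_le (BM.sum _ fun j _ => b (hS j) (hT j)).1.inv (C := 1) fun z => by
      rw [hN, norm_inv, Complex.norm_natCast]; exact Nat.cast_inv_le_one _
  have bw := (b hS₀ hT₀).mul bN
  have hm : MeasurableSet {z : V × V | ‖z.1‖ = 1 ∧ ‖z.2‖ = 1 ∧ z.1 ⬝ᵥ z.2 = 0} :=
    ((isClosed_eq (by fun_prop) continuous_const).inter ((isClosed_eq (by fun_prop)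
      continuous_const).inter (isClosed_eq (by fun_prop) continuous_const))).measurableSet
  refine ⟨fun _ => Q.E fun z => ic S₀ z.1 * ic T₀ z.2 * (∑ j, ic (S j) z.1 * ic (T j) z.2)⁻¹, ?_,
    fun _ Z h₁ h₂ => ?_⟩
  · rw [← hE _ _ (BM.ic hS₀) (BM.ic hT₀), Finset.sum_congr rfl fun j _ => by
      rw [← hE _ _ (BM.ic (hS j)) (BM.ic (hT j)), ← hQ _ _ (b (hS j) (hT j)) bw],
      ← Q.E_sum _ fun j _ => (b (hS j) (hT j)).mul bw]
    refine Q.E_congr_of_conc hm h1 (b hS₀ hT₀) (BM.sum _ fun j _ => (b (hS j) (hT j)).mul bw)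
      fun z hz => ?_
    rw [← Finset.sum_mul]
    by_cases h₁ : z.1 ∈ S₀
    · by_cases h₂ : z.2 ∈ T₀
      · obtain ⟨j, hj⟩ := hc _ h₁ _ h₂ hz.1 hz.2.1 hz.2.2
        have : ∑ j, ic (S j) z.1 * ic (T j) z.2 ≠ 0 := by
          rw [hN]
          exact Nat.cast_ne_zero.2 (Finset.card_ne_zero.2 ⟨j, by simpa using hj⟩)
        field_simp
      · simp only [ic_of_notMem h₂, mul_zero, zero_mul]
    · simp only [ic_of_notMem h₁, mul_zero, zero_mul]
  · have := (Q.isPoly1.mul Z 1).ext_prod (Q.isPoly1.mul 1 Z) (fun f g hf hg => by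
      rw [hE f g hf hg, mul_one, one_mul]; exact ((h₁ f hf).mul_right (h₂ g hg)).eq) _ bw
    rwa [mul_one, one_mul] at this
theorem Flag.eq_zero_of_gd (h : Flag P₀ Ψ) {T : K →L[ℂ] K} (e : ∀ α β, T * gd P₀ Ψ α β = 0) :
    T = 0 := by
  obtain ⟨E, hE, -⟩ := h.cover (α := Fin 3 × Fin 3) MeasurableSet.univ MeasurableSet.univ
    (S := fun j => GA (ev j.1) (ev j.2 + (3 : ℝ) • ev j.1))
    (T := fun j => GB (ev j.1) (ev j.2 + (3 : ℝ) • ev j.1))
    (fun j => (isOpen_GA _ _).measurableSet) (fun j => (isOpen_GB _ _).measurableSet)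
    fun a _ b _ ha hb hab => by
      have ha0 : a ≠ 0 := norm_ne_zero_iff.1 (by rw [ha]; exact one_ne_zero)
      have hb0 : b ≠ 0 := norm_ne_zero_iff.1 (by rw [hb]; exact one_ne_zero)
      obtain ⟨i, k, m, h1, h2, h3, h4, h5⟩ := exists_std_chart ha0 hb0 hab
      have := mem_std_chart ha0 hb0 h1 h2 h3 h4 h5
      exact ⟨(i, k), this.1, this.2.1⟩
  rw [ic_univ, P₀.E_one, Ψ.E_one, mul_one] at hE
  rw [← mul_one T, hE, Finset.mul_sum]
  exact Finset.sum_eq_zero fun j _ => by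
    rw [← mul_assoc T]
    exact mul_eq_zero_of_left (e _ _) _

end Crest.Agent.N111
end

-- ▼ part N111/F/Chart

/-! # Row 111: charts and chart independence (fill the proofs IN PLACE). -/

set_option autoImplicit false
set_option linter.unusedSectionVars false
set_option linter.unusedVariables false

namespace Crest.Agent.N111

open MeasureTheory Topology Filter Matrix
open scoped InnerProductSpace

variable {K : Type} [NormedAddCommGroup K] [InnerProductSpace ℂ K] [CompleteSpace K]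

variable {P₀ Ψ : POVM V K} {P : Fin 3 → POVM V K} {c : ℝ × ℝ → ℂ}

theorem chart_inv (hP : (P 2).IsPVM) (hc : Integrable c) (he : Ev c) (α β : V) :
    AvT atTop (fun l => (toi (Wc P β α) c l - toi (Wc P α β) c l) * (P 2).E (ic (GA α β))) 0 := by
  have h := toi_inv (P := fun i => (P i).map (tc α β) (measurable_tc α β))
    (hP.map _ (measurable_tc α β)) hc he
  have e1 : Wc P β α = fun f => word (fun i => (P i).map (tc α β) (measurable_tc α β))
      fun k t => f k t⁻¹ := by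
    funext f
    simp only [Wc, tc_swap α β]
    rfl
  have e2 : ic (GA α β) = fun a => ic ({0}ᶜ : Set ℝ) (tc α β a) := by
    funext a
    rw [GA_eq]
    rfl
  rw [e1, e2]
  exact h

namespace Ch2

variable {W W' W'' : (Fin 3 → ℝ → ℂ) → K →L[ℂ] K} {E : K →L[ℂ] K}

/-- the scale averages of `W` and `W'` agree on the range of `E` -/
def R (c : ℝ × ℝ → ℂ) (W W' : (Fin 3 → ℝ → ℂ) → K →L[ℂ] K) (E : K →L[ℂ] K) : Prop :=
  AvT atTop (fun l => (toi W' c l - toi W c l) * E) 0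

theorem R.mul (h : R c W W' E) (F : K →L[ℂ] K) : R c W W' (E * F) := by
  have := AvT.mul h 1 F
  simp only [one_mul, zero_mul, mul_assoc] at this
  exact this

theorem R.symm (h : R c W W' E) : R c W' W E := by
  have := AvT.smul h (-1)
  simp only [neg_smul, one_smul, neg_zero, ← neg_mul, neg_sub] at this
  exact this

theorem sCont (hc : Integrable c) (hW : IsPoly W) (hW' : IsPoly W') (E : K →L[ℂ] K) :
    SCont fun l => (toi W' c l - toi W c l) * E :=
  ((sCont_toi hW' hc).sub (sCont_toi hW hc)).mul (SCont.const E)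

theorem R.trans (hc : Integrable c) (hW : IsPoly W) (hW' : IsPoly W') (hW'' : IsPoly W'')
    (h : R c W W' E) (h' : R c W' W'' E) : R c W W'' E := by
  have := AvT.add h' h (sCont hc hW' hW'' E) (sCont hc hW hW' E)
  simp only [← add_mul, sub_add_sub_cancel, add_zero] at this
  exact this

theorem cramer {α β β' a b : V} (hab : a ⬝ᵥ b = 0) (ha : α ⬝ᵥ a ≠ 0) (hb : (α ⨯₃ β) ⬝ᵥ b ≠ 0) :
    tc α β' a = (β' ⨯₃ β) ⬝ᵥ b / (α ⨯₃ β) ⬝ᵥ b + (α ⨯₃ β') ⬝ᵥ b / (α ⨯₃ β) ⬝ᵥ b * tc α β a := by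
  have key : (β' ⬝ᵥ a) * ((α ⨯₃ β) ⬝ᵥ b) = ((β' ⨯₃ β) ⬝ᵥ b) * (α ⬝ᵥ a) +
      ((α ⨯₃ β') ⬝ᵥ b) * (β ⬝ᵥ a) + ((α ⨯₃ β) ⬝ᵥ β') * (a ⬝ᵥ b) := by
    simp only [dotProduct, cross_apply, Fin.sum_univ_three, Matrix.cons_val_zero,
      Matrix.cons_val_one, Matrix.cons_val_two, Matrix.head_cons, Matrix.tail_cons]
    ring
  rw [hab, mul_zero, add_zero] at key
  unfold tc
  field_simp
  linear_combination key

theorem measurable_dot (v : V) : Measurable fun b : V => v ⬝ᵥ b :=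
  (continuous_const.dotProduct continuous_id).measurable

theorem proj_le (h : Flag P₀ Ψ) {S S' T T' : Set V} (hS : MeasurableSet S) (hS' : MeasurableSet S')
    (hT : MeasurableSet T) (hT' : MeasurableSet T') (h1 : S ⊆ S') (h2 : T ⊆ T') :
    P₀.E (ic S) * Ψ.E (ic T) = P₀.E (ic S') * Ψ.E (ic T') * (P₀.E (ic S) * Ψ.E (ic T)) := by
  rw [mul_assoc, ← mul_assoc (Ψ.E _), ← (h.comm _ _ (BM.ic hS) (BM.ic hT')).eq, mul_assoc,
    h.pvm'.ic_mul_ic hT' hT, ← mul_assoc, h.pvm.ic_mul_ic hS' hS, Set.inter_eq_self_of_subset_right h1,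
    Set.inter_eq_self_of_subset_right h2]

theorem proj_le' (hP : P₀.IsPVM) {S S' : Set V} (hS : MeasurableSet S) (hS' : MeasurableSet S')
    (h1 : S ⊆ S') (F : K →L[ℂ] K) : P₀.E (ic S) * F = P₀.E (ic S') * (P₀.E (ic S) * F) := by
  rw [← mul_assoc, hP.ic_mul_ic hS' hS, Set.inter_eq_self_of_subset_right h1]

/-- seven points on a conic: one of them avoids three given lines -/
theorem exists_gam {u v w : V} (hu : u ≠ 0) (hv : v ≠ 0) (hw : w ≠ 0) : ∃ τ : Fin 7,
    ![1, (τ : ℝ), (τ : ℝ) ^ 2] ⬝ᵥ u ≠ 0 ∧ ![1, (τ : ℝ), (τ : ℝ) ^ 2] ⬝ᵥ v ≠ 0 ∧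
      ![1, (τ : ℝ), (τ : ℝ) ^ 2] ⬝ᵥ w ≠ 0 := by
  let q : V → Polynomial ℝ := fun v =>
    Polynomial.C (v 2) * Polynomial.X ^ 2 + Polynomial.C (v 1) * Polynomial.X + Polynomial.C (v 0)
  have hd : ∀ v, (q v).natDegree ≤ 2 := fun v => Polynomial.natDegree_quadratic_le
  have h0 : ∀ v, v ≠ 0 → q v ≠ 0 := fun v hv h => hv <| by
    have c0 := congrArg (Polynomial.coeff · 0) h
    have c1 := congrArg (Polynomial.coeff · 1) h
    have c2 := congrArg (Polynomial.coeff · 2) h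
    simp [q, Polynomial.coeff_C, Polynomial.coeff_X] at c0 c1 c2
    funext i
    fin_cases i
    exacts [c0, c1, c2]
  have he : ∀ v (t : ℝ), ![1, t, t ^ 2] ⬝ᵥ v = (q v).eval t := fun v t => by
    simp [q, dotProduct, Fin.sum_univ_three]
    ring
  by_contra hne
  refine mul_ne_zero (mul_ne_zero (h0 u hu) (h0 v hv)) (h0 w hw)
    (Polynomial.eq_zero_of_natDegree_lt_card_of_eval_eq_zero _ (f := fun τ : Fin 7 => (τ : ℝ))
      (fun a b h => Fin.ext (Nat.cast_injective (R := ℝ) h)) (fun τ => ?_) ?_)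
  · by_contra h
    simp only [Polynomial.eval_mul, mul_eq_zero, not_or, ← he] at h
    exact hne ⟨τ, h.1.1, h.1.2, h.2⟩
  · have h1 := Polynomial.natDegree_mul_le (p := q u * q v) (q := q w)
    have h2 := Polynomial.natDegree_mul_le (p := q u) (q := q v)
    have := hd u
    have := hd v
    have := hd w
    simp only [Fintype.card_fin]
    omega

theorem cross_dot (α γ b : V) : (α ⨯₃ γ) ⬝ᵥ b = γ ⬝ᵥ (b ⨯₃ α) := by
  rw [dotProduct_comm, triple_product_permutation b α γ, triple_product_permutation α γ b]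

theorem GB_comm (α β : V) : GB α β = GB β α := by
  ext b
  simp only [GB, Set.mem_ofPred_eq, ← cross_anticomm α β, neg_dotProduct, ne_eq, neg_eq_zero]

end Ch2

open Ch2 in
theorem chart_aff (h : ∀ i, Flag (P i) Ψ) (hc : Integrable c) (he : Ev c) (α β β' : V) :
    AvT atTop (fun l => (toi (Wc P α β') c l - toi (Wc P α β) c l)
      * ((P 2).E (ic (GA α β ∩ GA α β')) * Ψ.E (ic (GB α β ∩ GB α β')))) 0 := by
  have hA : MeasurableSet {a : V | α ⬝ᵥ a ≠ 0} :=
    (measurableSet_eq_fun (measurable_dot α) measurable_const).compl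
  have bA := BM.ic hA
  have mG := fun β => (isOpen_GA α β).measurableSet
  have mS := ((isOpen_GB α β).inter (isOpen_GB α β')).measurableSet
  let WA : V → (Fin 3 → ℝ → ℂ) → K →L[ℂ] K := fun β f =>
    word P fun k a => ic {a : V | α ⬝ᵥ a ≠ 0} a * f k (tc α β a)
  have pA : ∀ β, IsPoly (WA β) := fun β =>
    (isPoly_word P).comp (fun _ => measurable_tc α β) fun _ => bA
  have cl : ∀ β, R c (WA β) (Wc P α β) ((P 2).E (ic (GA α β))) := fun β => by
    rw [GA_eq]
    exact toi_clean (h 2).pvm (measurable_tc α β) hA (fun a ha => by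
      rw [tc, not_not.1 ha, div_zero]) hc he
  choose Q hQ hQm hQc using fun i => (h i).exists_joint
  have hQ1 : ∀ i g, BM g → (Q i).E (fun z => g z.1) = (P i).E g := fun i g hg => by
    have := hQm i g _ hg (BM.const 1)
    rwa [Ψ.E_one, mul_one, funext fun z : V × V => mul_one (g z.1)] at this
  have hQ2 : ∀ i g, BM g → (Q i).E (fun z => g z.2) = Ψ.E g := fun i g hg => by
    have := hQm i _ g (BM.const 1) hg
    rwa [(P i).E_one, one_mul, funext fun z : V × V => one_mul (g z.2)] at this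
  have mp : Measurable fun b : V => (β' ⨯₃ β) ⬝ᵥ b / (α ⨯₃ β) ⬝ᵥ b :=
    (measurable_dot _).div (measurable_dot _)
  have mr : Measurable fun b : V => (α ⨯₃ β') ⬝ᵥ b / (α ⨯₃ β) ⬝ᵥ b :=
    (measurable_dot _).div (measurable_dot _)
  have af := toi_aff hQ hQ2 (measurable_tc α β) (measurable_tc α β') mp mr (fun _ => bA) mS
    (fun b hb => div_ne_zero hb.2 hb.1) (fun i => by
      rw [← (Q i).E_zero]
      refine (Q i).E_congr_of_conc ?_ (hQc i) (BM.ic ?_) (BM.const 0) fun z hz => ic_of_notMem ?_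
      · exact (isClosed_eq continuous_fst.norm continuous_const).measurableSet.inter
          ((isClosed_eq continuous_snd.norm continuous_const).measurableSet.inter
          (isClosed_eq (continuous_fst.dotProduct continuous_snd) continuous_const).measurableSet)
      · exact (measurable_snd mS).inter (((measurableSet_eq_fun (bA.meas.comp measurable_fst)
          measurable_const).compl).inter (measurableSet_eq_fun
            ((measurable_tc α β').comp measurable_fst) ((mp.comp measurable_snd).add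
              ((mr.comp measurable_snd).mul ((measurable_tc α β).comp measurable_fst)))).compl)
      · rintro ⟨h1, h2, h3⟩
        refine h3 (cramer hz.2.2 (fun h0 => h2 (ic_of_notMem fun h' => h' h0)) h1.1)) hc he
  have e : ∀ β l, toi (fun f => word Q fun k z => ic {a : V | α ⬝ᵥ a ≠ 0} z.1 * f k (tc α β z.1))
      c l = toi (WA β) c l := fun β l => toi_congr (fun f hf => by
    simp only [WA, word]
    congr 2
    funext i
    exact hQ1 i _ (bA.mul ((hf i).comp (measurable_tc α β)))) l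
  simp only [e] at af
  have mI := (mG β).inter (mG β')
  refine R.trans hc (isPoly_Wc P α β) (pA β) (isPoly_Wc P α β') ?_
    (R.trans hc (pA β) (pA β') (isPoly_Wc P α β') ?_ ?_)
  · rw [proj_le' (h 2).pvm mI (mG β) Set.inter_subset_left]
    exact (cl β).symm.mul _
  · rw [((h 2).comm _ _ (BM.ic mI) (BM.ic mS)).eq]
    exact R.mul af _
  · rw [proj_le' (h 2).pvm mI (mG β') Set.inter_subset_right]
    exact (cl β').mul _

open Ch2 in
/-- **chart independence** -/
theorem chart_indep (h : ∀ i, Flag (P i) Ψ) (hc : Integrable c) (he : Ev c) (α β α' β' : V) :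
    AvT atTop (fun l => (toi (Wc P α' β') c l - toi (Wc P α β) c l)
      * ((P 2).E (ic (GA α β ∩ GA α' β')) * Ψ.E (ic (GB α β ∩ GB α' β')))) 0 := by
  have mA := fun α β => (isOpen_GA α β).measurableSet
  have mB := fun α β => (isOpen_GB α β).measurableSet
  have pW := isPoly_Wc P
  have inv : ∀ α β S T, MeasurableSet S → S ⊆ GA α β →
      R c (Wc P α β) (Wc P β α) ((P 2).E (ic S) * Ψ.E (ic T)) := fun α β S T hS h1 => by
    rw [proj_le' (h 2).pvm hS (mA α β) h1]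
    exact R.mul (chart_inv (h 2).pvm hc he α β) _
  have aff : ∀ α β β' S T, MeasurableSet S → MeasurableSet T → S ⊆ GA α β ∩ GA α β' →
      T ⊆ GB α β ∩ GB α β' → R c (Wc P α β) (Wc P α β') ((P 2).E (ic S) * Ψ.E (ic T)) :=
    fun α β β' S T hS hT h1 h2 => by
      rw [proj_le (h 2) hS ((mA _ _).inter (mA _ _)) hT ((mB _ _).inter (mB _ _)) h1 h2]
      exact R.mul (chart_aff h hc he α β β') _
  let γ : Fin 7 → V := fun τ => ![1, (τ : ℝ), (τ : ℝ) ^ 2]
  let S : Fin 7 → Set V := fun τ => (GA α β ∩ GA α' β') ∩ GA α (γ τ)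
  let T : Fin 7 → Set V := fun τ => (GB α β ∩ GB α' β') ∩ (GB α (γ τ) ∩ GB α' (γ τ))
  have mS : ∀ τ, MeasurableSet (S τ) := fun τ => ((mA _ _).inter (mA _ _)).inter (mA _ _)
  have mT : ∀ τ, MeasurableSet (T τ) := fun τ =>
    ((mB _ _).inter (mB _ _)).inter ((mB _ _).inter (mB _ _))
  obtain ⟨E, hE, -⟩ := (h 2).cover ((mA α β).inter (mA α' β')) ((mB α β).inter (mB α' β')) mS mT
    fun a ha b hb _ _ _ => by
      obtain ⟨τ, h1, h2, h3⟩ := exists_gam (u := a) (v := b ⨯₃ α) (w := b ⨯₃ α')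
        (fun h0 => ha.1.1 (by rw [h0, dotProduct_zero]))
        (fun h0 => hb.1 (by rw [cross_dot, h0, dotProduct_zero]))
        (fun h0 => hb.2 (by rw [cross_dot, h0, dotProduct_zero]))
      exact ⟨τ, ⟨ha, ha.1.1, h1⟩, hb, fun h0 => h2 (by rw [← cross_dot]; exact h0),
        fun h0 => h3 (by rw [← cross_dot]; exact h0)⟩
  have key : ∀ τ, R c (Wc P α β) (Wc P α' β') ((P 2).E (ic (S τ)) * Ψ.E (ic (T τ)) * E τ) :=
    fun τ => R.mul (R.trans hc (pW _ _) (pW α (γ τ)) (pW _ _)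
      (aff _ _ _ _ _ (mS τ) (mT τ) (fun a ha => ⟨ha.1.1, ha.2⟩) fun b hb => ⟨hb.1.1, hb.2.1⟩)
      (R.trans hc (pW _ _) (pW (γ τ) α) (pW _ _) (inv _ _ _ _ (mS τ) fun a ha => ha.2)
      (R.trans hc (pW _ _) (pW (γ τ) α') (pW _ _)
        (aff _ _ _ _ _ (mS τ) (mT τ) (fun a ha => ⟨⟨ha.2.2, ha.2.1⟩, ha.2.2, ha.1.2.1⟩)
          fun b hb => ⟨GB_comm α _ ▸ hb.2.1, GB_comm α' _ ▸ hb.2.2⟩)
      (R.trans hc (pW _ _) (pW α' (γ τ)) (pW _ _)
        (inv _ _ _ _ (mS τ) fun a ha => ⟨ha.2.2, ha.1.2.1⟩)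
        (aff _ _ _ _ _ (mS τ) (mT τ) (fun a ha => ⟨⟨ha.1.2.1, ha.2.2⟩, ha.1.2⟩)
          fun b hb => ⟨hb.2.2, hb.1.2⟩))))) _
  have := AvT.sum Finset.univ (fun τ _ => key τ) fun τ _ => sCont hc (pW _ _) (pW _ _) _
  simp only [← Finset.mul_sum, ← hE, Finset.sum_const_zero] at this
  exact this

end Crest.Agent.N111
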