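import Crest.Agent.N111.F.Chart

-- ▼ part N111/F/S7a
section

/-! # Row 111: the scale average is a scalar; S7 and ND (fill the proofs IN PLACE). -/

set_option autoImplicit false
set_option maxHeartbeats 400000
set_option linter.unusedSectionVars false
set_option linter.unusedVariables false

namespace Crest.Agent.N111

open MeasureTheory Topology Filter Matrix
open scoped InnerProductSpace

variable {K : Type} [NormedAddCommGroup K] [InnerProductSpace ℂ K] [CompleteSpace K]

variable {I I' : Ind K} {L : ℕ → ℝ} {Φ Ψ A B : V → POVM V K} {sc sc' : ℝ → ℝ}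


/-- the scalar attached to three points on a line -/
def IsM (l : Filter ℕ) (P : Fin 3 → POVM V K) (Ψ : POVM V K) (m : (ℝ × ℝ → ℂ) → ℂ) : Prop :=
  ∀ c, Integrable c → Ev c → ∀ α β,
    AvT l (fun r => toi (Wc P α β) c r * gd (P 2) Ψ α β) (m c • gd (P 2) Ψ α β)

namespace S7a

variable {P : Fin 3 → POVM V K} {P₀ Ψ₀ : POVM V K} {c : ℝ × ℝ → ℂ}

theorem gd_mul (h : Flag P₀ Ψ₀) (α β α' β' : V) : gd P₀ Ψ₀ α β * gd P₀ Ψ₀ α' β' =
    P₀.E (ic (GA α β ∩ GA α' β')) * Ψ₀.E (ic (GB α β ∩ GB α' β')) := by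
  have mA := fun α β => (isOpen_GA α β).measurableSet
  have mB := fun α β => (isOpen_GB α β).measurableSet
  rw [gd, gd, ← h.pvm.ic_mul_ic (mA _ _) (mA _ _), ← h.pvm'.ic_mul_ic (mB _ _) (mB _ _),
    (h.comm _ _ (BM.ic (mA α' β')) (BM.ic (mB α β))).symm.mul_mul_mul_comm]

theorem commute_gd {Z : K →L[ℂ] K} (h1 : ∀ f, BM f → Commute Z (P₀.E f))
    (h2 : ∀ f, BM f → Commute Z (Ψ₀.E f)) (α β : V) : Commute Z (gd P₀ Ψ₀ α β) :=
  (h1 _ (BM.ic (isOpen_GA α β).measurableSet)).mul_right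
    (h2 _ (BM.ic (isOpen_GB α β).measurableSet))

theorem commute_toi (hc : Integrable c) {Z : K →L[ℂ] K}
    (h1 : ∀ i f, BM f → Commute Z ((P i).E f)) (α β : V) (r : ℝ) :
    Commute Z (toi (Wc P α β) c r) :=
  commute_sInt hc (sCont_ph (isPoly_Wc P α β) r) fun w => Commute.list_prod_right _ _ fun y hy => by
    obtain ⟨i, rfl⟩ := List.mem_ofFn.1 hy
    exact h1 i _ ((bm_ph r w i).comp (measurable_tc α β))

/-- the scale averages in the different charts glue -/
theorem exists_M (h : ∀ i, Flag (P i) Ψ₀) (hc : Integrable c) (he : Ev c) (l : Ultrafilter ℕ)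
    (hl : (l : Filter ℕ) ≤ atTop) : ∃ M : K →L[ℂ] K,
      (∀ α β, AvT l (fun r => toi (Wc P α β) c r * gd (P 2) Ψ₀ α β) (M * gd (P 2) Ψ₀ α β)) ∧
      ∀ Z : K →L[ℂ] K, (∀ i f, BM f → Commute Z ((P i).E f)) →
        (∀ f, BM f → Commute Z (Ψ₀.E f)) → Commute Z M := by
  have sD := fun α β => sCont_toi (isPoly_Wc P α β) hc
  choose Mc hMc using fun α β => exists_avT l (sD α β)
  have cpt : ∀ α β α' β', Mc α' β' * (gd (P 2) Ψ₀ α β * gd (P 2) Ψ₀ α' β')
      = Mc α β * (gd (P 2) Ψ₀ α β * gd (P 2) Ψ₀ α' β') := fun α β α' β' => by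
    have h1 := ((hMc α' β').sub (hMc α β) (sD _ _) (sD _ _)).mul 1
      (gd (P 2) Ψ₀ α β * gd (P 2) Ψ₀ α' β')
    simp only [one_mul, gd_mul (h 2)] at h1
    rw [← sub_eq_zero, ← sub_mul, gd_mul (h 2)]
    exact h1.unique ((chart_indep h hc he α β α' β').mono hl)
  let a : Fin 3 × Fin 3 → V := fun j => ev j.1
  let b : Fin 3 × Fin 3 → V := fun j => ev j.2 + (3 : ℝ) • ev j.1
  obtain ⟨E, hE, hEc⟩ := (h 2).cover MeasurableSet.univ MeasurableSet.univ
    (S := fun j => GA (a j) (b j)) (T := fun j => GB (a j) (b j))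
    (fun j => (isOpen_GA _ _).measurableSet) (fun j => (isOpen_GB _ _).measurableSet)
    fun u _ v _ hu hv huv => by
      have hu0 : u ≠ 0 := fun e => by simp [e] at hu
      have hv0 : v ≠ 0 := fun e => by simp [e] at hv
      obtain ⟨i, k, m, hik, him, hkm, h1, h2⟩ := exists_std_chart hu0 hv0 huv
      have := mem_std_chart hu0 hv0 hik him hkm h1 h2
      exact ⟨(i, k), this.1, this.2.1⟩
  rw [ic_univ, (P 2).E_one, Ψ₀.E_one, one_mul] at hE
  refine ⟨∑ j, Mc (a j) (b j) * gd (P 2) Ψ₀ (a j) (b j) * E j, fun α β => ?_, fun Z h1 h2 => ?_⟩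
  · have cg : ∀ j, Commute (gd (P 2) Ψ₀ α β) (E j) := fun j => hEc j _
      (fun f hf => (commute_gd (fun g hg => (h 2).pvm.commute hf hg)
        (fun g hg => (h 2).comm _ _ hf hg) α β).symm)
      fun f hf => (commute_gd (fun g hg => ((h 2).comm _ _ hg hf).symm)
        (fun g hg => (h 2).pvm'.commute hf hg) α β).symm
    have e : (∑ j, Mc (a j) (b j) * gd (P 2) Ψ₀ (a j) (b j) * E j) * gd (P 2) Ψ₀ α β
        = Mc α β * gd (P 2) Ψ₀ α β := by
      conv_rhs => rw [← one_mul (gd (P 2) Ψ₀ α β), hE]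
      rw [Finset.sum_mul, Finset.sum_mul, Finset.mul_sum]
      refine Finset.sum_congr rfl fun j _ => ?_
      change _ = Mc α β * (gd (P 2) Ψ₀ (a j) (b j) * E j * gd (P 2) Ψ₀ α β)
      rw [mul_assoc, mul_assoc (gd _ _ _ _), ← (cg j).eq, ← mul_assoc, mul_assoc (Mc _ _),
        ← cpt, ← mul_assoc (gd _ _ _ _), mul_assoc]
    have := (hMc α β).mul 1 (gd (P 2) Ψ₀ α β)
    simp only [one_mul] at this
    rwa [e]
  · exact Commute.sum_right _ _ _ fun j _ => (((hMc _ _).commute
      (commute_toi hc h1 _ _)).mul_right (commute_gd (h1 2) h2 _ _)).mul_right (hEc j Z (h1 2) h2)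

/-- covariance of the glued average -/
theorem conj_M {l : Filter ℕ} [l.NeBot] (h : Flag (P 2) Ψ₀) (hc : Integrable c) {M u v : K →L[ℂ] K}
    (hM : ∀ α β, AvT l (fun r => toi (Wc P α β) c r * gd (P 2) Ψ₀ α β) (M * gd (P 2) Ψ₀ α β))
    (g : G) (huv : u * v = 1) (hvu : v * u = 1)
    (h1 : ∀ i f, BM f → Hom0 f → u * (P i).E f * v = (P i).E fun a => f (ac g⁻¹ a))
    (h2 : ∀ f, BM f → Hom0 f → u * Ψ₀.E f * v = Ψ₀.E fun a => f (ac (dl g⁻¹) a)) :
    u * M * v = M := by
  have cj : ∀ S T : K →L[ℂ] K, u * (S * T) * v = u * S * v * (u * T * v) := fun S T => by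
    simp only [mul_assoc]
    rw [← mul_assoc v u, hvu, one_mul]
  have et : ∀ α β a, tc α β (ac g⁻¹ a) = tc (ac (dl g) α) (ac (dl g) β) a := fun α β a => by
    rw [← tc_ac g, ac_ac_inv]
  have e1 : ∀ α β r, u * toi (Wc P α β) c r * v = toi (Wc P (ac (dl g) α) (ac (dl g) β)) c r :=
    fun α β r => by
      rw [toi_mul (isPoly_Wc P α β) hc]
      refine toi_congr (fun f hf => ?_) r
      rw [Wc, Wc, word, word, Ap2.conj_prod huv hvu]
      congr 2
      funext i
      rw [h1 i _ ((hf i).comp (measurable_tc α β)) fun z hz a => by rw [tc_smul α β hz]]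
      simp only [et]
  have e2 : ∀ α β, u * gd (P 2) Ψ₀ α β * v = gd (P 2) Ψ₀ (ac (dl g) α) (ac (dl g) β) :=
    fun α β => by
      rw [gd, gd, cj, h1 2 _ (BM.ic (isOpen_GA α β).measurableSet) (hom0_ic_GA α β),
        h2 _ (BM.ic (isOpen_GB α β).measurableSet) (hom0_ic_GB α β)]
      congr 2
      · funext a
        refine Set.indicator_eq_indicator ?_ rfl
        simp only [GA_eq, Set.mem_ofPred_eq, et]
      · funext a
        refine Set.indicator_eq_indicator ?_ rfl
        simp only [GB, Set.mem_ofPred_eq]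
        rw [ac_cross, dl_dl, ← ac_dot_ac_dl g, map_inv, ac_ac_inv]
  rw [← sub_eq_zero]
  refine h.eq_zero_of_gd fun α β => ?_
  have h3 := (hM (ac (dl g)⁻¹ α) (ac (dl g)⁻¹ β)).mul u v
  simp only [cj, e1, e2, ac_ac_inv] at h3
  rw [sub_mul, sub_eq_zero]
  exact h3.unique (hM α β)

theorem exists_gd_ne [Nontrivial K] (h : Flag P₀ Ψ₀) : ∃ α β, gd P₀ Ψ₀ α β ≠ 0 := by
  by_contra hc
  refine one_ne_zero (h.eq_zero_of_gd (T := 1) fun α β => ?_)
  rw [not_not.1 fun h0 => hc ⟨α, β, h0⟩, mul_zero]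

theorem sCont_gd (hc : Integrable c) (α β : V) (S : K →L[ℂ] K) :
    SCont fun r => toi (Wc P α β) c r * S :=
  (sCont_toi (isPoly_Wc P α β) hc).mul (SCont.const S)

end S7a

theorem Geo.exists_isM (h : Geo I I' L Φ Ψ A B sc sc') {x : Fin 3 → V} (hx : ∀ i, x i ≠ 0)
    (hx2 : ∀ i, x i 2 = 0) (l : Ultrafilter ℕ) (hl : (l : Filter ℕ) ≤ atTop) :
    ∃ m, IsM l (fun i => Φ (x i)) (Ψ (ev 2)) m := by
  have hF : ∀ i, Flag (Φ (x i)) (Ψ (ev 2)) := fun i =>
    h.flag (hx i) (ev_ne_zero 2) (by rw [dotProduct_comm, ev_dot, hx2])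
  have key : ∀ c : ℝ × ℝ → ℂ, ∃ z : ℂ, Integrable c → Ev c → ∀ α β,
      AvT l (fun r => toi (Wc (fun i => Φ (x i)) α β) c r * gd (Φ (x 2)) (Ψ (ev 2)) α β)
        (z • gd (Φ (x 2)) (Ψ (ev 2)) α β) := fun c => by
    by_cases hc : Integrable c ∧ Ev c
    swap
    · exact ⟨0, fun h1 h2 => absurd ⟨h1, h2⟩ hc⟩
    obtain ⟨M, hM, hZ⟩ := S7a.exists_M (P := fun i => Φ (x i)) hF hc.1 hc.2 l hl
    have h02 : (0 : Fin 3) ≠ 2 := by decide
    have hρ : ∀ ν, Commute M (I.ρ ν) := fun ν => by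
      have e := S7a.conj_M (P := fun i => Φ (x i)) (hF 2) hc.1 hM (ι ν) (I.ρ.mul_inv_self ν)
        (I.ρ.inv_mul_self ν) (fun i f hf h0 => by rw [h.pro.covρ _ (hx i) f hf h0, map_inv])
        fun f hf h0 => by rw [h.ρΨ (ev_ne_zero 2) hf h0, ι_dl, map_inv]
      have := congrArg (· * I.ρ ν) e
      simp only [mul_assoc, URep.inv_mul_self, mul_one] at this
      exact this.symm
    obtain ⟨z, rfl⟩ := I.erg_Q (T := M) ⟨I.mem_N.2 fun a ha => hZ a
        (fun i f hf => I.mem_N.1 (h.pro.mem (hx i) hf) a ha)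
        fun f hf => I.mem_N.1 (h.memΨ (ev_ne_zero 2) hf) a ha, hρ⟩ h02 fun b =>
      (hZ _ (fun i f hf => (h.pro.pre.commute (hx i) (z := 1)
        (by rw [ac_tv, hx2, mul_zero, zero_smul, add_zero, one_smul]) hf).symm)
        fun f hf => (Ind.commute_of_conj (by
          rw [h.covΨ (ev_ne_zero 2) hf, dl_tv, Ind.ac_tv_ev _ h02, one_smul])).symm).symm
    exact ⟨z, fun _ _ α β => by simpa only [smul_mul_assoc, one_mul] using hM α β⟩
  choose m hm using key
  exact ⟨m, hm⟩

section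
variable {l : Filter ℕ} [l.NeBot] [Nontrivial K] {P : Fin 3 → POVM V K} {Ψ₀ : POVM V K}
  {m : (ℝ × ℝ → ℂ) → ℂ} {c c' : ℝ × ℝ → ℂ}

theorem IsM.add (h : IsM l P Ψ₀ m) (hf : Flag (P 2) Ψ₀) (hc : Integrable c) (he : Ev c)
    (hc' : Integrable c') (he' : Ev c') : m (fun w => c w + c' w) = m c + m c' := by
  obtain ⟨α, β, h0⟩ := S7a.exists_gd_ne hf
  have h1 := h _ (hc.add hc') (fun w => by simp only [Pi.add_apply, he w, he' w]) α β
  have h2 := (h c hc he α β).add (h c' hc' he' α β) (S7a.sCont_gd hc α β _)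
    (S7a.sCont_gd hc' α β _)
  simp only [← add_mul, ← toi_add (isPoly_Wc P α β) hc hc', ← add_smul] at h2
  exact smul_left_injective ℂ h0 (h1.unique h2)
theorem IsM.smul (h : IsM l P Ψ₀ m) (hf : Flag (P 2) Ψ₀) (z : ℂ) (hc : Integrable c) (he : Ev c) :
    m (fun w => z * c w) = z * m c := by
  obtain ⟨α, β, h0⟩ := S7a.exists_gd_ne hf
  have h1 := h _ (hc.const_mul z) (fun w => by simp only [he w]) α β
  have h2 := (h c hc he α β).smul z
  simp only [← smul_mul_assoc, ← toi_smul (isPoly_Wc P α β) hc, smul_smul] at h2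
  exact smul_left_injective ℂ h0 (h1.unique h2)
theorem IsM.bd (h : IsM l P Ψ₀ m) (hf : Flag (P 2) Ψ₀) (hc : Integrable c) (he : Ev c) :
    ‖m c‖ ≤ 1 * ∫ w, ‖c w‖ := by
  obtain ⟨α, β, h0⟩ := S7a.exists_gd_ne hf
  have h1 := (h c hc he α β).norm_le (C := (∫ w, ‖c w‖) * 1 * ‖gd (P 2) Ψ₀ α β‖)
    (by positivity) fun r => (norm_mul_le _ _).trans (mul_le_mul_of_nonneg_right
      (norm_toi_le (isPoly_Wc P α β) hc zero_le_one (fun f => norm_Wc_le P α β) r) (norm_nonneg _))
  rw [norm_smul, mul_comm _ (1 : ℝ)] at h1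
  exact le_of_mul_le_mul_right h1 (norm_pos_iff.2 h0)
theorem IsM.dil (h : IsM l P Ψ₀ m) (hf : Flag (P 2) Ψ₀) (hl : l ≤ atTop) (hc : Integrable c)
    (he : Ev c) {r : ℝ} (hr : 0 < r) : m (dil r c) = m c := by
  obtain ⟨α, β, h0⟩ := S7a.exists_gd_ne hf
  have h1 := h _ (integrable_dil hc hr.ne') (fun w => by simp only [N111.dil, smul_neg, he _]) α β
  have h2 := h1.sub (h c hc he α β) (S7a.sCont_gd (integrable_dil hc hr.ne') α β _)
    (S7a.sCont_gd hc α β _)
  simp only [toi_dil (isPoly_Wc P α β) hc hr.ne'] at h2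
  exact smul_left_injective ℂ h0 (sub_eq_zero.1
    (h2.unique ((avT_shift (S7a.sCont_gd hc α β (gd (P 2) Ψ₀ α β)) hr).mono hl)))
end

/-- double operator integral with kernel `K2 c (0, l (t - t'))` -/
noncomputable def doi (P P' : POVM V K) (α β : V) (c : ℝ × ℝ → ℂ) (l : ℝ) : K →L[ℂ] K :=
  sInt volume c fun w => P.E (fun a => ex (w.2 * l * tc α β a))
    * P'.E fun a => ex (-(w.2 * l * tc α β a))


end Crest.Agent.N111
end

-- ▼ part N111/F/S7

/-! # Row 111: the scale average is a scalar; S7 and ND (fill the proofs IN PLACE). -/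

set_option autoImplicit false
set_option maxHeartbeats 400000
set_option linter.unusedSectionVars false
set_option linter.unusedVariables false

namespace Crest.Agent.N111

open MeasureTheory Topology Filter Matrix
open scoped InnerProductSpace

variable {K : Type} [NormedAddCommGroup K] [InnerProductSpace ℂ K] [CompleteSpace K]

variable {I I' : Ind K} {L : ℕ → ℝ} {Φ Ψ A B : V → POVM V K} {sc sc' : ℝ → ℝ}

namespace S7b

theorem absorb_r {Y : Type} [MeasurableSpace Y] {P : POVM Y K} (hP : P.IsPVM) {f u : Y → ℂ}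
    (hf : BM f) (hu : BM u) (h : ∀ a, f a ≠ 0 → u a = 1) : P.E f = P.E f * P.E u := by
  rw [← hP f u hf hu]
  congr 1
  funext a
  by_cases e : f a = 0
  · simp [e]
  · rw [h a e, mul_one]

theorem absorb_l {Y : Type} [MeasurableSpace Y] {P : POVM Y K} (hP : P.IsPVM) {f u : Y → ℂ}
    (hf : BM f) (hu : BM u) (h : ∀ a, f a ≠ 0 → u a = 1) : P.E f = P.E u * P.E f := by
  rw [← (hP.commute hf hu).eq]
  exact absorb_r hP hf hu h

/-- the sheared density -/
def shear (c : ℝ × ℝ → ℂ) (w : ℝ × ℝ) : ℂ := c (w.1, w.2 - w.1)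

theorem mp_shear : MeasurePreserving (MeasurableEquiv.shearSubRight ℝ)
    (volume : Measure (ℝ × ℝ)) volume :=
  measurePreserving_prod_sub (volume : Measure ℝ) volume

theorem integrable_shear {c : ℝ × ℝ → ℂ} (hc : Integrable c) : Integrable (shear c) :=
  (mp_shear.integrable_comp_emb (MeasurableEquiv.measurableEmbedding _)).2 hc

theorem ev_shear {c : ℝ × ℝ → ℂ} (he : Ev c) : Ev (shear c) := fun w => by
  rw [shear, shear, ← he (w.1, w.2 - w.1)]
  congr 1
  ext
  · simp
  · simp; ring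

theorem bm_ext (α β : V) (s : ℝ) : BM fun a => ex (s * tc α β a) :=
  BM.ex (measurable_const.mul (measurable_tc α β))

theorem bm_ext' (α β : V) (s : ℝ) : BM fun a => ex (-(s * tc α β a)) :=
  BM.ex (measurable_const.mul (measurable_tc α β)).neg

theorem sCont_doi_w (P P' : POVM V K) (α β : V) (l : ℝ) : SCont fun w : ℝ × ℝ =>
    P.E (fun a => ex (w.2 * l * tc α β a)) * P'.E fun a => ex (-(w.2 * l * tc α β a)) :=
  SCont.mul (P.sCont_E (C := 1) (fun _ => (bm_ext α β _).1) (fun _ _ => (norm_ex _).le)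
      fun _ => by fun_prop)
    (P'.sCont_E (C := 1) (fun _ => (bm_ext' α β _).1) (fun _ _ => (norm_ex _).le)
      fun _ => by fun_prop)

theorem doi_eq_toi {P P' : POVM V K} (hP : P.IsPVM) (α β : V) {c : ℝ × ℝ → ℂ} (hc : Integrable c)
    (l : ℝ) : doi P P' α β c l = toi (Wc ![P, P, P'] α β) (shear c) l := by
  ext η
  rw [doi, toi, sInt_apply hc (sCont_doi_w P P' α β l),
    sInt_apply (integrable_shear hc) (sCont_ph (isPoly_Wc _ α β) l),
    ← mp_shear.integral_comp (MeasurableEquiv.measurableEmbedding _)]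
  refine integral_congr_ae (Eventually.of_forall fun w => ?_)
  have e : Wc ![P, P, P'] α β (ph l w) = P.E (fun a => ex ((w.2 - w.1) * l * tc α β a))
      * P'.E fun a => ex (-((w.2 - w.1) * l * tc α β a)) := by
    rw [Wc, word_three]
    simp only [ph, cons_val_zero, cons_val_one, cons_val]
    rw [← hP _ _ (bm_ext' α β _) (bm_ext α β _)]
    congr 2
    · funext a
      rw [← ex_add]
      congr 1
      ring
    · funext a
      congr 1
      ring
  simp only
  rw [e]
  rfl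

/-- separated chart values are killed by `m` -/
theorem sep_zero {l : Filter ℕ} [l.NeBot] (hl : l ≤ atTop) {P : Fin 3 → POVM V K}
    {Ψ₀ : POVM V K} {m : (ℝ × ℝ → ℂ) → ℂ} (hm : IsM l P Ψ₀ m) (h0 : (P 0).IsPVM)
    (h2 : Flag (P 2) Ψ₀) {c : ℝ × ℝ → ℂ} (hc : Integrable c) (he : Ev c)
    (hK : HasCompactSupport (K2 c)) (α β : V) {J J' : Set ℝ} (hJ : IsClosed J) (hJ' : IsClosed J')
    {d : ℝ} (hd : 0 < d) (hsep : ∀ s ∈ J, ∀ s' ∈ J', d ≤ |s' - s|) :
    m c • ((P 0).E (fun a => ic J (tc α β a)) * (P 2).E (fun a => ic J' (tc α β a))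
      * gd (P 2) Ψ₀ α β) = 0 := by
  obtain ⟨R, hR0, hR⟩ := Fou.exists_radius hK
  set S := (P 0).E fun a => ic J (tc α β a)
  set S' := (P 2).E fun a => ic J' (tc α β a)
  have bJ : BM fun a => ic J (tc α β a) := (BM.ic hJ.measurableSet).comp (measurable_tc α β)
  have bJ' : BM fun a => ic J' (tc α β a) := (BM.ic hJ'.measurableSet).comp (measurable_tc α β)
  have hcomm : Commute (gd (P 2) Ψ₀ α β) S' :=
    Commute.mul_left (h2.pvm.commute (BM.ic (isOpen_GA α β).measurableSet) bJ')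
      (h2.comm _ _ bJ' (BM.ic (isOpen_GB α β).measurableSet)).symm
  have hW : IsPoly fun f => S * Wc P α β f * S' := (isPoly_Wc P α β).mul S S'
  have hz : ∀ᶠ r in atTop, S * (toi (Wc P α β) c r * gd (P 2) Ψ₀ α β) * S' = 0 := by
    filter_upwards [eventually_gt_atTop (R / d)] with r hr
    have hr0 : 0 < r := (div_nonneg hR0 hd.le).trans_lt hr
    rw [mul_assoc, mul_assoc, hcomm.eq, ← mul_assoc, ← mul_assoc, toi_mul (isPoly_Wc P α β) hc,
      toi_eq_zero hW hc hR, zero_mul]
    intro z hz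
    have hP : P = ![P 0, P 1, P 2] := by
      funext i; fin_cases i <;> rfl
    have hm := mem_of_mem_supp (Z := ![J, Set.univ, J'])
      (fun k => by fin_cases k <;> simp [hJ, hJ']) (fun f hf i hi => ?_) hz
    · have h1 := hsep _ (hm 0) _ (hm 2)
      refine lt_of_lt_of_le ?_ (norm_fst_le _)
      rw [Real.norm_eq_abs, abs_mul, abs_of_pos hr0]
      calc R = R / d * d := by field_simp
        _ < r * d := by gcongr
        _ ≤ _ := by gcongr
    · have b0 := (hf 0).comp (measurable_tc α β)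
      have b2 := (hf 2).comp (measurable_tc α β)
      rw [Wc, hP, word_three]
      fin_cases i
      · have : S * (P 0).E (fun a => f 0 (tc α β a)) = 0 := by
          rw [← h0 _ _ bJ b0, ← (P 0).E_zero]
          congr 1
          funext a
          by_cases e : tc α β a ∈ J
          · rw [show f 0 _ = 0 from hi _ e, mul_zero]
          · simp [e]
        simp only [← mul_assoc, this, zero_mul]
      · have : (fun a => f 1 (tc α β a)) = fun _ => 0 := funext fun a => hi _ trivial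
        simp only [this, POVM.E_zero, mul_zero, zero_mul]
      · have : (P 2).E (fun a => f 2 (tc α β a)) * S' = 0 := by
          rw [← h2.pvm _ _ b2 bJ', ← (P 2).E_zero]
          congr 1
          funext a
          by_cases e : tc α β a ∈ J'
          · rw [show f 2 _ = 0 from hi _ e, zero_mul]
          · simp [e]
        simp only [mul_assoc, this, mul_zero]
  have h1 := ((hm c hc he α β).mul S S').congr hl hz
  have h3 := h1.unique (avT_const l 0)
  rw [← h3, mul_smul_comm, smul_mul_assoc, mul_assoc, mul_assoc, hcomm.eq]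

theorem exists_box2 {a a' : V} (h : a ⨯₃ a' ≠ 0) : ∃ O O' : Set V, IsOpen O ∧ IsOpen O' ∧ a ∈ O ∧
    a' ∈ O' ∧ ∀ b ∈ O, ∀ b' ∈ O', b ⨯₃ b' ≠ 0 := by
  have hc : Continuous fun p : V × V => p.1 ⨯₃ p.2 := by
    simp only [cross_apply]
    fun_prop
  have ho : IsOpen {p : V × V | p.1 ⨯₃ p.2 ≠ 0} := isOpen_ne_fun hc continuous_const
  obtain ⟨O, O', hO, hO', ha, ha', hs⟩ := isOpen_prod_iff.1 ho a a' h
  exact ⟨O, O', hO, hO', ha, ha', fun b hb b' hb' => hs (Set.mk_mem_prod hb hb')⟩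

theorem cross_dot_ne {a a' b ω : V} (h : a ⨯₃ a' ≠ 0) (h₁ : a ⬝ᵥ b = 0) (h₂ : a' ⬝ᵥ b = 0)
    (hω : ω ⬝ᵥ b ≠ 0) : ω ⬝ᵥ (a ⨯₃ a') ≠ 0 := by
  obtain ⟨z, hz⟩ := exists_smul_of_cross_eq_zero h (b := b)
    (by rw [cross_cross_eq_smul_sub_smul, h₁, h₂, zero_smul, zero_smul, sub_zero])
  intro e
  apply hω
  rw [hz, dotProduct_smul, e, smul_zero]

theorem continuousAt_tc {α β a : V} (h : α ⬝ᵥ a ≠ 0) : ContinuousAt (tc α β) a :=
  (continuousOn_tc α β).continuousAt
    ((isOpen_ne_fun (by fun_prop) continuous_const : IsOpen {a : V | α ⬝ᵥ a ≠ 0}).mem_nhds h)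

/-- the scalar vanishes when the outer points are different -/
theorem m_zero (h : Geo I I' L Φ Ψ A B sc sc') {l : Filter ℕ} [l.NeBot] (hl : l ≤ atTop)
    {m : (ℝ × ℝ → ℂ) → ℂ} (hm : IsM l (fun i => Φ (![ev 0, ev 0, ev 1] i)) (Ψ (ev 2)) m)
    {c : ℝ × ℝ → ℂ} (hc : Integrable c) (he : Ev c) : m c = 0 := by
  have := I.nontrivial
  have f0 : Flag (Φ (ev 0)) (Ψ (ev 2)) := h.flag (ev_ne_zero 0) (ev_ne_zero 2) (by simp [ev_dot_ev])
  have f1 : Flag (Φ (ev 1)) (Ψ (ev 2)) := h.flag (ev_ne_zero 1) (ev_ne_zero 2) (by simp [ev_dot_ev])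
  have key : ∀ c, Integrable c → Ev c → HasCompactSupport (K2 c) → m c = 0 := by
    intro c hc he hK
    by_contra hne
    have hs : ∀ z ∈ supp fun f : Fin 2 → V → ℂ => (Φ (ev 0)).E (f 0) * 1 * (Φ (ev 1)).E (f 1),
        z 0 ⨯₃ z 1 = 0 := by
      intro z hz
      by_contra hx
      obtain ⟨O, O', hO, hO', ha, ha', hOO⟩ := exists_box2 hx
      have hnull : NullOn (word ![Φ (ev 0), Ψ (ev 2), Φ (ev 1)]) ![O, {0}ᶜ, O'] := by
        refine (isPoly_word _).nullOn_of_disjoint (fun k => isSigmaCompact_of_isOpen ?_)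
          fun z' hz' hs' => ?_
        · fin_cases k <;> simp [hO, hO']
        have hc' : z' 0 ⨯₃ z' 2 ≠ 0 := hOO _ (hz' 0) _ (hz' 2)
        have hb : z' 1 ≠ 0 := hz' 1
        have i0 : z' 0 ⬝ᵥ z' 1 = 0 := f0.inc _ (mem_supp_of_factor (e := ![0, 1])
          (by decide) (fun f _ => ⟨1, (Φ (ev 1)).E (f 2), by simp⟩) hs')
        have i2 : z' 1 ⬝ᵥ z' 2 = 0 := f1.inc.symm _ (mem_supp_of_factor (e := ![1, 2])
          (by decide) (fun f _ => ⟨(Φ (ev 0)).E (f 0), 1, by simp [mul_assoc]⟩) hs')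
        have i2' : z' 2 ⬝ᵥ z' 1 = 0 := (dotProduct_comm _ _).trans i2
        obtain ⟨α, β, g0, g2, g1⟩ := exists_chart (Ind.ne_zero_of_cross hc').1
          (Ind.ne_zero_of_cross hc').2 hb i0 i2'
        have hne' : tc α β (z' 2) - tc α β (z' 0) ≠ 0 := by
          rw [tc_sub g0.1 g2.1]
          exact div_ne_zero (cross_dot_ne hc' i0 i2' g1) (mul_ne_zero g0.1 g2.1)
        set d := |tc α β (z' 2) - tc α β (z' 0)| / 3 with hd
        have hd0 : 0 < d := div_pos (abs_pos.2 hne') (by norm_num)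
        set J := Metric.closedBall (tc α β (z' 0)) d
        set J' := Metric.closedBall (tc α β (z' 2)) d
        have h0 := sep_zero hl hm f0.pvm f1 hc he hK α β (J := J) (J' := J')
          Metric.isClosed_closedBall Metric.isClosed_closedBall hd0 fun s hs s' hs' => by
            rw [Metric.mem_closedBall, Real.dist_eq] at hs hs'
            have := abs_sub_abs_le_abs_sub (tc α β (z' 2) - tc α β (z' 0))
              ((tc α β (z' 2) - s') + (s - tc α β (z' 0)))
            have h3 := abs_add_le (tc α β (z' 2) - s') (s - tc α β (z' 0))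
            rw [abs_sub_comm (tc α β (z' 2)) s'] at h3
            have e : tc α β (z' 2) - tc α β (z' 0) - ((tc α β (z' 2) - s') + (s - tc α β (z' 0)))
              = s' - s := by ring
            rw [e] at this
            linarith
        have h0' := (smul_eq_zero.1 h0).resolve_left hne
        have bJ : BM fun a => ic J (tc α β a) :=
          (BM.ic Metric.isClosed_closedBall.measurableSet).comp (measurable_tc α β)
        have bJ' : BM fun a => ic J' (tc α β a) :=
          (BM.ic Metric.isClosed_closedBall.measurableSet).comp (measurable_tc α β)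
        have bA := BM.ic (isOpen_GA α β).measurableSet
        have bB := BM.ic (isOpen_GB α β).measurableSet
        refine hs' ![tc α β ⁻¹' J, GB α β, tc α β ⁻¹' J' ∩ GA α β] (fun k => ?_) fun f hf hf0 => ?_
        · fin_cases k
          · exact continuousAt_tc g0.1 (Metric.closedBall_mem_nhds _ hd0)
          · exact (isOpen_GB α β).mem_nhds g1
          · exact inter_mem (continuousAt_tc g2.1 (Metric.closedBall_mem_nhds _ hd0))
              ((isOpen_GA α β).mem_nhds g2)
        · have m0 : ∀ a, f 0 a ≠ 0 → tc α β a ∈ J := fun a e => by_contra fun e' => e (hf0 0 a e')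
          have m1 : ∀ a, f 1 a ≠ 0 → a ∈ GB α β := fun a e => by_contra fun e' => e (hf0 1 a e')
          have m2 : ∀ a, f 2 a ≠ 0 → tc α β a ∈ J' ∧ a ∈ GA α β := fun a e =>
            by_contra fun e' => e (hf0 2 a e')
          rw [word_three, absorb_r f0.pvm (hf 0) bJ fun a e => ic_of_mem (m0 a e),
            absorb_l f1.pvm' (hf 1) bB fun a e => ic_of_mem (m1 a e),
            absorb_l f1.pvm (hf 2) bA fun a e => ic_of_mem (m2 a e).2,
            absorb_l f1.pvm (hf 2) bJ' fun a e => ic_of_mem (m2 a e).1]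
          have c1 := (f1.comm _ _ bA (hf 1)).eq
          have c2 := (f1.comm _ _ bJ' (hf 1)).eq
          have c3 := (f1.comm _ _ bA bB).eq
          have c4 := (f1.comm _ _ bJ' bB).eq
          have c5 := (f1.pvm.commute bA bJ').eq
          change (Φ (ev 0)).E _ * (Φ (ev 1)).E _ * gd (Φ (ev 1)) (Ψ (ev 2)) α β = 0 at h0'
          rw [gd] at h0'
          set a0 := (Φ (ev 0)).E fun a => ic J (tc α β a)
          set a1 := (Φ (ev 1)).E fun a => ic J' (tc α β a)
          set a2 := (Φ (ev 1)).E (ic (GA α β))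
          set b1 := (Ψ (ev 2)).E (ic (GB α β))
          set b2 := (Ψ (ev 2)).E (f 1)
          have e : b1 * b2 * (a2 * a1) = a1 * (a2 * b1) * b2 := by
            rw [c5, mul_assoc b1, ← mul_assoc b2, ← c2, mul_assoc a1, ← c1, ← mul_assoc b1, ← c4,
              mul_assoc a1, ← mul_assoc b1, ← c3, mul_assoc a1]
          calc (Φ (ev 0)).E (f 0) * a0 * (b1 * b2) * (a2 * (a1 * (Φ (ev 1)).E (f 2)))
              = (Φ (ev 0)).E (f 0) * (a0 * (b1 * b2 * (a2 * a1))) * (Φ (ev 1)).E (f 2) := by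
                simp only [mul_assoc]
            _ = (Φ (ev 0)).E (f 0) * (a0 * a1 * (a2 * b1)) * b2 * (Φ (ev 1)).E (f 2) := by
                rw [e]; simp only [mul_assoc]
            _ = 0 := by rw [h0', mul_zero, zero_mul, zero_mul]
      refine hz ![O, O'] (fun k => ?_) fun f hf hf0 => ?_
      · fin_cases k
        · exact hO.mem_nhds ha
        · exact hO'.mem_nhds ha'
      · have := hnull ![f 0, fun y => ic {0}ᶜ y * 1, f 1] (fun k => ?_) fun k y hy => ?_
        · rw [word_three] at this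
          simp only [cons_val_zero, cons_val_one, cons_val] at this
          rwa [← f0.proj'.sym.cut BM.one, (Ψ (ev 2)).E_one] at this
        · fin_cases k
          · exact hf 0
          · exact Cv1.bm_cut BM.one
          · exact hf 1
        · fin_cases k
          · exact hf0 0 y hy
          · have : y ∉ ({0}ᶜ : Set V) := hy
            simp [this]
          · exact hf0 1 y hy
    refine h.pro.pre.dist01 fun u hu hu0 => ?_
    have := diag_proj f0.proj f1.proj hs hu hu0 BM.one BM.one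
    simpa [POVM.E_one] using this
  refine norm_le_zero_iff.1 (le_of_forall_pos_le_add fun ε hε => ?_)
  obtain ⟨c', hc', he', -, hK, hε'⟩ := exists_smooth_near hc he hε
  have hd : Integrable fun w => c w - c' w := hc.sub hc'
  have hde : Ev fun w => c w - c' w := fun w => by simp only [he w, he' w]
  have e := IsM.add hm f1 hc' he' hd hde
  simp only [add_sub_cancel] at e
  have hb := IsM.bd hm f1 hd hde
  rw [e, key c' hc' he' hK, zero_add, zero_add]
  linarith

end S7b

open S7b in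
/-- **S7** -/
theorem Geo.s7 (h : Geo I I' L Φ Ψ A B sc sc') {x x' y : V} (hx : x ⨯₃ x' ≠ 0) (hy : y ≠ 0)
    (hxy : x ⬝ᵥ y = 0) (hxy' : x' ⬝ᵥ y = 0) {c : ℝ × ℝ → ℂ} (hc : Integrable c) (he : Ev c)
    (α β : V) :
    AvT atTop (fun l => doi (Φ x) (Φ x') α β c l * gd (Φ x') (Ψ y) α β) 0 := by
  have base : AvT atTop (fun l => doi (Φ (ev 0)) (Φ (ev 1)) α β c l
      * gd (Φ (ev 1)) (Ψ (ev 2)) α β) 0 := by
    refine avT_of_ultra fun l hl => ?_
    obtain ⟨m, hm⟩ := h.exists_isM (x := ![ev 0, ev 0, ev 1])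
      (fun i => by fin_cases i <;> simp [ev_ne_zero]) (fun i => by fin_cases i <;> simp [ev]) l hl
    have h1 := hm _ (integrable_shear hc) (ev_shear he) α β
    rw [m_zero h hl hm (integrable_shear hc) (ev_shear he), zero_smul] at h1
    have e : (fun i => Φ (![ev 0, ev 0, ev 1] i)) = ![Φ (ev 0), Φ (ev 0), Φ (ev 1)] := by
      funext i; fin_cases i <;> rfl
    rw [e] at h1
    simp only [doi_eq_toi (h.pro.pvm (ev 0)) α β hc]
    exact h1
  obtain ⟨g, g0, g1⟩ := exists_ac_pair hx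
  obtain ⟨z, hz⟩ := exists_smul_of_cross_eq_zero hx (b := y)
    (by rw [cross_cross_eq_smul_sub_smul, hxy, hxy', zero_smul, zero_smul, sub_zero])
  have hz0 : z ≠ 0 := fun e => hy (by rw [hz, e, zero_smul])
  have e2 : ac (dl g) (ev 2) = x ⨯₃ x' := by
    rw [← g0, ← g1, ac_cross]
    congr 1
    ext i; fin_cases i <;> simp [ev, cross_apply]
  have c0 : ∀ f, BM f → I.U g * (Φ (ev 0)).E f * I.U g⁻¹ = (Φ x).E f := fun f hf => by
    rw [h.pro.covU _ (ev_ne_zero 0) f hf, g0]
  have c1 : ∀ f, BM f → I.U g * (Φ (ev 1)).E f * I.U g⁻¹ = (Φ x').E f := fun f hf => by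
    rw [h.pro.covU _ (ev_ne_zero 1) f hf, g1]
  have c2 : ∀ f, BM f → I.U g * (Ψ (ev 2)).E f * I.U g⁻¹ = (Ψ y).E f := fun f hf => by
    rw [h.covΨ (ev_ne_zero 2) hf, e2, hz, h.pro'.scal _ hx z hz0 f hf]
  have hu : I.U g⁻¹ * I.U g = 1 := by rw [← map_mul, inv_mul_cancel, map_one]
  have cm : ∀ S T : K →L[ℂ] K, I.U g * (S * T) * I.U g⁻¹
      = I.U g * S * I.U g⁻¹ * (I.U g * T * I.U g⁻¹) := fun S T => by
    simp only [mul_assoc]
    rw [← mul_assoc (I.U g⁻¹) (I.U g), hu, one_mul]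
  have h1 := base.mul (I.U g) (I.U g⁻¹)
  rw [mul_zero, zero_mul] at h1
  refine h1.congr le_rfl (Eventually.of_forall fun r => ?_)
  rw [cm, gd, gd, cm, c1 _ (BM.ic (isOpen_GA α β).measurableSet),
    c2 _ (BM.ic (isOpen_GB α β).measurableSet), doi, doi, mul_sInt hc (sCont_doi_w _ _ α β r),
    sInt_mul hc ((SCont.const _).mul (sCont_doi_w _ _ α β r))]
  congr 2
  funext w
  rw [cm, c0 _ (bm_ext α β _), c1 _ (bm_ext' α β _)]

theorem S7b.exists_bumpK : ∃ c : ℝ × ℝ → ℂ, Integrable c ∧ Ev c ∧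
    ∀ y : ℝ, |y| < 1 → K2 c (0, y) = 1 := by
  let φ : ContDiffBump (0 : ℝ × ℝ) := ⟨1, 2, one_pos, one_lt_two⟩
  obtain ⟨c, hc, -, hK, he⟩ := exists_K2 (f := fun p => ((φ p : ℝ) : ℂ))
    (Complex.ofRealCLM.contDiff.comp φ.contDiff) (φ.hasCompactSupport.comp_left Complex.ofReal_zero)
  refine ⟨c, hc, he fun p => by simp only [φ.neg], fun y hy => ?_⟩
  rw [hK]
  simp only
  rw [φ.one_of_mem_closedBall, Complex.ofReal_one]
  simpa [φ, Prod.norm_def] using hy.le

open S7b in
/-- **ND**: the diagonal carries no part of the support -/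
theorem Geo.nd (h : Geo I I' L Φ Ψ A B sc sc') {x x' y : V} (hx : x ⨯₃ x' ≠ 0) (hy : y ≠ 0)
    (hxy : x ⬝ᵥ y = 0) (hxy' : x' ⬝ᵥ y = 0) {κ : Type} [Fintype κ] [DecidableEq κ]
    {W : (κ → V → ℂ) → K →L[ℂ] K} (hW : IsPoly W) {i l k : κ} (hil : i ≠ l) (hik : i ≠ k)
    (hlk : l ≠ k)
    (hf : ∀ f : κ → V → ℂ, (∀ j, BM (f j)) → ∃ S T, ∀ u : κ → V → ℂ, (∀ j, BM (u j) ∧ Hom0 (u j)) →
      (∀ j, j ≠ i → j ≠ l → j ≠ k → u j = fun _ => 1) →
      W (fun j a => f j a * u j a)
        = S * ((Φ x).E (u i) * (Ψ y).E (u l) * (Φ x').E (u k)) * T)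
    {z : κ → V} (hz : z ∈ supp W) (hi : z i ≠ 0) (hl : z l ≠ 0) (hk : z k ≠ 0) :
    z ∈ closure {z' ∈ supp W | z' i ⨯₃ z' k ≠ 0} := by
  by_contra hcl
  have fl : Flag (Φ x') (Ψ y) := h.flag (Ind.ne_zero_of_cross hx).2 hy hxy'
  have hev : ∀ᶠ z' in 𝓝 z, z' ∈ supp W → z' i ⨯₃ z' k = 0 := by
    filter_upwards [isClosed_closure.isOpen_compl.mem_nhds hcl] with z' h1 h2
    by_contra h3
    exact h1 (subset_closure ⟨h2, h3⟩)
  have hpar : z i ⨯₃ z k = 0 := hev.self_of_nhds hz
  -- three slot functions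
  let u3 : (V → ℂ) → (V → ℂ) → (V → ℂ) → κ → V → ℂ := fun p q r j =>
    if j = i then p else if j = l then q else if j = k then r else fun _ => 1
  have u3i : ∀ p q r, u3 p q r i = p := fun p q r => if_pos rfl
  have u3l : ∀ p q r, u3 p q r l = q := fun p q r => by simp [u3, hil.symm]
  have u3k : ∀ p q r, u3 p q r k = r := fun p q r => by simp [u3, hik.symm, hlk.symm]
  have u3o : ∀ p q r j, j ≠ i → j ≠ l → j ≠ k → u3 p q r j = fun _ => 1 :=
    fun p q r j h1 h2 h3 => by simp [u3, h1, h2, h3]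
  have u3P : ∀ (Pr : κ → (V → ℂ) → Prop) p q r, Pr i p → Pr l q → Pr k r →
      (∀ j, j ≠ i → j ≠ l → j ≠ k → Pr j fun _ => 1) → ∀ j, Pr j (u3 p q r j) := by
    intro Pr p q r h1 h2 h3 h4 j
    by_cases e1 : j = i
    · rw [e1, u3i]; exact h1
    by_cases e2 : j = l
    · rw [e2, u3l]; exact h2
    by_cases e3 : j = k
    · rw [e3, u3k]; exact h3
    rw [u3o p q r j e1 e2 e3]
    exact h4 j e1 e2 e3
  have h11 : BM (fun _ : V => (1 : ℂ)) ∧ Hom0 fun _ => 1 := ⟨BM.one, fun _ _ _ => rfl⟩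
  have hlk0 : z l ⬝ᵥ z k = 0 := by
    by_contra hne
    obtain ⟨θ, hθ, O, hO, O', hO', hni⟩ := exists_ni hne
    obtain ⟨O₁, s₁, o₁, m₁⟩ := mem_nhds_iff.1 hO
    obtain ⟨O₂, s₂, o₂, m₂⟩ := mem_nhds_iff.1 hO'
    have b₁ := BM.ic (isOpen_cone o₁).measurableSet
    have b₂ := BM.ic (isOpen_cone o₂).measurableSet
    refine hz (fun j => if j = l then O₁ else if j = k then O₂ else Set.univ) (fun j => ?_)
      fun f hfb hf0 => ?_
    · by_cases e1 : j = l
      · simp only [e1, if_true]; exact o₁.mem_nhds m₁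
      by_cases e2 : j = k
      · simp only [e2, hlk.symm, if_true, if_false]; exact o₂.mem_nhds m₂
      simp only [e1, e2, if_false]; exact univ_mem
    obtain ⟨S, T, hST⟩ := hf f hfb
    have e := hST (u3 (fun _ => 1) (ic (cone O₁)) (ic (cone O₂)))
      (u3P (fun _ u => BM u ∧ Hom0 u) _ _ _ h11 ⟨b₁, hom0_ic_cone _⟩ ⟨b₂, hom0_ic_cone _⟩
        fun _ _ _ _ => h11) (u3o _ _ _)
    have e' : (fun j a => f j a * u3 (fun _ => 1) (ic (cone O₁)) (ic (cone O₂)) j a) = f := by
      funext j a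
      refine u3P (fun j u => f j a * u a = f j a) _ _ _ (mul_one _) ?_ ?_
        (fun _ _ _ _ => mul_one _) j
      · by_cases m : a ∈ O₁
        · rw [ic_of_mem (subset_cone _ m), mul_one]
        · rw [hf0 l a (by simpa using m), zero_mul]
      · by_cases m : a ∈ O₂
        · rw [ic_of_mem (subset_cone _ m), mul_one]
        · rw [hf0 k a (by simpa [hlk.symm] using m), zero_mul]
    rw [e', u3l, u3k, mul_assoc ((Φ x).E _), fl.inc.symm.mul_eq_zero fl.proj' fl.proj b₁ b₂
      (hom0_ic_cone _) (hom0_ic_cone _) hθ fun a b ha hb => hni a (Ap2.cone_mono s₁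
        (by_contra fun e => ha (ic_of_notMem e))) b (Ap2.cone_mono s₂
        (by_contra fun e => hb (ic_of_notMem e)))] at e
    simpa using e
  have hkl0 : z k ⬝ᵥ z l = 0 := (dotProduct_comm _ _).trans hlk0
  have hil0 : z i ⬝ᵥ z l = 0 := by
    obtain ⟨s, hs⟩ := exists_smul_of_cross_eq_zero hk (b := z i)
      (by rw [← neg_eq_zero, ← cross_anticomm, neg_neg]; exact hpar)
    rw [hs, smul_dotProduct, hkl0, smul_zero]
  obtain ⟨α, β, gi, gk, gl⟩ := exists_chart hi hk hl hil0 hkl0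
  have hev' : ∀ᶠ z' in 𝓝 z, (z' ∈ supp W → z' i ⨯₃ z' k = 0) ∧ z' i ∈ GA α β ∧ z' k ∈ GA α β ∧
      z' l ∈ GB α β := hev.and (((continuous_apply i).continuousAt.eventually
        ((isOpen_GA α β).mem_nhds gi)).and (((continuous_apply k).continuousAt.eventually
        ((isOpen_GA α β).mem_nhds gk)).and ((continuous_apply l).continuousAt.eventually
        ((isOpen_GB α β).mem_nhds gl))))
  obtain ⟨δ, hδ, hball⟩ := Metric.nhds_basis_closedBall.eventually_iff.1 hev'
  have hup : ∀ j, ∀ a ∈ Metric.closedBall (z j) δ, Function.update z j a ∈ Metric.closedBall z δ := by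
    intro j a ha
    rw [closedBall_pi _ hδ.le]
    intro j' _
    by_cases e : j' = j
    · subst e; simpa using ha
    · simp [Function.update_of_ne e, hδ.le]
  have mi : ∀ a ∈ Metric.closedBall (z i) δ, a ∈ GA α β := fun a ha => by
    simpa using (hball (hup i a ha)).2.1
  have mk : ∀ a ∈ Metric.closedBall (z k) δ, a ∈ GA α β := fun a ha => by
    simpa using (hball (hup k a ha)).2.2.1
  have ml : ∀ a ∈ Metric.closedBall (z l) δ, a ∈ GB α β := fun a ha => by
    simpa using (hball (hup l a ha)).2.2.2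
  refine hz (fun j => Metric.closedBall (z j) δ) (fun j => Metric.closedBall_mem_nhds _ hδ)
    fun f hfb hf0 => ?_
  obtain ⟨S, T, hST⟩ := hf f hfb
  obtain ⟨c, hc, he, hK⟩ := exists_bumpK
  have bA := BM.ic (isOpen_GA α β).measurableSet
  have bB := BM.ic (isOpen_GB α β).measurableSet
  have hWf : IsPoly fun g : κ → V → ℂ => W fun j a => f j a * g j a :=
    hW.comp (φ := fun _ a => a) (fun _ => measurable_id) hfb
  have oα : IsOpen {a : V | α ⬝ᵥ a ≠ 0} := isOpen_ne_fun (by fun_prop) continuous_const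
  have key : ∀ r : ℝ, S * (doi (Φ x) (Φ x') α β c r * gd (Φ x') (Ψ y) α β) * T = W f := by
    intro r
    let φ : ℝ × ℝ → κ → V → ℂ := fun w => u3 (fun a => ex (w.2 * r * tc α β a)) (fun _ => 1)
      fun a => ex (-(w.2 * r * tc α β a))
    let Z : κ → Set V := fun j => if j = i ∨ j = k then {a | α ⬝ᵥ a ≠ 0} else Set.univ
    have hZ : ∀ j, IsOpen (Z j) := fun j => by
      simp only [Z]; split_ifs; exacts [oα, isOpen_univ]
    have Zi : Z i = {a | α ⬝ᵥ a ≠ 0} := if_pos (Or.inl rfl)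
    have Zk : Z k = {a | α ⬝ᵥ a ≠ 0} := if_pos (Or.inr rfl)
    have hrep : KRep (ℝ × ℝ) volume c φ Z := by
      refine ⟨hc, fun w => u3P (fun _ u => Measurable u) _ _ _ (bm_ext α β _).1 measurable_const
          (bm_ext' α β _).1 fun _ _ _ _ => measurable_const,
        fun w j a => u3P (fun _ u => ‖u a‖ ≤ 1) _ _ _ (norm_ex _).le (by simp) (norm_ex _).le
          (fun _ _ _ _ => by simp) j, fun j a => ?_,
        fun w => u3P (fun j u => ContinuousOn u (Z j)) _ _ _ ?_ continuousOn_const ?_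
          fun _ _ _ _ => continuousOn_const⟩
      · simp only [φ, u3]
        split_ifs <;> fun_prop
      · rw [Zi]
        exact continuous_ex.comp_continuousOn (continuousOn_const.mul (continuousOn_tc α β))
      · rw [Zk]
        exact continuous_ex.comp_continuousOn (continuousOn_const.mul (continuousOn_tc α β)).neg
    have hO : IsOpen ({z' : κ → V | α ⬝ᵥ z' i ≠ 0 ∧ α ⬝ᵥ z' k ≠ 0} ∩
        (fun z' : κ → V => |r * (tc α β (z' i) - tc α β (z' k))|) ⁻¹' Set.Iio 1) := by
      refine ContinuousOn.isOpen_inter_preimage ?_ (IsOpen.inter (s := {z' : κ → V | α ⬝ᵥ z' i ≠ 0})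
        (t := {z' : κ → V | α ⬝ᵥ z' k ≠ 0}) (isOpen_ne_fun (by fun_prop) continuous_const)
        (isOpen_ne_fun (by fun_prop) continuous_const)) isOpen_Iio
      exact (continuousOn_const.mul (((continuousOn_tc α β).comp (continuous_apply i).continuousOn
        fun _ h => h.1).sub ((continuousOn_tc α β).comp (continuous_apply k).continuousOn
        fun _ h => h.2))).abs
    have e1 := hWf.wd_const hZ (fun g _ => ?_) hrep hO (fun z' hz' hZ' => ?_) 1 fun z' hz' _ => ?_
    · rw [one_smul] at e1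
      simp only [mul_one] at e1
      rw [← e1, doi, sInt_mul hc (sCont_doi_w _ _ α β r),
        mul_sInt hc ((sCont_doi_w _ _ α β r).mul (SCont.const _)),
        sInt_mul hc ((SCont.const _).mul ((sCont_doi_w _ _ α β r).mul (SCont.const _)))]
      congr 1
      funext w
      have hh : ∀ s : ℝ, Hom0 fun a => ex (s * tc α β a) := fun s t ht a => by
        simp only [tc_smul α β ht]
      have hh' : ∀ s : ℝ, Hom0 fun a => ex (-(s * tc α β a)) * ic (GA α β) a := fun s t ht a => by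
        simp only [tc_smul α β ht, hom0_ic_GA α β t ht a]
      have e := hST (u3 (fun a => ex (w.2 * r * tc α β a)) (ic (GB α β))
          fun a => ex (-(w.2 * r * tc α β a)) * ic (GA α β) a)
        (u3P (fun _ u => BM u ∧ Hom0 u) _ _ _ ⟨bm_ext α β _, hh _⟩ ⟨bB, hom0_ic_GB α β⟩
          ⟨(bm_ext' α β _).mul bA, hh' _⟩ fun _ _ _ _ => h11) (u3o _ _ _)
      rw [u3i, u3l, u3k, fl.pvm _ _ (bm_ext' α β _) bA] at e
      have e' : (fun j a => f j a * φ w j a) = fun j a => f j a * u3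
          (fun a => ex (w.2 * r * tc α β a)) (ic (GB α β))
          (fun a => ex (-(w.2 * r * tc α β a)) * ic (GA α β) a) j a := by
        funext j a
        by_cases e1 : j = i
        · simp only [φ, e1, u3i]
        by_cases e2 : j = l
        · simp only [φ, e2, u3l]
          by_cases m : a ∈ Metric.closedBall (z l) δ
          · rw [ic_of_mem (ml a m)]
          · rw [hf0 l a m, zero_mul, zero_mul]
        by_cases e3 : j = k
        · simp only [φ, e3, u3k]
          by_cases m : a ∈ Metric.closedBall (z k) δ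
          · rw [ic_of_mem (mk a m), mul_one]
          · rw [hf0 k a m, zero_mul, zero_mul]
        simp only [φ, u3o _ _ _ j e1 e2 e3]
      rw [e', e, gd]
      congr 2
      rw [mul_assoc, mul_assoc, ← mul_assoc ((Ψ y).E _), ← (fl.comm _ _ (bm_ext' α β _) bB).eq,
        mul_assoc, ← (fl.comm _ _ bA bB).eq]
    · congr 1
      funext j a
      by_cases m : a ∈ Metric.closedBall (z j) δ
      · simp only
        rw [ic_of_mem, one_mul]
        simp only [Z]
        split_ifs with e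
        · rcases e with rfl | rfl
          exacts [(mi a m).1, (mk a m).1]
        · trivial
      · simp [hf0 j a m]
    · have s1 : z' ∈ supp W := fun O hO' hn => hz' O hO' fun g hg hg0 =>
        hn _ (fun j => (hfb j).mul (hg j)) fun j a ha => by rw [hg0 j a ha, mul_zero]
      have s2 : z' ∈ Metric.closedBall z δ := by
        rw [closedBall_pi _ hδ.le]
        exact fun j _ => mem_of_mem_supp (Z := fun j => Metric.closedBall (z j) δ)
          (fun _ => Metric.isClosed_closedBall) (fun g hg j' hj' => hW.eq_zero_of_slot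
            (fun j => (hfb j).mul (hg j)) (i := j') fun a => by
              by_cases m : a ∈ Metric.closedBall (z j') δ
              · rw [hj' a m, mul_zero]
              · rw [hf0 j' a m, zero_mul]) hz' j
      obtain ⟨p1, p2, p3, -⟩ := hball s2
      refine ⟨⟨p2.1, p3.1⟩, ?_⟩
      have : tc α β (z' k) - tc α β (z' i) = 0 := by rw [tc_sub p2.1 p3.1, p1 s1]; simp
      rw [Set.mem_preimage, ← neg_sub, this]
      simp
    · rw [← hK _ hz'.2, K2]
      refine integral_congr_ae (Eventually.of_forall fun w => ?_)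
      simp only
      congr 1
      rw [Fintype.prod_eq_mul i k hik fun j hj => ?_]
      · simp only [φ, u3i, u3k]
        rw [← ex_add]
        congr 1
        ring
      · by_cases e2 : j = l
        · simp only [φ, e2, u3l]
        · simp only [φ, u3o _ _ _ j hj.1 e2 hj.2]
  have h1 := (h.s7 hx hy hxy hxy' hc he α β).mul S T
  rw [mul_zero, zero_mul] at h1
  exact (avT_const atTop (W f)).unique (h1.congr le_rfl (Eventually.of_forall key))

end Crest.Agent.N111
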