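import Crest.Agent.N111.E.Api
import Crest.Agent.N111.D.Mid
import Crest.Agent.N111.D.Inc
import Crest.Agent.N111.F.Toi

-- ▼ part N111/F/S8a
section

/-! # Row 111: opposite pairs, preliminaries: `PRep`, `coord_jm`, `LC`. -/

set_option autoImplicit false
set_option linter.unusedSectionVars false
set_option linter.unusedVariables false

namespace Crest.Agent.N111

open MeasureTheory Topology Filter Matrix
open scoped InnerProductSpace

variable {K : Type} [NormedAddCommGroup K] [InnerProductSpace ℂ K] [CompleteSpace K]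

variable {I I' : Ind K} {L : ℕ → ℝ} {Φ Ψ A B : V → POVM V K} {sc sc' : ℝ → ℝ}


/-- a representation of the projective kernel `(|b·a|/(‖b‖‖a‖))^{it}` off the incidence variety -/
structure PRep (θ t : ℝ) (c : (Fin 18 → ℝ) → ℂ) (φ ψ : (Fin 18 → ℝ) → V → ℂ) : Prop where
  int : Integrable c
  measφ : ∀ w, Measurable (φ w)
  measψ : ∀ w, Measurable (ψ w)
  bdφ : ∀ w a, ‖φ w a‖ ≤ 1
  bdψ : ∀ w a, ‖ψ w a‖ ≤ 1
  homφ : ∀ w, Hom0 (φ w)
  homψ : ∀ w, Hom0 (ψ w)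
  contφ : ∀ a, Continuous fun w => φ w a
  contψ : ∀ a, Continuous fun w => ψ w a
  jointφ : ContinuousOn (fun p : (Fin 18 → ℝ) × V => φ p.1 p.2) {p | p.2 ≠ 0}
  jointψ : ContinuousOn (fun p : (Fin 18 → ℝ) × V => ψ p.1 p.2) {p | p.2 ≠ 0}
  ker : ∀ b a : V, b ≠ 0 → a ≠ 0 → θ * (‖b‖ * ‖a‖) ≤ |b ⬝ᵥ a| →
    ∫ w, c w * (φ w b * ψ w a) = ex (t * (Real.log |b ⬝ᵥ a| - Real.log ‖b‖ - Real.log ‖a‖))

namespace S8a

/-- the phase of one slot -/
noncomputable def ph (u : Fin 3 × Fin 3 → Fin 18) (t : ℝ) (w : Fin 18 → ℝ) (a : V) : ℂ :=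
  ex (∑ q, w (u q) * Pj.pm a q.1 q.2 + t * (Real.log (a ⬝ᵥ a) / 2 - Real.log ‖a‖))

variable (u : Fin 3 × Fin 3 → Fin 18) (t : ℝ)

theorem meas_ph (w : Fin 18 → ℝ) : Measurable (ph u t w) := by
  have h1 : ∀ q : Fin 3 × Fin 3, Measurable fun a => Pj.pm a q.1 q.2 := fun q =>
    (measurable_pi_apply q.2).comp ((measurable_pi_apply q.1).comp Pj.measurable_pm)
  have h2 : Measurable fun a : V => a ⬝ᵥ a := by unfold dotProduct; fun_prop
  exact measurable_ex.comp ((Finset.measurable_sum _ fun q _ => (h1 q).const_mul _).add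
    (((h2.log.div_const 2).sub measurable_norm.log).const_mul t))

theorem hom_ph (w : Fin 18 → ℝ) : Hom0 (ph u t w) := fun z hz a => by
  by_cases ha : a = 0
  · rw [ha, smul_zero]
  rw [ph, ph, Pj.pm_smul hz, smul_dotProduct, dotProduct_smul, norm_smul, smul_eq_mul, smul_eq_mul,
    Real.log_mul hz (mul_ne_zero hz (Pj.dot_ne ha)), Real.log_mul hz (Pj.dot_ne ha),
    Real.log_mul (norm_ne_zero_iff.2 hz) (norm_ne_zero_iff.2 ha), Real.norm_eq_abs, Real.log_abs]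
  congr 3
  ring

theorem cont_ph (a : V) : Continuous fun w => ph u t w a := by unfold ph; fun_prop

theorem joint_ph :
    ContinuousOn (fun p : (Fin 18 → ℝ) × V => ph u t p.1 p.2) {p | p.2 ≠ 0} := by
  have h1 : ∀ q : Fin 3 × Fin 3, ContinuousOn (fun p : (Fin 18 → ℝ) × V => Pj.pm p.2 q.1 q.2)
      {p | p.2 ≠ 0} := fun q => (continuous_apply_apply q.1 q.2).comp_continuousOn
    (Pj.continuousOn_pm.comp continuous_snd.continuousOn fun _ h => h)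
  refine continuous_ex.comp_continuousOn ((continuousOn_finsetSum _ fun q _ =>
    ContinuousOn.mul (by fun_prop) (h1 q)).add (continuousOn_const.mul (ContinuousOn.sub
      ((ContinuousOn.log (by fun_prop) fun p h => Pj.dot_ne h).div_const 2)
      (ContinuousOn.log (by fun_prop) fun p h => norm_ne_zero_iff.2 h))))

theorem sum_pm (b a : V) : ∑ q : Fin 3 × Fin 3, Pj.pm b q.1 q.2 * Pj.pm a q.1 q.2 =
    (b ⬝ᵥ a) ^ 2 / ((b ⬝ᵥ b) * (a ⬝ᵥ a)) := by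
  simp only [Pj.pm, div_mul_div_comm, ← Finset.sum_div]
  congr 1
  simp only [Fintype.sum_prod_type, dotProduct, Fin.sum_univ_three]
  ring

theorem exists_m {δ : ℝ} (hδ : 0 < δ) : ∃ m : ℝ → ℝ, ContDiff ℝ (⊤ : ℕ∞) m ∧ (∀ s, 0 < m s) ∧
    ∀ s, δ ≤ s → m s = s := by
  refine ⟨fun s => δ + Real.smoothTransition (2 * s / δ - 1) * (s - δ), ?_, fun s => ?_,
    fun s hs => ?_⟩
  · exact contDiff_const.add ((Real.smoothTransition.contDiff.comp (by fun_prop)).mul (by fun_prop))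
  · have h0 := Real.smoothTransition.nonneg (2 * s / δ - 1)
    have h1 := Real.smoothTransition.le_one (2 * s / δ - 1)
    dsimp only
    rcases le_or_gt s (δ / 2) with h | h
    · rw [Real.smoothTransition.zero_of_nonpos (by rw [sub_nonpos, div_le_one hδ]; linarith)]
      simpa using hδ
    · nlinarith [mul_nonneg h0 (show 0 ≤ s - δ / 2 by linarith)]
  · dsimp only
    rw [Real.smoothTransition.one_of_one_le (by rw [le_sub_iff_add_le, le_div_iff₀ hδ]; linarith)]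
    ring

end S8a

theorem exists_pRep {θ : ℝ} (hθ : 0 < θ) (t : ℝ) : ∃ c φ ψ, PRep θ t c φ ψ := by
  obtain ⟨m, hm, hm0, hm1⟩ := S8a.exists_m (δ := θ ^ 2 / 9) (by positivity)
  let e : (Fin 3 × Fin 3) ⊕ (Fin 3 × Fin 3) ≃ Fin 18 := Fintype.equivFinOfCardEq (by simp)
  let β : ContDiffBump (0 : Fin 18 → ℝ) := ⟨1, 2, one_pos, one_lt_two⟩
  let S : (Fin 18 → ℝ) → ℝ := fun p => ∑ q, p (e (.inl q)) * p (e (.inr q))
  have hS : ContDiff ℝ (⊤ : ℕ∞) S := ContDiff.sum fun q _ => by fun_prop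
  have hex : ContDiff ℝ (⊤ : ℕ∞) ex :=
    Complex.contDiff_exp.comp (contDiff_const.mul Complex.ofRealCLM.contDiff)
  obtain ⟨c, hc, -, hK⟩ := exists_KN (f := fun p => ex (t / 2 * Real.log (m (S p))) * (β p : ℂ))
    ((hex.comp (contDiff_const.mul ((hm.comp hS).log fun p => (hm0 _).ne'))).mul
      (Complex.ofRealCLM.contDiff.comp β.contDiff))
    (β.hasCompactSupport.comp_left (g := fun r : ℝ => (r : ℂ)) Complex.ofReal_zero).mul_left
  refine ⟨c, S8a.ph (fun q => e (.inl q)) t, S8a.ph (fun q => e (.inr q)) t, hc, S8a.meas_ph _ t,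
    S8a.meas_ph _ t, fun _ _ => (norm_ex _).le, fun _ _ => (norm_ex _).le, S8a.hom_ph _ t,
    S8a.hom_ph _ t, S8a.cont_ph _ t, S8a.cont_ph _ t, S8a.joint_ph _ t, S8a.joint_ph _ t,
    fun b a hb ha h => ?_⟩
  let p : Fin 18 → ℝ := fun i =>
    Sum.elim (fun q => Pj.pm b q.1 q.2) (fun q => Pj.pm a q.1 q.2) (e.symm i)
  have hp : ‖p‖ ≤ 1 := (pi_norm_le_iff_of_nonneg zero_le_one).2 fun i => by
    have : ∀ (a : V) (q : Fin 3 × Fin 3), ‖Pj.pm a q.1 q.2‖ ≤ 1 := fun a q =>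
      ((norm_le_pi_norm _ q.2).trans (norm_le_pi_norm (Pj.pm a) q.1)).trans (Pj.norm_pm_le a)
    simp only [p]
    rcases e.symm i with q | q <;> exact this _ q
  have h1 : S p = (b ⬝ᵥ a) ^ 2 / ((b ⬝ᵥ b) * (a ⬝ᵥ a)) := by
    simp only [S, p, Equiv.symm_apply_apply, Sum.elim_inl, Sum.elim_inr, S8a.sum_pm]
  have pb := norm_pos_iff.2 hb
  have pa := norm_pos_iff.2 ha
  have qb : 0 < b ⬝ᵥ b := (pow_pos pb 2).trans_le (norm_sq_le_dot b)
  have qa : 0 < a ⬝ᵥ a := (pow_pos pa 2).trans_le (norm_sq_le_dot a)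
  have h0 : b ⬝ᵥ a ≠ 0 := abs_pos.1 (lt_of_lt_of_le (by positivity) h)
  have h2 : θ ^ 2 / 9 ≤ S p := by
    rw [h1, div_le_div_iff₀ (by norm_num) (mul_pos qb qa), ← sq_abs (b ⬝ᵥ a)]
    have a1 := mul_le_mul ((le_abs_self _).trans (abs_dot_le b b))
      ((le_abs_self _).trans (abs_dot_le a a)) qa.le (by positivity)
    nlinarith [pow_le_pow_left₀ (by positivity) h 2, mul_le_mul_of_nonneg_left a1 (sq_nonneg θ)]
  have h3 := congrFun hK p
  rw [β.one_of_mem_closedBall (mem_closedBall_zero_iff.2 hp), hm1 _ h2, h1, Complex.ofReal_one,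
    mul_one, KN] at h3
  have h4 : ∀ w, c w * (S8a.ph (fun q => e (.inl q)) t w b * S8a.ph (fun q => e (.inr q)) t w a) =
      c w * ex (∑ i, w i * p i) * ex (t * (Real.log (b ⬝ᵥ b) / 2 - Real.log ‖b‖) +
        t * (Real.log (a ⬝ᵥ a) / 2 - Real.log ‖a‖)) := fun w => by
    rw [S8a.ph, S8a.ph, mul_assoc, ← ex_add, ← ex_add, ← e.sum_comp, Fintype.sum_sum_type]
    simp only [p, Equiv.symm_apply_apply, Sum.elim_inl, Sum.elim_inr]
    congr 2
    ring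
  simp only [h4]
  rw [integral_mul_const, h3, ← ex_add, Real.log_div (pow_ne_zero 2 h0) (mul_pos qb qa).ne',
    Real.log_mul qb.ne' qa.ne', Real.log_pow, Real.log_abs]
  congr 1
  push_cast
  ring

/-- on the bad covectors the coordinate `jm μ` is almost maximal -/
theorem coord_jm (R : ℝ) {θ ε : ℝ} (hθ : 0 < θ) (hε : 0 < ε) : ∀ᶠ L in atTop, ∀ μ ∈ Sh L R,
    ∀ b : V, b ≠ 0 → θ * (‖ac (ι (dl μ)) b‖ * ‖pt μ‖) ≤ |ac (ι (dl μ)) b ⬝ᵥ pt μ| →
      ac (ι (dl μ)) b ⬝ᵥ pt μ = b (jm μ) ∧ |Real.log |b (jm μ)| - Real.log ‖b‖| ≤ ε ∧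
      |Real.log ‖ac (ι (dl μ)) b‖ - Real.log ‖b‖ + 2 * L| ≤ R + |Real.log θ| + 2 := by
  have h0 : Tendsto (fun L : ℝ => 12 * Real.exp (3 * R) * (1 + 3 / θ) * Real.exp (-(3 * L)))
      atTop (𝓝 0) := by
    simpa using (Real.tendsto_exp_neg_atTop_nhds_zero.comp
      (tendsto_id.const_mul_atTop three_pos)).const_mul (12 * Real.exp (3 * R) * (1 + 3 / θ))
  filter_upwards [h0.eventually (ge_mem_nhds (lt_min hε (show (0 : ℝ) < 1 / 3 by norm_num)))]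
    with L hL μ hμ b hb h
  set d := ac (ι (dl μ)) b with hd
  have key : ∀ i, ac (ι μ) (ev i) ⬝ᵥ d = b i := fun i => by rw [hd, ι_dl, ac_dot_ac_dl, ev_dot]
  have e1 : d ⬝ᵥ pt μ = b (jm μ) := by rw [dotProduct_comm, pt, key]
  rw [e1] at h
  have pp := norm_pos_iff.2 (pt_ne_zero μ)
  have pd : 0 < ‖d‖ := norm_pos_iff.2 (ac_ne_zero _ hb)
  have pb := norm_pos_iff.2 hb
  have pj : 0 < |b (jm μ)| := lt_of_lt_of_le (by positivity) h
  have l1 := Sh.le_nm hμ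
  have l2 := abs_le.1 hμ.1
  rw [← norm_pt] at l1 l2
  set x := 12 * Real.exp (3 * R) * (1 + 3 / θ) * Real.exp (-(3 * L)) with hx
  have h1 : ‖b‖ ≤ (1 + x) * |b (jm μ)| := (pi_norm_le_iff_of_nonneg (by positivity)).2 fun i => by
    obtain ⟨κ, r, e, -, hr⟩ := exists_decomp (pt_ne_zero μ) (ac (ι μ) (ev i))
    have a1 : ‖ac (ι μ) (ev i) ⨯₃ pt μ‖ ≤ 6 * Real.exp (L + R) := by
      rw [pt, ac_cross]
      have b1 := norm_cross_le (ev i) (ev (jm μ))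
      rw [norm_ev, norm_ev] at b1
      calc _ ≤ 3 * nm (dl (ι μ)) * ‖ev i ⨯₃ ev (jm μ)‖ := norm_ac_le _ _
        _ ≤ 3 * Real.exp (L + R) * (2 * 1 * 1) := by gcongr; exact Sh.nm_dl_le hμ
        _ = _ := by ring
    set ρ := 12 * Real.exp (3 * R) * Real.exp (-(3 * L)) with hρ
    have a2 : ‖r‖ ≤ ρ * ‖pt μ‖ := by
      refine le_of_mul_le_mul_right (hr.trans ?_) pp
      have : Real.exp (3 * R) * Real.exp (-(3 * L)) * Real.exp (2 * L - R) * Real.exp (2 * L - R) =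
          Real.exp (L + R) := by
        simp only [← Real.exp_add]; congr 1; ring
      calc _ ≤ ρ * Real.exp (2 * L - R) * Real.exp (2 * L - R) := by rw [hρ]; linarith
        _ ≤ _ := by gcongr
    have a3 : |κ| ≤ 1 + ρ := by
      refine le_of_mul_le_mul_right ?_ pp
      have b1 := norm_sub_le (ac (ι μ) (ev i)) r
      have b2 := norm_ac_ev_le (ι μ) i
      rw [sub_eq_of_eq_add e, norm_smul, Real.norm_eq_abs] at b1
      rw [← norm_pt] at b2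
      linarith
    have a4 : |r ⬝ᵥ d| ≤ 3 / θ * ρ * |b (jm μ)| := by
      calc _ ≤ 3 * ‖r‖ * ‖d‖ := abs_dot_le r d
        _ ≤ 3 * (ρ * ‖pt μ‖) * ‖d‖ := by gcongr
        _ = 3 / θ * ρ * (θ * (‖d‖ * ‖pt μ‖)) := by field_simp
        _ ≤ _ := by gcongr
    rw [Real.norm_eq_abs, ← key i, e, add_dotProduct, smul_dotProduct, dotProduct_comm (pt μ), e1,
      smul_eq_mul]
    refine (abs_add_le _ _).trans ?_
    rw [abs_mul, show x = ρ + 3 / θ * ρ by rw [hx, hρ]; ring]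
    nlinarith [mul_le_mul_of_nonneg_right a3 pj.le]
  have h2 : Real.log |b (jm μ)| ≤ Real.log ‖b‖ := Real.log_le_log pj (norm_le_pi_norm b _)
  have x0 : 0 ≤ x := by positivity
  have h3 := Real.log_le_log pb h1
  rw [Real.log_mul (by positivity) pj.ne'] at h3
  have h4 := Real.log_le_sub_one_of_pos (show 0 < 1 + x by positivity)
  have h5 := Real.log_le_log (by positivity) (h.trans (norm_le_pi_norm b _))
  rw [Real.log_mul hθ.ne' (by positivity), Real.log_mul pd.ne' pp.ne'] at h5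
  have h6 : ‖b‖ ≤ 4 * (‖d‖ * ‖pt μ‖) := by
    have := abs_dot_le d (pt μ)
    rw [e1] at this
    nlinarith [(le_min_iff.1 hL).2, mul_pos pd pp]
  have h7 := Real.log_le_log pb h6
  rw [Real.log_mul four_ne_zero (by positivity), Real.log_mul pd.ne' pp.ne'] at h7
  have h8 : Real.log 4 ≤ 2 := by
    rw [show (4 : ℝ) = 2 ^ 2 by norm_num, Real.log_pow]
    have := Real.log_le_sub_one_of_pos two_pos
    push_cast
    linarith
  refine ⟨e1, abs_le.2 ⟨?_, ?_⟩, abs_le.2 ⟨?_, ?_⟩⟩ <;>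
    linarith [(le_min_iff.1 hL).1, neg_abs_le (Real.log θ), abs_nonneg (Real.log θ)]

theorem Ind.RB.tendsto_norm {Y : K →L[ℂ] K} {C : ℝ} (h : I.RB Y C) (hY : Y ∈ I.N) (η : K) :
    Tendsto (fun k : ℕ => ‖I.rw Y (I.U (al k) η)‖) atTop (𝓝 (‖I.rw Y I.ξ‖ / ‖I.ξ‖ * ‖η‖)) := by
  set T : K →L[ℂ] K := ContinuousLinearMap.adjoint (I.rw Y) ∘L I.rw Y with hT
  have e : ∀ ζ η, ⟪ζ, T η⟫_ℂ = ⟪I.rw Y ζ, I.rw Y η⟫_ℂ := fun ζ η => by
    rw [hT, ContinuousLinearMap.comp_apply, ContinuousLinearMap.adjoint_inner_right]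
  have hs : ∀ ζ η, HasSum (fun μ => ⟪I.j (Y (I.ρ μ⁻¹ ζ)), I.j (Y (I.ρ μ⁻¹ η))⟫_ℂ) ⟪ζ, T η⟫_ℂ :=
    fun ζ η => by simpa only [h.apply, e] using LG.hasSum_inner (I.rw Y ζ) (I.rw Y η)
  have hQ : T ∈ I.Q := by
    refine ⟨I.mem_N.2 fun a ha => ?_, fun ν => ?_⟩
    · ext η
      refine ext_inner_left ℂ fun ζ => ?_
      have h1 := hs (star a ζ) η
      have h2 := hs ζ (a η)
      have ha' := I.star_C a ha
      have e : ∀ v w, ⟪star a v, w⟫_ℂ = ⟪v, a w⟫_ℂ := fun v w =>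
        ContinuousLinearMap.adjoint_inner_left a w v
      simp only [← bes_comm_apply (I.Cρ _ ha' _), ← bes_comm_apply (I.mem_N.1 hY _ ha'),
        ← bes_comm_apply (I.Cj _ ha'), e] at h1
      simp only [← bes_comm_apply (I.Cρ _ ha _), ← bes_comm_apply (I.mem_N.1 hY a ha),
        ← bes_comm_apply (I.Cj _ ha)] at h2
      exact h1.unique h2
    · ext η
      refine ext_inner_left ℂ fun ζ => ?_
      have h1 := hs (I.ρ ν⁻¹ ζ) η
      have h2 := (Equiv.mulLeft ν).hasSum_iff.2 (hs ζ (I.ρ ν η))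
      simp only [Function.comp_def, Equiv.coe_mulLeft, _root_.mul_inv_rev, URep.mul_apply,
        URep.inv_apply_apply] at h2
      rw [← URep.inner_right] at h1
      exact h2.unique h1
  have e2 : ∀ v, (⟪v, T v⟫_ℂ).re = ‖I.rw Y v‖ ^ 2 := fun v => by
    rw [e]; exact inner_self_eq_norm_sq (𝕜 := ℂ) _
  have h1 := ((Complex.continuous_re.tendsto _).comp (I.mix_σ hQ η η)).sqrt
  simp only [Function.comp_def, I.inner_σ, e2, Real.sqrt_sq (norm_nonneg _)] at h1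
  convert h1 using 2
  rw [_root_.smul_apply, one_apply_eq_self, inner_smul_right, Ind.τ, inner_self_eq_norm_sq_to_K,
    ← RCLike.ofReal_pow, RCLike.ofReal_eq_complex_ofReal, Complex.re_mul_ofReal,
    Complex.div_ofReal_re, e2, ← div_pow, ← mul_pow, Real.sqrt_sq (by positivity)]

namespace S8a

/-- the annuli -/
def an (n : ℝ) : Set V := {b | b ≠ 0 ∧ |Real.log ‖b‖| ≤ n}

theorem meas_an (n : ℝ) : MeasurableSet (an n) := (measurableSet_singleton 0).compl.inter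
  (measurableSet_le (continuous_abs.measurable.comp measurable_norm.log) measurable_const)

theorem meas_far (M : ℝ) : MeasurableSet {b : V | M ≤ |Real.log ‖b‖|} :=
  measurableSet_le measurable_const (continuous_abs.measurable.comp measurable_norm.log)

theorem ev_an (n : ℝ) {s : ℝ} (b : V) : ic (an n) (s • -b) = ic (an n) (s • b) := by
  have : s • -b ∈ an n ↔ s • b ∈ an n := by simp only [an, Set.mem_ofPred_eq, smul_neg, norm_neg,
    neg_ne_zero]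
  by_cases h : s • b ∈ an n
  · rw [ic_of_mem h, ic_of_mem (this.2 h)]
  · rw [ic_of_notMem h, ic_of_notMem (mt this.1 h)]

theorem lc_key (h : Geo I I' L Φ Ψ A B sc sc')
    (hno : ∀ C : ℝ, ∃ᶠ k : ℕ in atTop, C < |Real.log (sc' (Real.exp (2 * k))) - 2 * L k|)
    {f g : V → ℂ} (hf : BM f) (hf0 : Hom0 f) (hc : ContinuousOn f {0}ᶜ) (hg : BM g) (hg0 : Hom0 g)
    {θ : ℝ} (hθ : 0 < θ) (hni : ∀ a b, f a ≠ 0 → g b ≠ 0 → θ * (‖a‖ * ‖b‖) ≤ |a ⬝ᵥ b|) (n : ℝ)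
    {Bc : ℝ} {ζ : K} (hζ : I.Bes Bc ζ) :
    (Φ (ev 0)).E f ((B (ev 0)).E (fun b => g b * ic (an n) b) ζ) = 0 := by
  obtain ⟨Cf, hCf0, hCf⟩ := hf.exists_nonneg
  obtain ⟨Cg, hCg0, hCg⟩ := hg.exists_nonneg
  have e0 := ev_ne_zero 0
  have hF : BM fun μ => f (pt μ) := hf.comp measurable_from_top
  have hgn : BM fun b => g b * ic (an n) b := hg.mul (BM.ic (meas_an n))
  set v := (B (ev 0)).E (fun b => g b * ic (an n) b) ζ with hv
  refine norm_le_zero_iff.1 (le_of_forall_pos_le_add fun ε' hε' => ?_)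
  obtain ⟨ε, hε, rfl⟩ : ∃ ε > (0 : ℝ), ε' = (Cf + 2) * ε :=
    ⟨ε' / (Cf + 2), by positivity, by field_simp⟩
  obtain ⟨R, hR⟩ := h.tight.seq v ε hε
  obtain ⟨D, hD0, hD⟩ := Ind.dinc_overlap hCf hCg hθ hni R
  have hM : Tendsto (fun M : ℕ => Bc ^ 2 * (D *
      ‖(B (ev 0)).E (ic {b : V | (M : ℝ) ≤ |Real.log ‖b‖|}) I.ξ‖ ^ 2)) atTop (𝓝 0) := by
    have := (B (ev 0)).tendsto_E (g := fun _ => 0) (fun M : ℕ => (BM.ic (meas_far M)).1)
      (fun _ => norm_ic_le _) (fun b => tendsto_const_nhds.congr' (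
        (tendsto_natCast_atTop_atTop.eventually_gt_atTop |Real.log ‖b‖|).mono fun M hM =>
          (ic_of_notMem (not_le.2 hM)).symm)) I.ξ
    simpa [POVM.E_zero] using ((this.norm.pow 2).const_mul D).const_mul (Bc ^ 2)
  obtain ⟨M, hM⟩ := (hM.eventually (ge_mem_nhds (pow_pos hε 2))).exists
  obtain ⟨k, hk, h1, h2, h3⟩ := ((hno (M + n + (R + |Real.log θ| + 2))).and_eventually (hR.and
    ((h.tight.1.eventually (coord_jm R hθ one_pos)).and
      (NormedAddGroup.tendsto_nhds_zero.1 (h.pro.strong f hf hf0 hc v) ε hε)))).exists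
  have hz := Real.exp_ne_zero (2 * k)
  have hs := h.lift'.sc_pos _ hz
  set s := sc' (Real.exp (2 * k)) with hsd
  have hG : BM fun b => g b * ic (an n) (s • b) :=
    hg.mul ((BM.ic (meas_an n)).comp (measurable_const_smul s))
  have e1 : I.U (al k) v = (B (ev 0)).E (fun b => g b * ic (an n) (s • b)) (I.U (al k) ζ) := by
    have := h.covB e0 hgn (al k)
    rw [dl_al, ac_al_ev0, show -2 * -(k : ℝ) = 2 * k by ring, h.lift'.scal _ e0 _ hz _ hgn] at this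
    simp only [← hsd, hg0 s hs.ne'] at this
    rw [← this, hv]
    simp only [mul_apply_eq_comp, URep.inv_apply_apply]
  set S := (finite_Sh (L k) R).toFinset with hS
  have hS' : ∀ μ, μ ∈ S ↔ μ ∈ Sh (L k) R := fun μ => Set.Finite.mem_toFinset _
  let e : Γ → V → ℂ := fun μ b =>
    f (pt μ) * (g (ac (ι (dl μ)) b) * ic (an n) (s • ac (ι (dl μ)) b))
  have he : ∀ μ, BM (e μ) := fun μ => (hG.comp (measurable_ac _)).const_mul _
  have hF1 : BM fun μ => f (pt μ) * ic (Sh (L k) R) μ := hF.mul (bm_ic_Γ _)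
  have h4 := (hζ.U (al k)).row_povm (B (ev 0)) (fun _ => h.memB e0) (h.memB e0 (BM.ic (meas_far M)))
    he S (D := D) fun b => le_trans (Finset.sum_le_sum fun μ _ => by
      by_cases hb : b = 0
      · simp [e, hb, an]
      · simp only [e, ic_of_mem (show b ∈ ({0}ᶜ : Set V) from hb), one_mul, norm_mul]
        gcongr
        exact mul_le_of_le_one_right (norm_nonneg _) (norm_ic_le _ _))
      (hD (L k) S (fun μ => (hS' μ).1) b)
  rw [(B (ev 0)).E_ic_star (meas_far M)] at h4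
  have h5 : ‖I.mJ (fun μ => f (pt μ) * ic (Sh (L k) R) μ) (I.U (al k) v)‖ ≤ ε := by
    refine le_of_sq_le_sq (le_trans (le_of_eq ?_) (h4.trans hM)) hε.le
    rw [LG.norm_sq_eq_sum (F := S) fun μ hμ => by
      rw [I.mJ_apply hF1, ic_of_notMem (mt (hS' μ).2 hμ), mul_zero, zero_smul]]
    refine Finset.sum_congr rfl fun μ hμ => ?_
    have a1 := h.ρB e0 hG (fun b => by simp only [hg0.ev b, ev_an]) μ⁻¹
    rw [inv_inv] at a1
    have a2 : (fun b => ic {b : V | (M : ℝ) ≤ |Real.log ‖b‖|} b * e μ b) = e μ := funext fun b => by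
      by_cases h0 : e μ b = 0
      · rw [h0, mul_zero]
      obtain ⟨b1, b2⟩ := mul_ne_zero_iff.1 h0
      obtain ⟨b2, b3⟩ := mul_ne_zero_iff.1 b2
      have b4 : s • ac (ι (dl μ)) b ∈ an n := by_contra fun c => b3 (ic_of_notMem c)
      have b5 : ac (ι (dl μ)) b ≠ 0 := right_ne_zero_of_smul b4.1
      have b6 := (h2 μ ((hS' μ).1 hμ) b (fun c => b5 (by rw [c, ac_zero])) (by
        rw [mul_comm ‖_‖, dotProduct_comm]; exact hni _ _ b1 b2)).2.2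
      have b7 := b4.2
      rw [norm_smul, Real.norm_of_nonneg hs.le, Real.log_mul hs.ne' (norm_ne_zero_iff.2 b5)] at b7
      rw [ic_of_mem, one_mul]
      have b8 := abs_le.1 b6
      have b9 := abs_le.1 b7
      rw [Set.mem_ofPred_eq, le_abs]
      rcases lt_abs.1 hk with c | c
      · right; linarith
      · left; linarith
    rw [I.mJ_apply hF1, ic_of_mem ((hS' μ).1 hμ), mul_one, e1,
      ← mul_apply_eq_comp ((B (ev 0)).E (ic _)), ← h.lift'.pvm _ _ _ (BM.ic (meas_far M)) (he μ),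
      a2, (B (ev 0)).E_smul _ (hG.comp (measurable_ac _)), ← a1]
    simp only [mul_apply_eq_comp, _root_.smul_apply, map_smul, URep.apply_inv_apply]
  have e2 : (fun μ => f (pt μ)) =
      fun μ => f (pt μ) * ic (Sh (L k) R) μ + f (pt μ) * ic (Sh (L k) R)ᶜ μ := funext fun μ => by
    by_cases hμ : μ ∈ Sh (L k) R <;> simp [hμ]
  have h6 : ‖I.mJ (fun μ => f (pt μ) * ic (Sh (L k) R)ᶜ μ) (I.U (al k) v)‖ ≤ Cf * ε :=
    (I.norm_mJ_mono (bm_ic_Γ (Sh (L k) R)ᶜ) hCf0 (fun μ => by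
      rw [norm_mul]; exact mul_le_mul_of_nonneg_right (hCf _) (norm_nonneg _)) _).trans
      (mul_le_mul_of_nonneg_left h1 hCf0)
  have h7 := norm_add_le (I.mJ (fun μ => f (pt μ) * ic (Sh (L k) R) μ) (I.U (al k) v))
    (I.mJ (fun μ => f (pt μ) * ic (Sh (L k) R)ᶜ μ) (I.U (al k) v))
  rw [← _root_.add_apply, ← I.mJ_add hF1 (hF.mul (bm_ic_Γ _)), ← e2] at h7
  have h8 := norm_sub_norm_le (I.J (I.U (al k) ((Φ (ev 0)).E f v)))
    (I.mJ (fun μ => f (pt μ)) (I.U (al k) v))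
  rw [I.norm_J, URep.norm_map, norm_sub_rev] at h8
  linarith

end S8a

/-- **LC** -/
theorem Geo.lc' (h : Geo I I' L Φ Ψ A B sc sc') : LC L sc' := by
  by_contra hno
  simp only [LC, not_exists, not_eventually, not_le] at hno
  refine h.pro.not_inc h.dual h.pro' h.inc (inc_of_ni (h.pro.proj _) (h.pro'.proj _)
    fun f g hf hf0 hc hg hg0 _ θ hθ hni => ?_)
  ext ζ
  have h1 : ∀ n : ℕ, (Φ (ev 0)).E f ((B (ev 0)).E (fun b => g b * ic (S8a.an n) b) ζ) = 0 :=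
    fun n => by
      set X := (Φ (ev 0)).E f * (B (ev 0)).E fun b => g b * ic (S8a.an n) b
      refine norm_le_zero_iff.1 (le_of_forall_pos_le_add fun ε hε => ?_)
      obtain ⟨Bc, ζ', -, h1, h2⟩ := I.exists_bes_near ζ (ε := ε / (‖X‖ + 1)) (by positivity)
      have h3 : X ζ' = 0 := S8a.lc_key h hno hf hf0 hc hg hg0 hθ hni n h1
      have h4 := X.le_opNorm (ζ - ζ')
      rw [map_sub, h3, sub_zero] at h4
      rw [le_div_iff₀ (by positivity)] at h2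
      exact h4.trans (by nlinarith [norm_nonneg (ζ - ζ')])
  obtain ⟨C, hC0, hC⟩ := hg.exists_nonneg
  have h2 := (((Φ (ev 0)).E f).continuous.tendsto _).comp ((B (ev 0)).tendsto_E
    (g := fun b => ic {0}ᶜ b * g b) (C := C) (fun n : ℕ => (hg.mul (BM.ic (S8a.meas_an n))).1)
    (fun n b => by
      rw [norm_mul]; exact (mul_le_of_le_one_right (norm_nonneg _) (norm_ic_le _ _)).trans (hC b))
    (fun b => by
      by_cases hb : b = 0
      · simp [hb, S8a.an]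
      · refine tendsto_const_nhds.congr' (
          (tendsto_natCast_atTop_atTop.eventually_ge_atTop |Real.log ‖b‖|).mono fun n hn => ?_)
        simp only [ic_of_mem (show b ∈ ({0}ᶜ : Set V) from hb),
          ic_of_mem (show b ∈ S8a.an n from ⟨hb, hn⟩), one_mul, mul_one]) ζ)
  simp only [Function.comp_def, h1] at h2
  rw [← (h.lift'.sym _).cut hg, h.lift'.hom0 (ev_ne_zero 0) hg hg0] at h2
  exact tendsto_nhds_unique h2 tendsto_const_nhds |>.symm ▸ rfl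
theorem Geo.lc (h : Geo I I' L Φ Ψ A B sc sc') : LC L sc := h.symm.lc'

end Crest.Agent.N111
end

-- ▼ part N111/F/S8c
section

/-! # Row 111: the core of S8 (opposite pairs), part 1: rows. -/

set_option autoImplicit false
set_option linter.unusedSectionVars false
set_option linter.unusedVariables false

namespace Crest.Agent.N111

open MeasureTheory Topology Filter Matrix
open scoped InnerProductSpace

variable {K : Type} [NormedAddCommGroup K] [InnerProductSpace ℂ K] [CompleteSpace K]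

variable {I I' : Ind K} {L : ℕ → ℝ} {Φ Ψ A B : V → POVM V K} {sc sc' : ℝ → ℝ}

namespace S8k

theorem tendsto_of_le {α : Type*} {l : Filter α} {a : α → ℂ} (C : ℝ)
    (h : ∀ δ > (0 : ℝ), ∀ᶠ k in l, ‖a k‖ ≤ C * δ) : Tendsto a l (𝓝 0) := by
  refine Metric.tendsto_nhds.2 fun ε hε => ?_
  have hC : 0 < |C| + 1 := by positivity
  filter_upwards [h (ε / (|C| + 1)) (by positivity)] with k hk
  rw [dist_zero_right]
  refine hk.trans_lt ?_
  rw [← mul_div_assoc, div_lt_iff₀ hC]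
  nlinarith [le_abs_self C]

/-- finite Cauchy–Schwarz -/
theorem cs {α : Type*} (S : Finset α) {x y : α → K} {X Y : ℝ} (hX : 0 ≤ X) (hY : 0 ≤ Y)
    (hx : ∑ μ ∈ S, ‖x μ‖ ^ 2 ≤ X ^ 2) (hy : ∑ μ ∈ S, ‖y μ‖ ^ 2 ≤ Y ^ 2) :
    ‖∑ μ ∈ S, ⟪x μ, y μ⟫_ℂ‖ ≤ X * Y := by
  refine (norm_sum_le _ _).trans ((Finset.sum_le_sum fun μ _ => norm_inner_le_norm _ _).trans ?_)
  refine (pow_le_pow_iff_left₀ (by positivity) (by positivity) two_ne_zero).1 ?_
  refine (Finset.sum_mul_sq_le_sq_mul_sq _ _ _).trans ?_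
  rw [mul_pow]
  exact mul_le_mul hx hy (by positivity) (by positivity)

/-- non-incidence of `μ` and `b` -/
def NI (θ : ℝ) (μ : Γ) (b : V) : Prop :=
  θ * (‖ac (ι (dl μ)) b‖ * ‖pt μ‖) ≤ |ac (ι (dl μ)) b ⬝ᵥ pt μ|

/-- **rows with bounded overlap** -/
theorem row_ovl (I : Ind K) (R : ℝ) {θ : ℝ} (hθ : 0 < θ) : ∃ N : ℝ, 0 ≤ N ∧
    ∀ (L : ℝ) (S : Finset Γ), (∀ μ ∈ S, μ ∈ Sh L R) → ∀ P : POVM V K, P.Sym →
    (∀ f, BM f → P.E f ∈ I.N) → ∀ Y ∈ I.N, ∀ e : Γ → V → ℂ, (∀ μ, BM (e μ)) → ∀ δ : ℝ, 0 ≤ δ →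
    (∀ μ ∈ S, ∀ b, b ≠ 0 → ‖e μ b‖ ≤ δ ∧ (e μ b ≠ 0 → NI θ μ b)) →
    ∀ (Bc : ℝ) (ζ η : K), 0 ≤ Bc → I.Bes Bc ζ →
      ‖∑ μ ∈ S, ⟪I.j (Y (P.E (e μ) (I.ρ μ⁻¹ ζ))), I.j (I.ρ μ⁻¹ η)⟫_ℂ‖
        ≤ N * Bc * δ * ‖star Y I.ξ‖ * ‖η‖ := by
  classical
  obtain ⟨N, hN⟩ := overlap R (Real.exp R / θ)
  refine ⟨√N, Real.sqrt_nonneg _, fun L S hS P hP hPN Y hY e he δ hδ h Bc ζ η hB hζ => ?_⟩
  refine cs S (by positivity) (norm_nonneg _) ?_ (I.sum_j_le η S)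
  have h0 : MeasurableSet ({0}ᶜ : Set V) := (measurableSet_singleton 0).compl
  have h1 := hζ.row_povm P hPN hY (e := fun μ b => ic {0}ᶜ b * e μ b)
    (fun μ => (BM.ic h0).mul (he μ)) S (D := N * δ ^ 2) fun b => ?_
  · simp only [fun μ => hP.cut (he μ)]
    refine h1.trans (le_of_eq ?_)
    rw [mul_pow, mul_pow, mul_pow, Real.sq_sqrt (Nat.cast_nonneg N)]
    ring
  · by_cases hb : b = 0
    · simp only [hb, Set.mem_compl_iff, Set.mem_singleton_iff, not_true_eq_false,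
        not_false_eq_true, ic_of_notMem, zero_mul, norm_zero, ne_eq, OfNat.ofNat_ne_zero,
        zero_pow, Finset.sum_const_zero]
      positivity
    · rw [← Finset.sum_filter_of_ne (p := fun μ => e μ b ≠ 0) fun μ _ hμ h' => hμ (by simp [h'])]
      refine (Finset.sum_le_card_nsmul _ _ (δ ^ 2) fun μ hμ => ?_).trans ?_
      · rw [ic_of_mem (show b ∈ ({0}ᶜ : Set V) from hb), one_mul]
        exact pow_le_pow_left₀ (norm_nonneg _) (h μ (Finset.mem_filter.1 hμ).1 b hb).1 2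
      · rw [nsmul_eq_mul]
        refine mul_le_mul_of_nonneg_right (Nat.cast_le.2 (hN L b hb _ fun μ hμ => ?_)) (sq_nonneg _)
        obtain ⟨h1, h2⟩ := Finset.mem_filter.1 hμ
        exact ⟨hS μ h1, norm_ac_dl_le hθ (hS μ h1) ((h μ h1 b hb).2 h2)⟩

/-- the dual scaling at time `k` -/
noncomputable def sk (sc' : ℝ → ℝ) (k : ℕ) : ℝ := sc' (Real.exp (-2 * -(k : ℝ)))

theorem sk_pos (h : Geo I I' L Φ Ψ A B sc sc') (k : ℕ) : 0 < sk sc' k :=
  h.lift'.sc_pos _ (Real.exp_ne_zero _)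

/-- transport of the dual PVM -/
theorem trB (h : Geo I I' L Φ Ψ A B sc sc') {u : V → ℂ} (hu : BM u) (he : Ev u) (k : ℕ) (μ : Γ)
    (ζ : K) : I.ρ μ⁻¹ (I.U (al k) ((B (ev 0)).E u ζ)) =
      (B (ev 0)).E (fun b => u (sk sc' k • ac (ι (dl μ)) b)) (I.ρ μ⁻¹ (I.U (al k) ζ)) := by
  have h1 := h.covB (ev_ne_zero 0) hu (al k)
  rw [dl_al, ac_al_ev0, h.lift'.scal _ (ev_ne_zero 0) _ (Real.exp_ne_zero _) u hu] at h1
  have h2 := h.ρB (ev_ne_zero 0) (f := fun b => u (sk sc' k • b))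
    (hu.comp (measurable_const_smul _)) (fun b => by simp only [smul_neg, he _]) μ⁻¹
  simp only [inv_inv] at h2
  rw [← h2, sk, ← h1]
  simp only [ContinuousLinearMap.mul_apply, URep.apply_inv_apply, URep.inv_apply_apply]

abbrev Om : Type := Fin 18 → ℝ

theorem integrable_mul {c : Om → ℂ} (hc : Integrable c) {a : Om → ℂ} (ha : Continuous a) {D : ℝ}
    (hD : ∀ w, ‖a w‖ ≤ D) : Integrable fun w => c w * a w :=
  hc.mul_bdd ha.aestronglyMeasurable (Eventually.of_forall hD)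

theorem norm_integral_le {c : Om → ℂ} (hc : Integrable c) {a : Om → ℂ} {D : ℝ}
    (hD : ∀ w, ‖a w‖ ≤ D) : ‖∫ w, c w * a w‖ ≤ (∫ w, ‖c w‖) * D := by
  rw [← integral_mul_const]
  refine norm_integral_le_of_norm_le (hc.norm.mul_const D) (Eventually.of_forall fun w => ?_)
  rw [norm_mul]
  exact mul_le_mul_of_nonneg_left (hD w) (norm_nonneg _)

theorem dct {c : Om → ℂ} (hc : Integrable c) {a : ℕ → Om → ℂ} (ha : ∀ k, Continuous (a k)) {D : ℝ}
    (hD : ∀ k w, ‖a k w‖ ≤ D) (h0 : ∀ w, Tendsto (fun k => a k w) atTop (𝓝 0)) :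
    Tendsto (fun k => ∫ w, c w * a k w) atTop (𝓝 0) := by
  have := tendsto_integral_of_dominated_convergence (μ := volume) (F := fun k w => c w * a k w)
    (f := fun _ => 0) (fun w => ‖c w‖ * D) (fun k => (integrable_mul hc (ha k) (hD k)).1)
    (hc.norm.mul_const D) (fun k => Eventually.of_forall fun w => by
      rw [norm_mul]; exact mul_le_mul_of_nonneg_left (hD k w) (norm_nonneg _))
    (Eventually.of_forall fun w => by simpa using (h0 w).const_mul (c w))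
  simpa using this

theorem inner_E_conj (P : POVM V K) {u : V → ℂ} (hu : BM u) (x y : K) :
    ⟪P.E (fun b => (starRingEnd ℂ) (u b)) x, y⟫_ℂ = ⟪x, P.E u y⟫_ℂ := by
  rw [← P.E_star hu, ContinuousLinearMap.star_eq_adjoint, ContinuousLinearMap.adjoint_inner_left]

/-- the parameter integral goes inside the POVM -/
theorem int_inner (P : POVM V K) {c : Om → ℂ} (hc : Integrable c) {u : Om → V → ℂ}
    (hm : ∀ w, Measurable (u w)) {C : ℝ} (hb : ∀ w y, ‖u w y‖ ≤ C)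
    (hcont : ∀ y, Continuous fun w => u w y) (x y : K) :
    ∫ w, c w * ⟪P.E (fun b => (starRingEnd ℂ) (u w b)) x, y⟫_ℂ
      = ⟪P.E (fun b => (starRingEnd ℂ) (∫ w, c w * u w b)) x, y⟫_ℂ := by
  obtain ⟨h1, h2⟩ := P.sInt_E hc hm hb hcont
  rw [inner_E_conj P h1, ← h2, inner_sInt hc (P.sCont_E hm hb hcont)]
  simp only [fun w => inner_E_conj P (BM.of_le (hm w) (hb w))]

/-- position operators supported on a finite set -/
theorem inner_m_fin (I : Ind K) (S : Finset Γ) {F : Γ → ℂ} (hF : BM F) (ζ η : K) :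
    ⟪ζ, I.m (fun μ => ic (S : Set Γ) μ * F μ) η⟫_ℂ
      = ∑ μ ∈ S, F μ * ⟪I.j (I.ρ μ⁻¹ ζ), I.j (I.ρ μ⁻¹ η)⟫_ℂ := by
  rw [← (I.hasSum_inner_m ((bm_ic_Γ _).mul hF) ζ η).tsum_eq,
    tsum_eq_sum (s := S) fun μ hμ => by simp [hμ]]
  exact Finset.sum_congr rfl fun μ hμ => by simp [hμ]

theorem inner_rw_fin {Y : K →L[ℂ] K} {C : ℝ} (h : I.RB Y C) (S : Finset Γ) {F : Γ → ℂ} (hF : BM F)
    (ζ η : K) : ⟪I.rw Y ζ, I.mJ (fun μ => ic (S : Set Γ) μ * F μ) η⟫_ℂ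
      = ∑ μ ∈ S, F μ * ⟪I.j (Y (I.ρ μ⁻¹ ζ)), I.j (I.ρ μ⁻¹ η)⟫_ℂ := by
  rw [← (LG.hasSum_inner _ _).tsum_eq]
  simp only [h.apply, I.mJ_apply ((bm_ic_Γ _).mul hF), inner_smul_right]
  rw [tsum_eq_sum (s := S) fun μ hμ => by simp [hμ]]
  exact Finset.sum_congr rfl fun μ hμ => by simp [hμ]

/-- the data of the statement -/
structure Dat (θ t C : ℝ) (c : Om → ℂ) (φ ψ : Om → V → ℂ) (g f : V → ℂ) : Prop where
  pos : 0 < θ
  int : Integrable c
  mφ : ∀ w, Measurable (φ w)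
  mψ : ∀ w, Measurable (ψ w)
  bφ : ∀ w a, ‖φ w a‖ ≤ 1
  bψ : ∀ w a, ‖ψ w a‖ ≤ 1
  hφ : ∀ w, Hom0 (φ w)
  hψ : ∀ w, Hom0 (ψ w)
  cφ : ∀ a, Continuous fun w => φ w a
  cψ : ∀ a, Continuous fun w => ψ w a
  oψ : ∀ w, ContinuousOn (ψ w) {0}ᶜ
  ker : ∀ b a : V, b ≠ 0 → a ≠ 0 → θ * (‖b‖ * ‖a‖) ≤ |b ⬝ᵥ a| →
    ∫ w, c w * (φ w b * ψ w a) = ex (t * (Real.log |b ⬝ᵥ a| - Real.log ‖b‖ - Real.log ‖a‖))
  C0 : 0 ≤ C
  mg : Measurable g
  mf : Measurable f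
  bg : ∀ b, ‖g b‖ ≤ C
  bf : ∀ a, ‖f a‖ ≤ C
  hg : Hom0 g
  hf : Hom0 f
  of : ContinuousOn f {0}ᶜ
  ni : ∀ b a, g b ≠ 0 → f a ≠ 0 → θ * (‖b‖ * ‖a‖) ≤ |b ⬝ᵥ a|

/-- the function on lines -/
noncomputable def gw (t : ℝ) (φ : Om → V → ℂ) (g : V → ℂ) (w : Om) (b : V) : ℂ :=
  g b * lg t b * φ w b
/-- the function on points -/
noncomputable def fw (ψ : Om → V → ℂ) (f : V → ℂ) (w : Om) (a : V) : ℂ := f a * ψ w a
/-- the level function -/
noncomputable def Fk (t L : ℝ) (μ : Γ) : ℂ := ex (t * (Real.log (nm (ι μ)) - 2 * L))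
/-- the phase -/
noncomputable def pk (t s L : ℝ) : ℂ := ex (t * (Real.log s - 2 * L))

variable {θ t C : ℝ} {c : Om → ℂ} {φ ψ : Om → V → ℂ} {g f : V → ℂ}

theorem norm_Fk (t L : ℝ) (μ : Γ) : ‖Fk t L μ‖ = 1 := norm_ex _
theorem norm_pk (t s L : ℝ) : ‖pk t s L‖ = 1 := norm_ex _

namespace Dat
variable (D : Dat θ t C c φ ψ g f)
include D

theorem bmg : BM g := .of_le D.mg D.bg
theorem bmf : BM f := .of_le D.mf D.bf
theorem m_gw (w : Om) : Measurable (gw t φ g w) := (D.mg.mul (bm_lg t).1).mul (D.mφ w)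
theorem b_gw (w : Om) (b : V) : ‖gw t φ g w b‖ ≤ C := by
  rw [gw, norm_mul, norm_mul, norm_lg, mul_one]
  exact (mul_le_of_le_one_right (norm_nonneg _) (D.bφ w b)).trans (D.bg b)
theorem c_gw (b : V) : Continuous fun w => gw t φ g w b := continuous_const.mul (D.cφ b)
theorem ev_gw (w : Om) : Ev (gw t φ g w) := fun b => by
  rw [gw, gw, D.hg.ev, ev_lg, (D.hφ w).ev]
theorem bm_gw (w : Om) : BM (gw t φ g w) := .of_le (D.m_gw w) (D.b_gw w)
theorem m_fw (w : Om) : Measurable (fw ψ f w) := D.mf.mul (D.mψ w)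
theorem b_fw (w : Om) (a : V) : ‖fw ψ f w a‖ ≤ C := by
  rw [fw, norm_mul]
  exact (mul_le_of_le_one_right (norm_nonneg _) (D.bψ w a)).trans (D.bf a)
theorem c_fw (a : V) : Continuous fun w => fw ψ f w a := continuous_const.mul (D.cψ a)
theorem h_fw (w : Om) : Hom0 (fw ψ f w) := fun z hz a => by rw [fw, fw, D.hf z hz, D.hψ w z hz]
theorem o_fw (w : Om) : ContinuousOn (fw ψ f w) {0}ᶜ := D.of.mul (D.oψ w)
theorem bm_fw (w : Om) : BM (fw ψ f w) := .of_le (D.m_fw w) (D.b_fw w)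
theorem b_Ffw (L : ℝ) (w : Om) (μ : Γ) : ‖Fk t L μ * fw ψ f w (pt μ)‖ ≤ C := by
  rw [norm_mul, norm_Fk, one_mul]; exact D.b_fw w _

/-- the kernel -/
theorem ker_eq {s : ℝ} (hs : 0 < s) (L : ℝ) (μ : Γ) {b : V} (hb : b ≠ 0) :
    ∫ w, c w * (Fk t L μ * fw ψ f w (pt μ) * gw t φ g w (s • b))
      = pk t s L * (f (pt μ) * g b * ex (t * Real.log |b ⬝ᵥ pt μ|)) := by
  have e : ∀ w, c w * (Fk t L μ * fw ψ f w (pt μ) * gw t φ g w (s • b))
      = (f (pt μ) * g b * (Fk t L μ * lg t (s • b))) * (c w * (φ w b * ψ w (pt μ))) := fun w => by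
    rw [fw, gw, D.hg s hs.ne', D.hφ w s hs.ne']; ring
  simp only [e, integral_const_mul]
  by_cases h1 : g b = 0
  · simp [h1]
  by_cases h2 : f (pt μ) = 0
  · simp [h2]
  rw [D.ker b _ hb (pt_ne_zero μ) (D.ni _ _ h1 h2), lg_smul t hs hb, lg, Fk, pk, norm_pt,
    mul_assoc, ← ex_add, ← ex_add, ← ex_add, mul_left_comm (ex _), ← ex_add]
  congr 2
  ring

theorem ker_le {s : ℝ} (hs : 0 < s) (L : ℝ) (μ : Γ) {b : V} (hb : b ≠ 0) {ε : ℝ} (hε : 0 ≤ ε)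
    (hcj : NI θ μ b → |Real.log |ac (ι (dl μ)) b ⬝ᵥ pt μ| - Real.log ‖b‖| ≤ ε) {z : ℂ}
    (hz : z = (∫ w, c w * (Fk t L μ * fw ψ f w (pt μ) * gw t φ g w (s • ac (ι (dl μ)) b)))
      - pk t s L * (f (pt μ) * g (ac (ι (dl μ)) b) * lg t b)) :
    ‖z‖ ≤ C * C * |t| * ε ∧ (z ≠ 0 → NI θ μ b) := by
  have hC := D.C0
  rw [D.ker_eq hs L μ (ac_ne_zero _ hb), ← mul_sub, ← mul_sub] at hz
  have key : z ≠ 0 → NI θ μ b := fun h0 =>
    D.ni _ _ (fun h => h0 (by simp [hz, h])) fun h => h0 (by simp [hz, h])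
  refine ⟨?_, key⟩
  by_cases h0 : z = 0
  · rw [h0, norm_zero]; positivity
  rw [hz, norm_mul, norm_pk, one_mul, norm_mul, norm_mul, mul_assoc _ |t|]
  refine mul_le_mul (mul_le_mul (D.bf _) (D.bg _) (norm_nonneg _) hC)
    ((norm_ex_sub_ex_le _ _).trans ?_) (norm_nonneg _) (by positivity)
  rw [← mul_sub, abs_mul]
  exact mul_le_mul_of_nonneg_left (hcj (key h0)) (abs_nonneg _)

end Dat

variable (I B L t c φ ψ g f) in
/-- the pairing with the position operators -/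
noncomputable def Xp (χ : Γ → ℂ) (ζ η : K) (k : ℕ) : ℂ :=
  ∫ w, c w * ⟪I.U (al k) ((B (ev 0)).E (fun b => (starRingEnd ℂ) (gw t φ g w b)) ζ),
    I.m (fun μ => χ μ * (Fk t (L k) μ * fw ψ f w (pt μ))) (I.U (al k) η)⟫_ℂ

variable (I B g f) in
/-- the rows without kernel -/
noncomputable def Mk (Y : K →L[ℂ] K) (S : Finset Γ) (ζ η : K) (k : ℕ) : ℂ :=
  ∑ μ ∈ S, ⟪I.j (Y ((B (ev 0)).E (fun b => (starRingEnd ℂ) (f (pt μ) * g (ac (ι (dl μ)) b)))
    (I.ρ μ⁻¹ (I.U (al k) ζ)))), I.j (I.ρ μ⁻¹ (I.U (al k) η))⟫_ℂ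

theorem meas_sd (s : ℝ) (μ : Γ) : Measurable fun b => s • ac (ι (dl μ)) b :=
  (measurable_ac _).const_smul s

theorem Dat.ek (D : Dat θ t C c φ ψ g f) (s L : ℝ) (μ : Γ) :
    (∀ w, Measurable fun b => Fk t L μ * fw ψ f w (pt μ) * gw t φ g w (s • ac (ι (dl μ)) b)) ∧
    (∀ w b, ‖Fk t L μ * fw ψ f w (pt μ) * gw t φ g w (s • ac (ι (dl μ)) b)‖ ≤ C * C) ∧
    ∀ b, Continuous fun w => Fk t L μ * fw ψ f w (pt μ) * gw t φ g w (s • ac (ι (dl μ)) b) :=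
  ⟨fun w => measurable_const.mul ((D.m_gw w).comp (meas_sd s μ)),
    fun w b => (norm_mul_le _ _).trans
      (mul_le_mul (D.b_Ffw L w μ) (D.b_gw w _) (norm_nonneg _) D.C0),
    fun b => (continuous_const.mul (D.c_fw _)).mul (D.c_gw _)⟩

/-- the finite formula -/
theorem Xp_fin (h : Geo I I' L Φ Ψ A B sc sc') (D : Dat θ t C c φ ψ g f) (S : Finset Γ) (ζ η : K)
    (k : ℕ) : Xp I L B t c φ ψ g f (ic (S : Set Γ)) ζ η k = ∑ μ ∈ S,
      ⟪I.j ((B (ev 0)).E (fun b => (starRingEnd ℂ) (∫ w, c w * (Fk t (L k) μ * fw ψ f w (pt μ)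
        * gw t φ g w (sk sc' k • ac (ι (dl μ)) b)))) (I.ρ μ⁻¹ (I.U (al k) ζ))),
        I.j (I.ρ μ⁻¹ (I.U (al k) η))⟫_ℂ := by
  have e : ∀ w, ⟪I.U (al k) ((B (ev 0)).E (fun b => (starRingEnd ℂ) (gw t φ g w b)) ζ),
      I.m (fun μ => ic (S : Set Γ) μ * (Fk t (L k) μ * fw ψ f w (pt μ))) (I.U (al k) η)⟫_ℂ
      = ∑ μ ∈ S, ⟪(B (ev 0)).E (fun b => (starRingEnd ℂ) (Fk t (L k) μ * fw ψ f w (pt μ)
        * gw t φ g w (sk sc' k • ac (ι (dl μ)) b))) (I.ρ μ⁻¹ (I.U (al k) ζ)),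
        I.j (I.j (I.ρ μ⁻¹ (I.U (al k) η)))⟫_ℂ := fun w => by
    rw [inner_m_fin I S (bm_Γ (D.b_Ffw (L k) w))]
    refine Finset.sum_congr rfl fun μ _ => ?_
    have hb : BM fun b => gw t φ g w (sk sc' k • ac (ι (dl μ)) b) :=
      (D.bm_gw w).comp (meas_sd _ μ)
    rw [trB h (D.bm_gw w).conj (fun b => by simp only [D.ev_gw w b]), I.inner_j,
      inner_E_conj _ hb, inner_E_conj _ (hb.const_mul _), POVM.E_smul _ _ hb,
      ContinuousLinearMap.smul_apply, inner_smul_right]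
  simp only [Xp, e, Finset.mul_sum]
  rw [integral_finset_sum _ fun μ _ => ?_]
  · refine Finset.sum_congr rfl fun μ _ => ?_
    obtain ⟨h1, h2, h3⟩ := D.ek (sk sc' k) (L k) μ
    rw [int_inner _ D.int h1 h2 h3, I.inner_j]
  · obtain ⟨h1, h2, h3⟩ := D.ek (sk sc' k) (L k) μ
    simp only [fun w => inner_E_conj (B (ev 0)) (BM.of_le (h1 w) (h2 w))]
    refine integrable_mul D.int (continuous_const.inner (((B (ev 0)).sCont_E h1 h2 h3).1 _))
      fun w => norm_inner_apply_le ((B (ev 0)).norm_E_le (h1 w) (mul_nonneg D.C0 D.C0) (h2 w)) _ _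

end S8k

end Crest.Agent.N111
end

-- ▼ part N111/F/S8d
section

/-! # Row 111: the core of S8 (opposite pairs), part 2: estimates. -/

set_option autoImplicit false
set_option linter.unusedSectionVars false
set_option linter.unusedVariables false

namespace Crest.Agent.N111

open MeasureTheory Topology Filter Matrix
open scoped InnerProductSpace

variable {K : Type} [NormedAddCommGroup K] [InnerProductSpace ℂ K] [CompleteSpace K]

variable {I I' : Ind K} {L : ℕ → ℝ} {Φ Ψ A B : V → POVM V K} {sc sc' : ℝ → ℝ}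

namespace S8k

variable {θ t C : ℝ} {c : Om → ℂ} {φ ψ : Om → V → ℂ} {g f : V → ℂ}

/-- the shell as a finite set -/
noncomputable def Sk (L R : ℝ) : Finset Γ := (finite_Sh L R).toFinset

theorem coe_Sk (L R : ℝ) : (Sk L R : Set Γ) = Sh L R := (finite_Sh L R).coe_toFinset
theorem mem_Sk {L R : ℝ} (μ : Γ) (h : μ ∈ Sk L R) : μ ∈ Sh L R := (finite_Sh L R).mem_toFinset.1 h

/-- the coordinate estimate -/
def CJ : Prop := ∀ R θ ε : ℝ, 0 < θ → 0 < ε → ∀ᶠ L in atTop, ∀ μ ∈ Sh L R, ∀ b : V, b ≠ 0 →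
  NI θ μ b → |Real.log |ac (ι (dl μ)) b ⬝ᵥ pt μ| - Real.log ‖b‖| ≤ ε

theorem Dat.bm_fg (D : Dat θ t C c φ ψ g f) (μ : Γ) :
    BM fun b => f (pt μ) * g (ac (ι (dl μ)) b) := (D.bmg.comp (measurable_ac _)).const_mul _

theorem row_sub {P : POVM V K} (hP : P.IsPVM) {e v : V → ℂ} (he : BM e) (hv : BM v) (p : ℂ)
    (t : ℝ) (x a : K) : ⟪I.j (P.E (fun b => (starRingEnd ℂ) (e b)) x), a⟫_ℂ
      - p * ⟪I.j (P.E (lg (-t)) (P.E (fun b => (starRingEnd ℂ) (v b)) x)), a⟫_ℂ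
      = ⟪I.j ((1 : K →L[ℂ] K) (P.E (fun b => (starRingEnd ℂ) (e b - p * (v b * lg t b))) x)), a⟫_ℂ := by
  have : P.E (fun b => (starRingEnd ℂ) (e b - p * (v b * lg t b)))
      = P.E (fun b => (starRingEnd ℂ) (e b))
        - (starRingEnd ℂ) p • (P.E (lg (-t)) * P.E fun b => (starRingEnd ℂ) (v b)) := by
    rw [← hP _ _ (bm_lg _) hv.conj, ← P.E_smul _ ((bm_lg _).mul hv.conj),
      ← P.E_sub he.conj (((bm_lg _).mul hv.conj).const_mul _)]
    congr 1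
    funext b
    simp only [map_sub, map_mul, conj_lg]
    ring
  rw [this]
  simp only [ContinuousLinearMap.one_apply, ContinuousLinearMap.sub_apply,
    ContinuousLinearMap.smul_apply, ContinuousLinearMap.mul_apply, map_sub, map_smul,
    inner_sub_left, inner_smul_left, Complex.conj_conj]

/-- **Part A**: the kernel is replaced by `‖b‖^{it}` -/
theorem partA (h : Geo I I' L Φ Ψ A B sc sc') (D : Dat θ t C c φ ψ g f) (hcj : CJ) (R : ℝ)
    {Bc : ℝ} {ζ : K} (hB : 0 ≤ Bc) (hζ : I.Bes Bc ζ) (η : K) :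
    Tendsto (fun k => Xp I L B t c φ ψ g f (ic (Sk (L k) R : Set Γ)) ζ η k - pk t (sk sc' k) (L k)
      * Mk I B g f ((B (ev 0)).E (lg (-t))) (Sk (L k) R) ζ η k) atTop (𝓝 0) := by
  obtain ⟨N, hN0, hN⟩ := row_ovl I R D.pos
  refine tendsto_of_le (N * Bc * (C * C * |t|) * ‖star (1 : K →L[ℂ] K) I.ξ‖ * ‖η‖) fun ε hε => ?_
  filter_upwards [h.tight.1.eventually (hcj R θ ε D.pos hε)] with k hk
  have hb := fun μ => ((B (ev 0)).sInt_E D.int (D.ek (sk sc' k) (L k) μ).1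
    (D.ek (sk sc' k) (L k) μ).2.1 (D.ek (sk sc' k) (L k) μ).2.2).1
  rw [Xp_fin h D, Mk, Finset.mul_sum, ← Finset.sum_sub_distrib]
  simp only [fun μ => row_sub (I := I) (h.lift'.pvm (ev 0)) (hb μ) (D.bm_fg μ)]
  have hC := D.C0
  refine (hN (L k) _ mem_Sk _ (h.lift'.sym _) (fun f => h.memB (ev_ne_zero 0)) 1 I.one_N _
    (fun μ => ((hb μ).sub (((D.bm_fg μ).mul (bm_lg t)).const_mul _)).conj) (C * C * |t| * ε)
    (by positivity) (fun μ hμ b hb0 => ?_) Bc _ _ hB (hζ.U _)).trans (le_of_eq ?_)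
  · have := D.ker_le (sk_pos h k) (L k) μ hb0 hε.le (hk μ (mem_Sk μ hμ) b hb0) rfl
    simpa only [Complex.norm_conj, ne_eq, map_eq_zero] using this
  · rw [URep.norm_map]; ring

/-- changing the row operator -/
theorem Mk_sub (h : Geo I I' L Φ Ψ A B sc sc') (D : Dat θ t C c φ ψ g f) (R : ℝ) {Bc : ℝ} {ζ : K}
    (hB : 0 ≤ Bc) (hζ : I.Bes Bc ζ) (η : K) : ∃ N : ℝ, ∀ Y ∈ I.N, ∀ Y' ∈ I.N, ∀ k,
      ‖Mk I B g f Y (Sk (L k) R) ζ η k - Mk I B g f Y' (Sk (L k) R) ζ η k‖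
        ≤ N * ‖star Y I.ξ - star Y' I.ξ‖ := by
  obtain ⟨N, hN0, hN⟩ := row_ovl I R D.pos
  refine ⟨N * Bc * (C * C) * ‖η‖, fun Y hY Y' hY' k => ?_⟩
  have hC := D.C0
  have := hN (L k) _ mem_Sk _ (h.lift'.sym (ev 0)) (fun f => h.memB (ev_ne_zero 0)) _
    (Ind.sub_N hY hY') _ (fun μ => (D.bm_fg μ).conj) (C * C) (by positivity)
    (fun μ hμ b hb0 => ⟨?_, fun h0 => D.ni _ _ (fun h => h0 (by simp [h])) fun h => h0 (by simp [h])⟩)
    Bc _ (I.U (al k) η) hB (hζ.U (al k))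
  · simp only [ContinuousLinearMap.sub_apply, map_sub, inner_sub_left, Finset.sum_sub_distrib,
      star_sub, URep.norm_map] at this
    exact this.trans (le_of_eq (by ring))
  · rw [Complex.norm_conj, norm_mul]
    exact mul_le_mul (D.bf _) (D.bg _) (norm_nonneg _) hC

theorem Mk_eq (h : Geo I I' L Φ Ψ A B sc sc') (D : Dat θ t C c φ ψ g f) {Y : K →L[ℂ] K} {C' : ℝ}
    (hY : I.RB Y C') (S : Finset Γ) (ζ η : K) (k : ℕ) : Mk I B g f Y S ζ η k =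
      ⟪I.rw Y (I.U (al k) ((B (ev 0)).E (fun b => (starRingEnd ℂ) (g b)) ζ)),
        I.mJ (fun μ => ic (S : Set Γ) μ * f (pt μ)) (I.U (al k) η)⟫_ℂ := by
  rw [inner_rw_fin hY S (bm_Γ fun μ => D.bf (pt μ)), Mk]
  refine Finset.sum_congr rfl fun μ _ => ?_
  rw [trB h D.bmg.conj (fun b => by simp only [D.hg.ev b])]
  simp only [D.hg _ (sk_pos h k).ne', map_mul]
  rw [POVM.E_smul _ _ (D.bmg.comp (measurable_ac _)).conj, ContinuousLinearMap.smul_apply,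
    map_smul, map_smul, inner_smul_left, Complex.conj_conj]

variable (I) in
/-- the limit of the norms of row operators along the flow -/
def TN : Prop := ∀ (Y : K →L[ℂ] K) (C : ℝ), I.RB Y C → Y ∈ I.N → ∀ η : K,
  Tendsto (fun k : ℕ => ‖I.rw Y (I.U (al k) η)‖) atTop (𝓝 (‖I.rw Y I.ξ‖ / ‖I.ξ‖ * ‖η‖))

theorem mJ_cut (I : Ind K) (S : Set Γ) {F : Γ → ℂ} (hF : BM F) :
    I.mJ (fun μ => ic S μ * F μ) = I.mJ F - I.mJ fun μ => ic Sᶜ μ * F μ := by
  rw [← I.mJ_sub hF ((bm_ic_Γ _).mul hF)]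
  congr 1
  funext μ
  by_cases h : μ ∈ S <;> simp [h]

/-- **Part B** for bounded row operators -/
theorem partB0 (h : Geo I I' L Φ Ψ A B sc sc') (D : Dat θ t C c φ ψ g f) (hTN : TN I)
    {Y : K →L[ℂ] K} {C' : ℝ} (hY : I.RB Y C') (hYN : Y ∈ I.N) (hY1 : ‖Y‖ ≤ 1) (ζ η : K) {δ R : ℝ}
    (hδ : 0 < δ) (hR : ∀ᶠ k : ℕ in atTop, ‖I.mJ (ic (Sh (L k) R)ᶜ) (I.U (al k) η)‖ ≤ δ)
    {ϑ : K} (hϑ : ϑ = (B (ev 0)).E (fun b => (starRingEnd ℂ) (g b)) ζ) :
    ∀ᶠ k : ℕ in atTop, ‖Mk I B g f Y (Sk (L k) R) ζ η k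
      - (starRingEnd ℂ) (I.tz Y) * ⟪ϑ, (Φ (ev 0)).E f η⟫_ℂ‖ ≤ ((‖ϑ‖ + 1) * (1 + C) + 1) * δ := by
  have hξ : 0 < ‖I.ξ‖ := norm_pos_iff.2 I.ξ_ne
  have h1 : ‖I.rw Y I.ξ‖ / ‖I.ξ‖ * ‖ϑ‖ < ‖ϑ‖ + 1 := by
    refine (mul_le_of_le_one_left (norm_nonneg _) ((div_le_one hξ).2 ?_)).trans_lt (lt_add_one _)
    refine (hY.norm_bes hYN I.bes_ξ zero_le_one).trans ?_
    rw [one_mul]
    exact ((star Y).le_opNorm _).trans (mul_le_of_le_one_left hξ.le (by rwa [norm_star]))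
  have h2 := (hTN Y C' hY hYN ϑ).eventually (eventually_le_nhds h1)
  have h3 := (Metric.tendsto_nhds.1 (h.pro.strong f D.bmf D.hf D.of η)) δ hδ
  have h4 := (Metric.tendsto_nhds.1 ((Complex.continuous_conj.tendsto _).comp
    (hY.mix hYN ((Φ (ev 0)).E f η) ϑ))) δ hδ
  filter_upwards [hR, h2, h3, h4] with k k1 k2 k3 k4
  rw [dist_zero_right] at k3
  simp only [Function.comp_apply, inner_conj_symm, map_mul, dist_eq_norm] at k4
  have hb : BM fun μ => f (pt μ) := bm_Γ fun μ => D.bf (pt μ)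
  have k5 : ‖I.mJ (fun μ => ic (Sh (L k) R)ᶜ μ * f (pt μ)) (I.U (al k) η)‖ ≤ C * δ :=
    (I.norm_mJ_mono (bm_ic_Γ _) D.C0 (fun μ => by
      rw [norm_mul, mul_comm]
      exact mul_le_mul_of_nonneg_right (D.bf _) (norm_nonneg _)) _).trans
      (mul_le_mul_of_nonneg_left k1 D.C0)
  rw [Mk_eq h D hY, ← hϑ, coe_Sk, mJ_cut I _ hb, ContinuousLinearMap.sub_apply]
  have e : ∀ (x a b d : LG K) (z : ℂ), ⟪x, a - d⟫_ℂ - z = ⟪x, a - b - d⟫_ℂ + (⟪x, b⟫_ℂ - z) :=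
    fun x a b d z => by simp only [inner_sub_right]; ring
  rw [e _ _ (I.J (I.U (al k) ((Φ (ev 0)).E f η)))]
  refine (norm_add_le _ _).trans ?_
  have k6 := (norm_inner_le_norm (𝕜 := ℂ) _ _).trans (mul_le_mul k2
    ((norm_sub_le _ _).trans (add_le_add k3.le k5)) (norm_nonneg _) (by positivity))
  exact (add_le_add k6 k4.le).trans (le_of_eq (by ring))

/-- **Part B** -/
theorem partB (h : Geo I I' L Φ Ψ A B sc sc') (D : Dat θ t C c φ ψ g f) (hTN : TN I)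
    {Y : K →L[ℂ] K} (hYN : Y ∈ I.N) (hY1 : ‖Y‖ ≤ 1) {Bc : ℝ} {ζ : K} (hB : 0 ≤ Bc)
    (hζ : I.Bes Bc ζ) (η : K) {δ R : ℝ}
    (hδ : 0 < δ) (hR : ∀ᶠ k : ℕ in atTop, ‖I.mJ (ic (Sh (L k) R)ᶜ) (I.U (al k) η)‖ ≤ δ)
    {ϑ : K} (hϑ : ϑ = (B (ev 0)).E (fun b => (starRingEnd ℂ) (g b)) ζ) :
    ∀ᶠ k : ℕ in atTop, ‖Mk I B g f Y (Sk (L k) R) ζ η k
      - (starRingEnd ℂ) (I.tz Y) * ⟪ϑ, (Φ (ev 0)).E f η⟫_ℂ‖ ≤ ((‖ϑ‖ + 1) * (1 + C) + 3) * δ := by
  obtain ⟨N, hN⟩ := Mk_sub h D R hB hζ η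
  have h0 := tendsto_iff_norm_sub_tendsto_zero.1 (I.tendsto_trunc Y)
  simp only [norm_sub_rev _ (star Y I.ξ)] at h0
  have h1 := h0.const_mul N
  have h2 := (h0.div_const ‖I.ξ‖).mul_const ‖⟪ϑ, (Φ (ev 0)).E f η⟫_ℂ‖
  rw [mul_zero] at h1
  rw [zero_div, zero_mul] at h2
  obtain ⟨s, s1, s2⟩ := ((h1.eventually (eventually_le_nhds hδ)).and
    (h2.eventually (eventually_le_nhds hδ))).exists
  have hs : Y * I.m (ic (s : Set Γ)) ∈ I.N := Ind.mul_N hYN (I.m_N (bm_ic_Γ _))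
  filter_upwards [partB0 h D hTN (I.rb_trunc Y s) hs ((norm_mul_le _ _).trans
    (mul_le_one₀ hY1 (norm_nonneg _) (I.norm_m_le zero_le_one (norm_ic_le _)))) ζ η hδ hR hϑ]
    with k hk
  have k1 := (hN Y hYN _ hs k).trans s1
  have k2 : ‖(starRingEnd ℂ) (I.tz (Y * I.m (ic (s : Set Γ)))) * ⟪ϑ, (Φ (ev 0)).E f η⟫_ℂ
      - (starRingEnd ℂ) (I.tz Y) * ⟪ϑ, (Φ (ev 0)).E f η⟫_ℂ‖ ≤ δ := by
    rw [← sub_mul, ← map_sub, norm_mul, Complex.norm_conj, norm_sub_rev]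
    exact (mul_le_mul_of_nonneg_right (Ind.norm_tz_sub_le hYN hs) (norm_nonneg _)).trans s2
  refine (norm_sub_le_norm_sub_add_norm_sub _ _ _).trans ((add_le_add k1
    ((norm_sub_le_norm_sub_add_norm_sub _ _ _).trans (add_le_add hk k2))).trans (le_of_eq ?_))
  ring

theorem Dat.c_ζ (D : Dat θ t C c φ ψ g f) (P : POVM V K) (ζ : K) :
    Continuous (fun w => P.E (fun b => (starRingEnd ℂ) (gw t φ g w b)) ζ) ∧
      ∀ w, ‖P.E (fun b => (starRingEnd ℂ) (gw t φ g w b)) ζ‖ ≤ C * ‖ζ‖ :=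
  ⟨(P.sCont_E (fun w => (D.bm_gw w).conj.1) (C := C)
      (fun w b => by rw [Complex.norm_conj]; exact D.b_gw w b)
      fun b => Complex.continuous_conj.comp (D.c_gw b)).1 ζ,
    fun w => P.norm_E_apply_le (D.bm_gw w).conj D.C0 ζ (Eventually.of_forall fun b => by
      rw [Complex.norm_conj]; exact D.b_gw w b)⟩

theorem Dat.c_η (D : Dat θ t C c φ ψ g f) (P : POVM V K) (η : K) :
    Continuous (fun w => P.E (fw ψ f w) η) ∧ ∀ w, ‖P.E (fw ψ f w) η‖ ≤ C * ‖η‖ :=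
  ⟨(P.sCont_E D.m_fw D.b_fw D.c_fw).1 η,
    fun w => P.norm_E_apply_le (D.bm_fw w) D.C0 η (Eventually.of_forall (D.b_fw w))⟩

theorem Dat.c_m (D : Dat θ t C c φ ψ g f) (I : Ind K) {χ : Γ → ℂ} (hχ : ∀ μ, ‖χ μ‖ ≤ 1) (L : ℝ)
    (η : K) : Continuous (fun w => I.m (fun μ => χ μ * (Fk t L μ * fw ψ f w (pt μ))) η) ∧
      ∀ w, ‖I.m (fun μ => χ μ * (Fk t L μ * fw ψ f w (pt μ))) η‖ ≤ C * ‖I.mJ χ η‖ :=
  ⟨(I.mP.sCont_E (f := fun w μ => χ μ * (Fk t L μ * fw ψ f w (pt μ))) (C := 1 * C)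
      (fun w => measurable_from_top) (fun w μ => (norm_mul_le _ _).trans
        (mul_le_mul (hχ μ) (D.b_Ffw L w μ) (norm_nonneg _) zero_le_one))
      fun μ => continuous_const.mul (continuous_const.mul (D.c_fw _))).1 η,
    fun w => (I.norm_m_apply_le _ _).trans (I.norm_mJ_mono (bm_Γ hχ) D.C0 (fun μ => by
      rw [norm_mul, mul_comm]
      exact mul_le_mul_of_nonneg_right (D.b_Ffw L w μ) (norm_nonneg _)) _)⟩

theorem Dat.int_Xp (D : Dat θ t C c φ ψ g f) {χ : Γ → ℂ} (hχ : ∀ μ, ‖χ μ‖ ≤ 1) (ζ η : K) (k : ℕ) :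
    Continuous (fun w => ⟪I.U (al k) ((B (ev 0)).E (fun b => (starRingEnd ℂ) (gw t φ g w b)) ζ),
      I.m (fun μ => χ μ * (Fk t (L k) μ * fw ψ f w (pt μ))) (I.U (al k) η)⟫_ℂ) ∧
    ∀ w, ‖⟪I.U (al k) ((B (ev 0)).E (fun b => (starRingEnd ℂ) (gw t φ g w b)) ζ),
      I.m (fun μ => χ μ * (Fk t (L k) μ * fw ψ f w (pt μ))) (I.U (al k) η)⟫_ℂ‖
        ≤ C * ‖ζ‖ * (C * ‖I.mJ χ (I.U (al k) η)‖) :=
  ⟨((I.U (al k)).continuous.comp (D.c_ζ _ ζ).1).inner (D.c_m I hχ _ _).1, fun w =>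
    (norm_inner_le_norm _ _).trans (mul_le_mul (by rw [URep.norm_map]; exact (D.c_ζ _ ζ).2 w)
      ((D.c_m I hχ _ _).2 w) (norm_nonneg _) (mul_nonneg D.C0 (norm_nonneg _)))⟩

/-- cutting to a set -/
theorem Xp_cut (D : Dat θ t C c φ ψ g f) (S : Set Γ) (ζ η : K) (k : ℕ) :
    ‖Xp I L B t c φ ψ g f (fun _ => 1) ζ η k - Xp I L B t c φ ψ g f (ic S) ζ η k‖
      ≤ (∫ w, ‖c w‖) * (C * ‖ζ‖ * (C * ‖I.mJ (ic Sᶜ) (I.U (al k) η)‖)) := by
  obtain ⟨a1, a2⟩ := D.int_Xp (I := I) (L := L) (B := B) (norm_ic_le S) ζ η k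
  obtain ⟨b1, b2⟩ := D.int_Xp (I := I) (L := L) (B := B) (norm_ic_le Sᶜ) ζ η k
  have e : Xp I L B t c φ ψ g f (fun _ => 1) ζ η k = Xp I L B t c φ ψ g f (ic S) ζ η k
      + Xp I L B t c φ ψ g f (ic Sᶜ) ζ η k := by
    rw [Xp, Xp, Xp, ← integral_add (integrable_mul D.int a1 a2) (integrable_mul D.int b1 b2)]
    congr 1
    funext w
    have hb := bm_Γ (D.b_Ffw (L k) w)
    simp only [one_mul, I.inner_m, mJ_cut I S hb, ContinuousLinearMap.sub_apply, inner_sub_right]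
    ring
  rw [e, add_sub_cancel_left]
  exact norm_integral_le D.int b2

variable (I L Φ B t c φ ψ g f) in
/-- the pairing that converges to the left-hand side -/
noncomputable def Xk (ζ η : K) (k : ℕ) : ℂ :=
  ∫ w, c w * ⟪(B (ev 0)).E (fun b => (starRingEnd ℂ) (gw t φ g w b)) ζ,
    I.σ k (I.m (Fk t (L k))) ((Φ (ev 0)).E (fw ψ f w) η)⟫_ℂ

/-- the boundary function is replaced by a position function -/
theorem Xk_sub (h : Geo I I' L Φ Ψ A B sc sc') (D : Dat θ t C c φ ψ g f) (ζ η : K) :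
    Tendsto (fun k => Xk I L Φ B t c φ ψ g f ζ η k - Xp I L B t c φ ψ g f (fun _ => 1) ζ η k)
      atTop (𝓝 0) := by
  have hC := D.C0
  have hF : ∀ k, ‖I.σ k (I.m (Fk t (L k)))‖ ≤ 1 := fun k => by
    rw [I.norm_σ]; exact I.norm_m_le zero_le_one fun μ => (norm_Fk _ _ _).le
  have a1 := fun k => (D.c_ζ (B (ev 0)) ζ).1.inner (𝕜 := ℂ)
    ((I.σ k (I.m (Fk t (L k)))).continuous.comp (D.c_η (Φ (ev 0)) η).1)
  simp only [Function.comp_apply] at a1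
  have a2 : ∀ k w, ‖⟪(B (ev 0)).E (fun b => (starRingEnd ℂ) (gw t φ g w b)) ζ,
      I.σ k (I.m (Fk t (L k))) ((Φ (ev 0)).E (fw ψ f w) η)⟫_ℂ‖ ≤ C * ‖ζ‖ * (1 * (C * ‖η‖)) :=
    fun k w => (norm_inner_apply_le (hF k) _ _).trans (mul_le_mul ((D.c_ζ _ ζ).2 w)
      (mul_le_mul_of_nonneg_left ((D.c_η _ η).2 w) zero_le_one) (by positivity) (by positivity))
  have b := fun k => D.int_Xp (I := I) (L := L) (B := B) (χ := fun _ => 1) (by simp) ζ η k
  simp only [I.mJ_one, I.norm_J, URep.norm_map] at b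
  have := dct D.int (fun k => (a1 k).sub (b k).1)
    (fun k w => (norm_sub_le _ _).trans (add_le_add (a2 k w) ((b k).2 w))) fun w => ?_
  · refine this.congr fun k => ?_
    rw [Xk, Xp, ← integral_sub (integrable_mul D.int (a1 k) (a2 k))
      (integrable_mul D.int (b k).1 (b k).2)]
    simp only [Pi.sub_apply, mul_sub]
  · have h1 := (tendsto_zero_iff_norm_tendsto_zero.1 (h.pro.strong _ (D.bm_fw w) (D.h_fw w)
      (D.o_fw w) η)).const_mul (C * ‖ζ‖)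
    rw [mul_zero] at h1
    refine squeeze_zero_norm (fun k => ?_) h1
    have hb : BM (Fk t (L k)) := bm_Γ fun μ => (norm_Fk _ _ _).le
    have hb' : BM fun μ => fw ψ f w (pt μ) := bm_Γ fun μ => D.b_fw w _
    simp only [Pi.sub_apply, one_mul, I.inner_σ, I.inner_m]
    rw [I.mJ_eq hb, I.mJ_eq (hb.mul hb'), ← mulG_mulG hb hb', ← I.mJ_eq hb', ← inner_sub_right,
      ← map_sub]
    refine (norm_inner_le_norm _ _).trans (mul_le_mul ?_ ?_ (norm_nonneg _) (by positivity))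
    · rw [I.norm_J, URep.norm_map]; exact (D.c_ζ _ ζ).2 w
    · exact (norm_mulG_apply_le zero_le_one (fun μ => (norm_Fk t (L k) μ).le) _).trans
        (by rw [one_mul, norm_sub_rev])

/-- **the main estimate** -/
theorem main (h : Geo I I' L Φ Ψ A B sc sc') (D : Dat θ t C c φ ψ g f) (hcj : CJ) (hTN : TN I)
    {Bc : ℝ} {ζ : K} (hB : 0 ≤ Bc) (hζ : I.Bes Bc ζ) (η : K) :
    Tendsto (fun k => Xk I L Φ B t c φ ψ g f ζ η k - pk t (sk sc' k) (L k) *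
      ((starRingEnd ℂ) (I.tz ((B (ev 0)).E (lg (-t)))) *
        ⟪ζ, (B (ev 0)).E g ((Φ (ev 0)).E f η)⟫_ℂ)) atTop (𝓝 0) := by
  rw [← inner_E_conj _ D.bmg]
  set ϑ := (B (ev 0)).E (fun b => (starRingEnd ℂ) (g b)) ζ with hϑ
  have hC := D.C0
  refine tendsto_of_le (1 + (∫ w, ‖c w‖) * (C * ‖ζ‖ * C) + 1 + ((‖ϑ‖ + 1) * (1 + C) + 3))
    fun δ hδ => ?_
  obtain ⟨R, hR⟩ := h.tight.seq η δ hδ
  filter_upwards [hR, Metric.tendsto_nhds.1 (Xk_sub h D ζ η) δ hδ,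
    Metric.tendsto_nhds.1 (partA h D hcj R hB hζ η) δ hδ,
    partB h D hTN (h.memB (ev_ne_zero 0) (bm_lg (-t)))
      ((B (ev 0)).norm_E_le (bm_lg _).1 zero_le_one fun b => (norm_lg _ b).le) hB hζ η hδ hR hϑ]
    with k k1 k2 k3 k4
  rw [dist_zero_right] at k2 k3
  have k5 := (Xp_cut (I := I) (L := L) (B := B) D (Sh (L k) R) ζ η k).trans
    (mul_le_mul_of_nonneg_left (mul_le_mul_of_nonneg_left (mul_le_mul_of_nonneg_left k1 hC)
      (by positivity)) (integral_nonneg fun w => norm_nonneg _))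
  rw [coe_Sk] at k3
  have k6 := norm_mul_le (pk t (sk sc' k) (L k)) _ |>.trans
    (mul_le_mul (norm_pk _ _ _).le k4 (norm_nonneg _) zero_le_one)
  rw [mul_sub] at k6
  refine (norm_sub_le_norm_sub_add_norm_sub _ _ _).trans ((add_le_add k2.le
    ((norm_sub_le_norm_sub_add_norm_sub _ _ _).trans (add_le_add k5
      ((norm_sub_le_norm_sub_add_norm_sub _ _ _).trans (add_le_add k3.le k6))))).trans (le_of_eq ?_))
  ring

theorem ext_bes (I : Ind K) {S T : K →L[ℂ] K}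
    (h : ∀ Bc ζ η, 0 ≤ Bc → I.Bes Bc ζ → ⟪ζ, S η⟫_ℂ = ⟪ζ, T η⟫_ℂ) : S = T := by
  ext η
  rw [← sub_eq_zero, ← inner_self_eq_zero (𝕜 := ℂ)]
  refine tendsto_nhds_unique (l := (atTop : Filter ℕ)) tendsto_const_nhds
    (tendsto_of_le ‖S η - T η‖ fun δ hδ => Eventually.of_forall fun _ => ?_)
  obtain ⟨Bc, ζ, h1, h2, h3⟩ := I.exists_bes_near (S η - T η) hδ
  have e : ⟪S η - T η, S η - T η⟫_ℂ = ⟪S η - T η - ζ, S η - T η⟫_ℂ := by
    rw [inner_sub_left _ ζ, inner_sub_right ζ, h Bc ζ η h1 h2, sub_self, sub_zero]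
  rw [e, mul_comm]
  exact (norm_inner_le_norm _ _).trans (mul_le_mul_of_nonneg_right h3 (norm_nonneg _))

/-- **S8**, core -/
theorem core (h : Geo I I' L Φ Ψ A B sc sc') (hcj : CJ) (hTN : TN I) :
    ∃ t₀ > (0 : ℝ), ∀ t, |t| < t₀ → ∃ z : ℂ, ∀ θ C c φ ψ g f, Dat θ t C c φ ψ g f →
      sInt volume c (fun w => (B (ev 0)).E (fun b => g b * lg t b * φ w b)
        * (A (ev 0)).E fun a => f a * lg t a * ψ w a) = z • ((Ψ (ev 0)).E g * (Φ (ev 0)).E f) := by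
  obtain ⟨l, hl, t₀, ht₀, H⟩ := h.lift.lift'
  refine ⟨t₀, ht₀, fun t ht => ?_⟩
  obtain ⟨ct, hct, hW⟩ := H t ht
  obtain ⟨p, hp⟩ := exists_tendsto_ultra l (f := fun k => pk t (sk sc' k) (L k)) (C := 1)
    (Eventually.of_forall fun k => (norm_pk _ _ _).le)
  refine ⟨p * (starRingEnd ℂ) (I.tz ((B (ev 0)).E (lg (-t)))) / ct,
    fun θ C c φ ψ g f D => ext_bes I fun Bc ζ η hB hζ => ?_⟩
  have hC := D.C0
  have h1 := (hp.mul_const ((starRingEnd ℂ) (I.tz ((B (ev 0)).E (lg (-t)))) *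
    ⟪ζ, (B (ev 0)).E g ((Φ (ev 0)).E f η)⟫_ℂ)).add ((main h D hcj hTN hB hζ η).mono_left hl)
  simp only [add_sub_cancel, add_zero] at h1
  have h2 := hW.integral (C := 1) (fun k => by
      rw [I.norm_σ]; exact I.norm_m_le zero_le_one fun μ => (norm_ex _).le) D.int
    (D.c_ζ (B (ev 0)) ζ).1 (D.c_η (Φ (ev 0)) η).1 (D := C * (‖ζ‖ + ‖η‖))
    (fun w => ((D.c_ζ _ ζ).2 w).trans (by gcongr; exact le_add_of_nonneg_right (norm_nonneg _)))
    (fun w => ((D.c_η _ η).2 w).trans (by gcongr; exact le_add_of_nonneg_left (norm_nonneg _)))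
  have h3 := tendsto_nhds_unique h2 h1
  have e : ∀ w, (A (ev 0)).E (fun a => f a * lg t a * ψ w a)
      = (A (ev 0)).E (lg t) * (Φ (ev 0)).E (fw ψ f w) := fun w => by
    rw [← h.lift.hom0 (ev_ne_zero 0) (D.bm_fw w) (D.h_fw w),
      ← h.lift.pvm _ _ _ (bm_lg t) (D.bm_fw w)]
    congr 1
    funext a
    rw [fw]
    ring
  have hs : SCont fun w => (B (ev 0)).E (gw t φ g w)
      * ((A (ev 0)).E (lg t) * (Φ (ev 0)).E (fw ψ f w)) :=
    ((B (ev 0)).sCont_E D.m_gw D.b_gw D.c_gw).mul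
      ((SCont.const _).mul ((Φ (ev 0)).sCont_E D.m_fw D.b_fw D.c_fw))
  simp only [e]
  refine (inner_sInt D.int hs ζ η).trans (mul_left_cancel₀ hct ?_)
  simp only [fun w => inner_E_conj (B (ev 0)) (D.bm_gw w), ContinuousLinearMap.smul_apply,
    map_smul, inner_smul_right, mul_left_comm _ ct, integral_const_mul] at h3
  simp only [ContinuousLinearMap.mul_apply, ContinuousLinearMap.smul_apply, inner_smul_right]
  rw [h3, ← h.lift'.hom0 (ev_ne_zero 0) D.bmg D.hg]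
  field_simp

end S8k

end Crest.Agent.N111
end

-- ▼ part N111/F/S8

/-! # Row 111: opposite pairs (fill the proofs IN PLACE). -/

set_option autoImplicit false
set_option linter.unusedSectionVars false
set_option linter.unusedVariables false

namespace Crest.Agent.N111

open MeasureTheory Topology Filter Matrix
open scoped InnerProductSpace

variable {K : Type} [NormedAddCommGroup K] [InnerProductSpace ℂ K] [CompleteSpace K]

variable {I I' : Ind K} {L : ℕ → ℝ} {Φ Ψ A B : V → POVM V K} {sc sc' : ℝ → ℝ}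


/-! `PRep`, `exists_pRep`, `coord_jm`, `Ind.RB.tendsto_norm`, `Geo.lc` are in `F/S8a`. -/

/-- **S8**, core -/
theorem Geo.s8_core (h : Geo I I' L Φ Ψ A B sc sc') : ∃ t₀ > (0 : ℝ), ∀ t, |t| < t₀ → ∃ z : ℂ,
    ∀ θ > (0 : ℝ), ∀ c φ ψ, PRep θ t c φ ψ → ∀ g f : V → ℂ, BM g → Hom0 g → BM f → Hom0 f →
      ContinuousOn f {0}ᶜ → (∀ b a, g b ≠ 0 → f a ≠ 0 → θ * (‖b‖ * ‖a‖) ≤ |b ⬝ᵥ a|) →
      sInt volume c (fun w => (B (ev 0)).E (fun b => g b * lg t b * φ w b)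
        * (A (ev 0)).E fun a => f a * lg t a * ψ w a) = z • ((Ψ (ev 0)).E g * (Φ (ev 0)).E f) := by
  obtain ⟨t₀, ht₀, H⟩ := S8k.core h (fun R θ ε hθ hε => (coord_jm R hθ hε).mono
    fun L hL μ hμ b hb hn => by
      obtain ⟨h1, h2, -⟩ := hL μ hμ b hb hn
      rwa [h1]) fun Y C hY hN η => hY.tendsto_norm hN η
  refine ⟨t₀, ht₀, fun t ht => (H t ht).imp fun z hz θ hθ c φ ψ P g f hg hg0 hf hf0 hfc hni => ?_⟩
  obtain ⟨Cg, hCg, bg⟩ := hg.exists_nonneg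
  obtain ⟨Cf, hCf, bf⟩ := hf.exists_nonneg
  exact hz θ (Cg + Cf) c φ ψ g f ⟨hθ, P.int, P.measφ, P.measψ, P.bdφ, P.bdψ, P.homφ, P.homψ,
    P.contφ, P.contψ, fun w => P.jointψ.comp (Continuous.prodMk_right w).continuousOn
      fun a ha => ha, P.ker, add_nonneg hCg hCf, hg.1, hf.1,
    fun b => (bg b).trans (le_add_of_nonneg_right hCf),
    fun a => (bf a).trans (le_add_of_nonneg_left hCg), hg0, hf0, hfc, hni⟩

end Crest.Agent.N111
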