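import Crest.Agent.N111.C.Trans_Mg
import Crest.Agent.N111.F.S8
import Crest.Agent.N111.F.S7
import Crest.Agent.N111.E.Api
import Crest.Agent.N111.F.Chart

-- ▼ part N111/C/Conc
section

/-!
# Row 111, module C: `ConcStmt`.
-/

namespace Crest.Agent.N111

theorem conc : ConcStmt := Cn.conc_of (Cn.core (Cn.endC Cn.noMean)) Cn.trans

end Crest.Agent.N111
end

-- ▼ part N111/F/S8b
section

/-! # Row 111: opposite pairs: Borel form and the level (fill the proofs IN PLACE). -/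

set_option autoImplicit false
set_option linter.unusedSectionVars false
set_option linter.unusedVariables false

namespace Crest.Agent.N111

open MeasureTheory Topology Filter Matrix
open scoped InnerProductSpace

variable {K : Type} [NormedAddCommGroup K] [InnerProductSpace ℂ K] [CompleteSpace K]

variable {I I' : Ind K} {L : ℕ → ℝ} {Φ Ψ A B : V → POVM V K} {sc sc' : ℝ → ℝ}


namespace S8c

/-- the identity of `S8` for the pair `(P, Q)` -/
def Idt (P Q : POVM V K) (t : ℝ) (z : ℂ) : Prop :=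
  ∀ θ > (0 : ℝ), ∀ c φ ψ, PRep θ t c φ ψ → ∀ g f : V → ℂ, BM g →
    BM f → (∀ b a, g b ≠ 0 → f a ≠ 0 → 2 * θ * (‖b‖ * ‖a‖) ≤ |b ⬝ᵥ a|) →
    sInt volume c (fun w => P.E (fun b => g b * lg t b * φ w b)
      * Q.E fun a => f a * lg t a * ψ w a) = z • (P.E g * Q.E f)

theorem bm_tw {g : V → ℂ} (hg : BM g) (t : ℝ) {φ : V → ℂ} (hm : Measurable φ)
    (hb : ∀ a, ‖φ a‖ ≤ 1) : BM fun b => g b * lg t b * φ b :=
  (hg.mul (bm_lg t)).mul ⟨hm, 1, hb⟩

theorem sCont_tw (P : POVM V K) {g : V → ℂ} (hg : BM g) (t : ℝ) {φ : (Fin 18 → ℝ) → V → ℂ}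
    (hm : ∀ w, Measurable (φ w)) (hb : ∀ w a, ‖φ w a‖ ≤ 1) (hc : ∀ a, Continuous fun w => φ w a) :
    SCont fun w => P.E fun b => g b * lg t b * φ w b := by
  obtain ⟨C, hC0, hC⟩ := hg.exists_nonneg
  refine P.sCont_E (C := C) (fun w => (bm_tw hg t (hm w) (hb w)).meas) (fun w a => ?_)
    fun a => continuous_const.mul (hc a)
  rw [norm_mul, norm_mul, norm_lg, mul_one]
  exact (mul_le_of_le_one_right (norm_nonneg _) (hb w a)).trans (hC a)

theorem dot_nrm (b : V) {a : V} (ha : a ≠ 0) : |b ⬝ᵥ a| = |b ⬝ᵥ nrm a| * ‖a‖ := by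
  rw [nrm, dotProduct_smul, smul_eq_mul, abs_mul, abs_inv, abs_norm, mul_right_comm,
    inv_mul_cancel₀ (norm_ne_zero_iff.2 ha), one_mul]

/-- projective majorants of a non-incident pair -/
theorem exists_major {θ : ℝ} (hθ : 0 < θ) (f : V → ℂ) : ∃ g' f' : V → ℂ, BM g' ∧ Hom0 g' ∧ BM f' ∧
    Hom0 f' ∧ ContinuousOn f' {0}ᶜ ∧ (∀ b a, g' b ≠ 0 → f' a ≠ 0 → θ * (‖b‖ * ‖a‖) ≤ |b ⬝ᵥ a|) ∧
    (∀ b, (∀ a, f a ≠ 0 → 2 * θ * (‖b‖ * ‖a‖) ≤ |b ⬝ᵥ a|) → g' b = 1) ∧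
    ∀ a, a ≠ 0 → f a ≠ 0 → f' a = 1 := by
  let G : Set V := {b | ∀ a, f a ≠ 0 → 2 * θ * (‖b‖ * ‖a‖) ≤ |b ⬝ᵥ a|}
  have hG : IsClosed G := by
    simp only [G, Set.ofPred_forall]
    exact isClosed_iInter fun a => isClosed_iInter fun _ => isClosed_le (by fun_prop) (by fun_prop)
  have sG : ∀ z : ℝ, ∀ b ∈ G, z • b ∈ G := fun z b hb a ha => by
    rw [norm_smul, smul_dotProduct, smul_eq_mul, abs_mul, Real.norm_eq_abs, mul_assoc |z|,
      mul_left_comm]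
    exact mul_le_mul_of_nonneg_left (hb a ha) (abs_nonneg z)
  let S : Set V := {a | ∀ b ∈ G, 2 * θ * ‖b‖ ≤ |b ⬝ᵥ a|}
  have hδ : 0 < θ / 3 := by positivity
  let T : V → ℂ := fun a => ((thickenedIndicator hδ S a : ℝ) : ℂ)
  have cT : Continuous T := by fun_prop
  have bT : BM T := BM.of_continuous cT (C := 1) fun a => by
    simpa [T] using thickenedIndicator_le_one hδ S a
  have T1 : ∀ a ∈ S, T a = 1 := fun a ha => by
    simp only [T, thickenedIndicator_one hδ S ha, NNReal.coe_one, Complex.ofReal_one]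
  refine ⟨ic G, fun a => T (nrm a) * T (-nrm a), BM.ic hG.measurableSet, fun z hz b => ?_,
    (bT.comp measurable_nrm).mul (bT.comp measurable_nrm.neg),
    Ev.hom0_nrm (f := fun a => T a * T (-a)) fun a => by simp only [neg_neg, mul_comm],
    (cT.comp_continuousOn continuousOn_nrm).mul (cT.comp_continuousOn continuousOn_nrm.neg),
    fun b a hb ha => ?_, fun b hb => ic_of_mem hb, fun a h0 ha => ?_⟩
  · by_cases hb : b ∈ G
    · rw [ic_of_mem hb, ic_of_mem (sG z b hb)]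
    · rw [ic_of_notMem hb, ic_of_notMem fun h' => hb ?_]
      simpa only [smul_smul, inv_mul_cancel₀ hz, one_smul] using sG z⁻¹ _ h'
  · rcases eq_or_ne a 0 with rfl | h0
    · simp
    have hbG : b ∈ G := by_contra fun h' => hb (ic_of_notMem h')
    obtain ⟨a', ha', hd⟩ := Metric.mem_thickening_iff.1 (by_contra fun h' => ha (by
      simp only [T, thickenedIndicator_zero hδ S h', NNReal.coe_zero, Complex.ofReal_zero,
        zero_mul]) : nrm a ∈ Metric.thickening (θ / 3) S)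
    have h1 := ha' b hbG
    have h2 : |b ⬝ᵥ (nrm a - a')| ≤ 3 * ‖b‖ * (θ / 3) := (abs_dot_le _ _).trans
      (mul_le_mul_of_nonneg_left (dist_eq_norm (nrm a) a' ▸ hd.le) (by positivity))
    rw [dotProduct_sub] at h2
    have h3 := abs_sub_abs_le_abs_sub (b ⬝ᵥ a') (b ⬝ᵥ nrm a)
    rw [abs_sub_comm] at h3
    rw [dot_nrm b h0, ← mul_assoc]
    exact mul_le_mul_of_nonneg_right (by linarith) (norm_nonneg _)
  · have : nrm a ∈ S := fun b hb => le_of_mul_le_mul_right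
      (by rw [← dot_nrm b h0, mul_assoc]; exact hb a ha) (norm_pos_iff.2 h0)
    beta_reduce
    rw [T1 _ this, T1 _ fun b hb => by rw [dotProduct_neg, abs_neg]; exact this b hb, mul_one]

theorem idt_base (h : Geo I I' L Φ Ψ A B sc sc') {t : ℝ} {z : ℂ}
    (H : ∀ θ > (0 : ℝ), ∀ c φ ψ, PRep θ t c φ ψ → ∀ g f : V → ℂ, BM g → Hom0 g → BM f → Hom0 f →
      ContinuousOn f {0}ᶜ → (∀ b a, g b ≠ 0 → f a ≠ 0 → θ * (‖b‖ * ‖a‖) ≤ |b ⬝ᵥ a|) →
      sInt volume c (fun w => (B (ev 0)).E (fun b => g b * lg t b * φ w b)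
        * (A (ev 0)).E fun a => f a * lg t a * ψ w a) = z • ((Ψ (ev 0)).E g * (Φ (ev 0)).E f)) :
    Idt (B (ev 0)) (A (ev 0)) t z := by
  intro θ hθ c φ ψ hr g f hg hf hni
  obtain ⟨g', f', bg, hg', bf, hf', cf, ni, g1, f1⟩ := exists_major hθ f
  have e := congrArg (fun X => (B (ev 0)).E g * X * (A (ev 0)).E f)
    (H θ hθ c φ ψ hr g' f' bg hg' bf hf' cf ni)
  have eB : ∀ u, BM u → (B (ev 0)).E g * (B (ev 0)).E (fun b => g' b * u b) =
      (B (ev 0)).E fun b => g b * u b := fun u hu => by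
    rw [← h.lift'.pvm _ _ _ hg (bg.mul hu)]
    congr 1
    funext b
    by_cases hb : g b = 0
    · rw [hb, zero_mul, zero_mul]
    · rw [g1 b fun a => hni b a hb, one_mul]
  have eA : ∀ u, BM u → (A (ev 0)).E (fun a => f' a * u a) * (A (ev 0)).E f =
      (A (ev 0)).E fun a => f a * u a := fun u hu => by
    rw [← h.lift.pvm _ _ _ (bf.mul hu) hf]
    refine POVM.E_congr_of_null _ (measurableSet_singleton 0) (h.lift.zero _)
      ((bf.mul hu).mul hf) (hf.mul hu) fun a ha => ?_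
    by_cases hb : f a = 0
    · rw [hb, zero_mul, mul_zero]
    · rw [f1 a ha hb, one_mul, mul_comm]
  have sc := (sCont_tw (B (ev 0)) bg t hr.measφ hr.bdφ hr.contφ).mul
    (sCont_tw (A (ev 0)) bf t hr.measψ hr.bdψ hr.contψ)
  rw [mul_sInt hr.int sc, sInt_mul hr.int ((SCont.const _).mul sc),
    ← h.lift'.hom0 (ev_ne_zero 0) bg hg', ← h.lift.hom0 (ev_ne_zero 0) bf hf'] at e
  have e1 := eB _ BM.one
  have e2 := eA _ BM.one
  simp only [mul_one] at e1 e2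
  rw [mul_smul_comm, smul_mul_assoc, ← mul_assoc, e1, mul_assoc, e2] at e
  rw [← e]
  congr 1
  funext w
  simp only [mul_assoc]
  rw [eA _ ((bm_lg t).mul ⟨hr.measψ w, 1, hr.bdψ w⟩), ← mul_assoc ((B (ev 0)).E g),
    eB _ ((bm_lg t).mul ⟨hr.measφ w, 1, hr.bdφ w⟩)]

theorem Idt.conj {P Q P' Q' : POVM V K} {t : ℝ} {z : ℂ} (H : Idt P Q t z) {u v : K →L[ℂ] K}
    (huv : v * u = 1) (hP : ∀ f, BM f → u * P.E f * v = P'.E f)
    (hQ : ∀ f, BM f → u * Q.E f * v = Q'.E f) : Idt P' Q' t z := by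
  intro θ hθ c φ ψ hr g f hg hf hni
  have key : ∀ g f, BM g → BM f → u * (P.E g * Q.E f) * v = P'.E g * Q'.E f := fun g f hg hf => by
    rw [← hP g hg, ← hQ f hf]
    simp only [mul_assoc]
    rw [← mul_assoc v u, huv, one_mul]
  have sc := (sCont_tw P hg t hr.measφ hr.bdφ hr.contφ).mul
    (sCont_tw Q hf t hr.measψ hr.bdψ hr.contψ)
  have e := congrArg (fun X => u * X * v) (H θ hθ c φ ψ hr g f hg hf hni)
  rw [mul_sInt hr.int sc, sInt_mul hr.int ((SCont.const _).mul sc), mul_smul_comm,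
    smul_mul_assoc, key g f hg hf] at e
  rw [← e]
  congr 1
  funext w
  rw [key _ _ (bm_tw hg t (hr.measφ w) (hr.bdφ w)) (bm_tw hf t (hr.measψ w) (hr.bdψ w))]

theorem exists_idt (h : Geo I I' L Φ Ψ A B sc sc') : ∃ t₀ > (0 : ℝ), ∀ t, |t| < t₀ → ∃ z : ℂ,
    ∀ x y : V, x ⬝ᵥ y = 1 → Idt (B y) (A x) t z := by
  obtain ⟨t₀, ht₀, H⟩ := h.s8_core
  refine ⟨t₀, ht₀, fun t ht => ?_⟩
  obtain ⟨z, hz⟩ := H t ht
  refine ⟨z, fun x y hxy => ?_⟩
  obtain ⟨g, rfl, rfl⟩ := exists_ac_opp hxy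
  exact (idt_base h hz).conj (I.U.inv_mul_self g) (fun f hf => h.covB (ev_ne_zero 0) hf g)
    fun f hf => h.lift.covU _ (ev_ne_zero 0) f hf g

theorem equi {Ω : Type} [TopologicalSpace Ω] {φ : Ω → V → ℂ}
    (hφ : ContinuousOn (fun p : Ω × V => φ p.1 p.2) {p | p.2 ≠ 0}) (t : ℝ) {b : V} (hb : b ≠ 0)
    {ε : ℝ} (hε : 0 < ε) {M : Set Ω} (hM : IsCompact M) :
    ∀ᶠ y in 𝓝 b, ∀ ω ∈ M, ‖lg t y * φ ω y - lg t b * φ ω b‖ ≤ ε := by
  refine hM.eventually_forall_of_forall_eventually fun ω _ => ?_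
  have c0 : ContinuousAt (fun p : Ω × V => φ p.1 p.2) (ω, b) :=
    hφ.continuousAt ((isOpen_ne_fun continuous_snd continuous_const).mem_nhds hb)
  have c1 : ContinuousAt (fun p : V × Ω => φ p.2 p.1) (b, ω) :=
    ContinuousAt.comp (f := fun p : V × Ω => (p.2, p.1)) (x := (b, ω)) c0 (by fun_prop)
  have c2 : ContinuousAt (fun p : V × Ω => φ p.2 b) (b, ω) :=
    ContinuousAt.comp (f := fun p : V × Ω => (p.2, b)) (x := (b, ω)) c0 (by fun_prop)
  have c3 : ContinuousAt (fun p : V × Ω => lg t p.1) (b, ω) :=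
    continuous_ex.continuousAt.comp (continuousAt_const.mul
      (continuous_fst.norm.continuousAt.log (norm_ne_zero_iff.2 hb)))
  exact ((c3.mul c1).sub (continuousAt_const.mul c2)).norm.eventually (ge_mem_nhds (by simpa))

/-- the kernel is constant on the non-incident part of the support -/
theorem Idt.ker {P Q : POVM V K} {t : ℝ} {z : ℂ} (H : Idt P Q t z) {p : Fin 2 → V}
    (hp : p ∈ supp (word ![P, Q])) (hne : p 0 ⬝ᵥ p 1 ≠ 0) : ex (t * Real.log |p 0 ⬝ᵥ p 1|) = z := by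
  by_contra hz
  obtain ⟨θ, hθ, O, hO, O', hO', hni⟩ := exists_ni hne
  obtain ⟨c, φ, ψ, hr⟩ := exists_pRep (half_pos hθ) t
  have h0 : p 0 ≠ 0 := fun e => hne (by rw [e, zero_dotProduct])
  have h1 : p 1 ≠ 0 := fun e => hne (by rw [e, dotProduct_zero])
  refine (isPoly_word ![P, Q]).not_mem_supp_of_sInt hr.int
    (φ := fun w => ![fun b => lg t b * φ w b, fun a => lg t a * ψ w a])
    (fun w => Fin.forall_fin_two.2 ⟨(bm_lg t).meas.mul (hr.measφ w), (bm_lg t).meas.mul (hr.measψ w)⟩)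
    (fun w => Fin.forall_fin_two.2 ⟨fun b => ?_, fun b => ?_⟩)
    (Fin.forall_fin_two.2 ⟨fun b => continuous_const.mul (hr.contφ b),
      fun b => continuous_const.mul (hr.contψ b)⟩)
    (Fin.forall_fin_two.2 ⟨fun ε hε M hM => equi hr.jointφ t h0 hε hM,
      fun ε hε M hM => equi hr.jointψ t h1 hε hM⟩) z ?_ (O := ![O, O'])
    (Fin.forall_fin_two.2 ⟨hO, hO'⟩) (fun f hf hs => ?_) hp
  · simpa [norm_lg] using hr.bdφ w b
  · simpa [norm_lg] using hr.bdψ w b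
  · have k := hr.ker _ _ h0 h1 (le_trans (mul_le_mul_of_nonneg_right (half_le_self hθ.le)
      (by positivity)) (hni _ (subset_cone _ (mem_of_mem_nhds hO)) _
        (subset_cone _ (mem_of_mem_nhds hO'))))
    have e : ∀ w, c w * ∏ k, ![fun b => lg t b * φ w b, fun a => lg t a * ψ w a] k (p k) =
        lg t (p 0) * lg t (p 1) * (c w * (φ w (p 0) * ψ w (p 1))) := fun w => by
      simp only [Fin.prod_univ_two, cons_val_zero, cons_val_one]
      ring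
    simp only [e]
    rw [integral_const_mul, k, lg, lg, ← ex_add, ← ex_add]
    convert hz using 2
    ring
  · have := H _ (half_pos hθ) c φ ψ hr (f 0) (f 1) (hf 0) (hf 1) fun b a hb ha => by
      rw [mul_div_cancel₀ _ two_ne_zero]
      exact hni b (subset_cone _ (by_contra fun h' => hb (hs 0 b h'))) a
        (subset_cone _ (by_contra fun h' => ha (hs 1 a h')))
    rw [sub_eq_zero, word_two, ← this]
    congr 1
    funext w
    simp only [word_two, cons_val_zero, cons_val_one, mul_assoc, mul_comm _ (f _ _)]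

theorem exists_ni_supp (h : Geo I I' L Φ Ψ A B sc sc') :
    ∃ p ∈ supp (word ![B (ev 0), A (ev 0)]), p 0 ⬝ᵥ p 1 ≠ 0 := by
  by_contra hc
  push Not at hc
  refine h.pro.not_inc h.dual h.pro' h.inc (Inc.symm (inc_of_ni (h.pro'.proj _) (h.pro.proj _)
    fun g f bg hg cg bf hf cf θ hθ ni => ?_))
  have hO : ∀ {f : V → ℂ}, ContinuousOn f {0}ᶜ → IsOpen ({0}ᶜ ∩ f ⁻¹' {0}ᶜ) := fun hf =>
    hf.isOpen_inter_preimage isOpen_compl_singleton isOpen_compl_singleton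
  have := (isPoly_word ![B (ev 0), A (ev 0)]).nullOn_of_disjoint
    (O := ![{0}ᶜ ∩ g ⁻¹' {0}ᶜ, {0}ᶜ ∩ f ⁻¹' {0}ᶜ])
    (Fin.forall_fin_two.2 ⟨isSigmaCompact_of_isOpen (hO cg), isSigmaCompact_of_isOpen (hO cf)⟩)
    (fun p hp hs => by
      have h1 := ni _ _ (hp 0).2 (hp 1).2
      rw [hc p hs, abs_zero] at h1
      exact absurd h1 (not_le.2 (mul_pos hθ
        (mul_pos (norm_pos_iff.2 (hp 0).1) (norm_pos_iff.2 (hp 1).1)))))
    ![fun a => ic {0}ᶜ a * g a, fun a => ic {0}ᶜ a * f a]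
    (Fin.forall_fin_two.2 ⟨Cv1.bm_cut bg, Cv1.bm_cut bf⟩)
    (Fin.forall_fin_two.2 ⟨fun a ha => by by_cases h0 : a = 0 <;> simp_all,
      fun a ha => by by_cases h0 : a = 0 <;> simp_all⟩)
  rw [← h.lift'.hom0 (ev_ne_zero 0) bg hg, ← h.lift.hom0 (ev_ne_zero 0) bf hf,
    (h.lift'.sym _).cut bg, (h.lift.sym _).cut bf]
  simpa using this

theorem eq_of_ex {a b t₀ : ℝ} (ht₀ : 0 < t₀) (h : ∀ t, |t| < t₀ → ex (t * a) = ex (t * b)) :
    a = b := by
  by_contra hne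
  have hd : 0 < |a - b| := abs_pos.2 (sub_ne_zero.2 hne)
  obtain ⟨t, ht0, ht1, ht2⟩ : ∃ t : ℝ, 0 < t ∧ t < t₀ ∧ t * |a - b| ≤ 1 :=
    ⟨min (t₀ / 2) |a - b|⁻¹, by positivity, (min_le_left _ _).trans_lt (half_lt_self ht₀),
      (mul_le_mul_of_nonneg_right (min_le_right _ _) hd.le).trans_eq (inv_mul_cancel₀ hd.ne')⟩
  have e : ex (t * (a - b)) = 1 := by
    rw [mul_sub, sub_eq_add_neg, ex_add, h t (by rwa [abs_of_pos ht0]), ← ex_add, add_neg_cancel,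
      ex_zero]
  have e' : Real.cos (t * (a - b)) = 1 := by
    rw [← Complex.exp_ofReal_mul_I_re, mul_comm _ Complex.I, ← ex, e, Complex.one_re]
  have hb : |t * (a - b)| ≤ 1 := by rwa [abs_mul, abs_of_pos ht0]
  rw [abs_le] at hb
  have := (Real.cos_eq_one_iff_of_lt_of_lt (by linarith [Real.pi_gt_three])
    (by linarith [Real.pi_gt_three])).1 e'
  exact mul_ne_zero ht0.ne' (sub_ne_zero.2 hne) this

theorem ev_dot_self : ev 0 ⬝ᵥ ev 0 = 1 := by simp [ev_dot_ev]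

end S8c

/-- **S8** for all opposite pairs and Borel functions -/
theorem Geo.s8 (h : Geo I I' L Φ Ψ A B sc sc') : ∃ t₀ > (0 : ℝ), ∀ t, |t| < t₀ → ∃ z : ℂ, z ≠ 0 ∧
    ∀ x y : V, x ⬝ᵥ y = 1 → ∀ θ > (0 : ℝ), ∀ c φ ψ, PRep θ t c φ ψ → ∀ g f : V → ℂ, BM g →
      BM f → (∀ b a, g b ≠ 0 → f a ≠ 0 → 2 * θ * (‖b‖ * ‖a‖) ≤ |b ⬝ᵥ a|) →
      sInt volume c (fun w => (B y).E (fun b => g b * lg t b * φ w b)
        * (A x).E fun a => f a * lg t a * ψ w a) = z • ((B y).E g * (A x).E f) := by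
  obtain ⟨t₀, ht₀, H⟩ := S8c.exists_idt h
  obtain ⟨p, hp, hne⟩ := S8c.exists_ni_supp h
  refine ⟨t₀, ht₀, fun t ht => ?_⟩
  obtain ⟨z, hz⟩ := H t ht
  refine ⟨z, fun e => ?_, hz⟩
  have := congrArg norm ((hz _ _ S8c.ev_dot_self).ker hp hne)
  rw [norm_ex, e, norm_zero] at this
  exact one_ne_zero this

/-- the non-incident part of the support lies on one level -/
theorem Geo.level (h : Geo I I' L Φ Ψ A B sc sc') : ∃ κ > (0 : ℝ), ∀ x y : V, x ⬝ᵥ y = 1 →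
    ∀ z ∈ supp (word ![B y, A x]), z 0 ⬝ᵥ z 1 ≠ 0 → |z 0 ⬝ᵥ z 1| = κ := by
  obtain ⟨t₀, ht₀, H⟩ := S8c.exists_idt h
  obtain ⟨p, hp, hne⟩ := S8c.exists_ni_supp h
  refine ⟨_, abs_pos.2 hne, fun x y hxy q hq hq' => ?_⟩
  refine Real.log_injOn_pos (abs_pos.2 hq') (abs_pos.2 hne) (S8c.eq_of_ex ht₀ fun t ht => ?_)
  obtain ⟨z, hz⟩ := H t ht
  rw [(hz _ _ hxy).ker hq hq', (hz _ _ S8c.ev_dot_self).ker hp hne]

end Crest.Agent.N111
end

-- ▼ part N111/F/Ccr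
section

/-! # Row 111: no commutation phase on flags. -/

set_option autoImplicit false
set_option linter.unusedSectionVars false
set_option linter.unusedVariables false

namespace Crest.Agent.N111

open MeasureTheory Topology Filter Matrix
open scoped InnerProductSpace

variable {K : Type} [NormedAddCommGroup K] [InnerProductSpace ℂ K] [CompleteSpace K]

variable {I I' : Ind K} {L : ℕ → ℝ} {Φ Ψ A B : V → POVM V K} {sc sc' : ℝ → ℝ}


/-- the five letter word -/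
noncomputable def W5 (A B : V → POVM V K) : (Fin 5 → V → ℂ) → K →L[ℂ] K :=
  word ![A (ev 0), B (ev 2), A (ev 1), B (ev 0), A (ev 2)]

namespace Ccr

/-- `P` refines the projective PVM `Φ` and commutes with `Ψ` on flags -/
structure Ref (P Φ Ψ : V → POVM V K) : Prop where
  pvm : ∀ x, (P x).IsPVM
  hom : ∀ x, x ≠ 0 → ∀ u, BM u → Hom0 u → (P x).E u = (Φ x).E u
  comm : ∀ x y, x ≠ 0 → y ≠ 0 → x ⬝ᵥ y = 0 → ∀ f g, BM f → BM g →
    Commute ((P x).E f) ((Ψ y).E g)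

variable {P R : V → POVM V K}

theorem Ref.right (h : Ref P Φ Ψ) (i : Fin 3) {f u : V → ℂ} (hf : BM f) (hu : BM u ∧ Hom0 u) :
    (P (ev i)).E (fun a => f a * u a) = (P (ev i)).E f * (Φ (ev i)).E u := by
  rw [h.pvm _ f u hf hu.1, h.hom _ (ev_ne_zero i) u hu.1 hu.2]

theorem Ref.left (h : Ref P Φ Ψ) (i : Fin 3) {f u : V → ℂ} (hf : BM f) (hu : BM u ∧ Hom0 u) :
    (P (ev i)).E (fun a => f a * u a) = (Φ (ev i)).E u * (P (ev i)).E f := by
  rw [← h.hom _ (ev_ne_zero i) u hu.1 hu.2, ← h.pvm _ u f hu.1 hf]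
  simp only [mul_comm]

theorem dot_ne {i k : Fin 3} (h : i ≠ k) : ev i ⬝ᵥ ev k = 0 := by rw [ev_dot_ev, if_neg h]

theorem Ref.swap (h : Ref P Φ Ψ) {i k : Fin 3} (hik : i ≠ k) {f g : V → ℂ} (hf : BM f)
    (hg : BM g) (X : K →L[ℂ] K) :
    (Ψ (ev k)).E g * ((P (ev i)).E f * X) = (P (ev i)).E f * ((Ψ (ev k)).E g * X) := by
  rw [← mul_assoc, ← mul_assoc,
    (h.comm _ _ (ev_ne_zero i) (ev_ne_zero k) (dot_ne hik) f g hf hg).eq]

theorem refA (h : Geo I I' L Φ Ψ A B sc sc') : Ref A Φ Ψ :=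
  ⟨h.lift.pvm, fun x hx u hu h0 => h.lift.hom0 hx hu h0, h.AΨ⟩

theorem refΦ (h : Geo I I' L Φ Ψ A B sc sc') : Ref Φ Φ Ψ :=
  ⟨h.pro.pvm, fun _ _ _ _ _ => rfl, h.inc.comm⟩

theorem step {X : Type} [TopologicalSpace X] {S U C : Set X} (hU : IsOpen U)
    (h : S ∩ U ⊆ closure (S ∩ C)) : S ∩ U ⊆ closure (S ∩ (U ∩ C)) := fun z hz =>
  closure_mono (Set.inter_left_comm U S C).subset (hU.inter_closure ⟨hz.2, h hz⟩)

theorem isOpen_cross (i k : Fin 5) : IsOpen {z : Fin 5 → V | z i ⨯₃ z k ≠ 0} := by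
  refine isOpen_ne_fun (continuous_pi fun j => ?_) continuous_const
  fin_cases j <;> simp [cross_apply] <;> fun_prop

theorem ev20 : ev 2 ⨯₃ ev 0 ≠ 0 := fun h => by
  simpa [cross_apply, ev] using congrFun h 1

theorem nd5 (h : Geo I I' L Φ Ψ A B sc sc') (hP : Ref P Φ Ψ) (hR : Ref R Ψ Φ) {z : Fin 5 → V}
    (hz : z ∈ supp (W5 P R)) (h0 : ∀ i, z i ≠ 0) :
    z ∈ closure {z' ∈ supp (W5 P R) | (∀ i, z' i ≠ 0) ∧
      z' 0 ⨯₃ z' 2 ≠ 0 ∧ z' 2 ⨯₃ z' 4 ≠ 0 ∧ z' 1 ⨯₃ z' 3 ≠ 0} := by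
  have hW : IsPoly (W5 P R) := isPoly_word _
  have hU : IsOpen {z : Fin 5 → V | ∀ i, z i ≠ 0} := by
    rw [Set.ofPred_forall]
    exact isOpen_iInter_of_finite fun i => isOpen_ne_fun (continuous_apply i) continuous_const
  have n1 : ∀ z ∈ supp (W5 P R), (∀ i, z i ≠ 0) →
      z ∈ closure (supp (W5 P R) ∩ {z | z 0 ⨯₃ z 2 ≠ 0}) := fun z hz h0 =>
    h.nd (x := ev 0) (x' := ev 1) (y := ev 2) (Geo2.ev01 ▸ ev_ne_zero 2) (ev_ne_zero 2)
      (dot_ne (by decide)) (dot_ne (by decide)) hW (i := 0) (l := 1) (k := 2) (by decide)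
      (by decide) (by decide) (fun f hf => ⟨(P (ev 0)).E (f 0) * (R (ev 2)).E (f 1),
        (P (ev 1)).E (f 2) * (R (ev 0)).E (f 3) * (P (ev 2)).E (f 4), fun u hu h1 => by
        simp only [W5, word_five, h1 3 (by decide) (by decide) (by decide),
          h1 4 (by decide) (by decide) (by decide), mul_one, hP.right 0 (hf 0) (hu 0),
          hR.right 2 (hf 1) (hu 1), hP.left 1 (hf 2) (hu 2), mul_assoc,
          hR.swap (i := 2) (k := 0) (by decide) (hf 1) (hu 0).1]⟩) hz (h0 0) (h0 1) (h0 2)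
  have n2 : ∀ z ∈ supp (W5 P R), (∀ i, z i ≠ 0) →
      z ∈ closure (supp (W5 P R) ∩ {z | z 2 ⨯₃ z 4 ≠ 0}) := fun z hz h0 =>
    h.nd (x := ev 1) (x' := ev 2) (y := ev 0) (Geo2.ev12 ▸ ev_ne_zero 0) (ev_ne_zero 0)
      (dot_ne (by decide)) (dot_ne (by decide)) hW (i := 2) (l := 3) (k := 4) (by decide)
      (by decide) (by decide) (fun f hf => ⟨(P (ev 0)).E (f 0) * (R (ev 2)).E (f 1) *
        (P (ev 1)).E (f 2) * (R (ev 0)).E (f 3), (P (ev 2)).E (f 4), fun u hu h1 => by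
        simp only [W5, word_five, h1 0 (by decide) (by decide) (by decide),
          h1 1 (by decide) (by decide) (by decide), mul_one, hP.right 1 (hf 2) (hu 2),
          hR.right 0 (hf 3) (hu 3), hP.left 2 (hf 4) (hu 4), mul_assoc,
          hR.swap (i := 0) (k := 1) (by decide) (hf 3) (hu 2).1]⟩) hz (h0 2) (h0 3) (h0 4)
  have n3 : ∀ z ∈ supp (W5 P R), (∀ i, z i ≠ 0) →
      z ∈ closure (supp (W5 P R) ∩ {z | z 1 ⨯₃ z 3 ≠ 0}) := fun z hz h0 =>
    h.symm.nd (x := ev 2) (x' := ev 0) (y := ev 1) ev20 (ev_ne_zero 1)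
      (dot_ne (by decide)) (dot_ne (by decide)) hW (i := 1) (l := 2) (k := 3) (by decide)
      (by decide) (by decide) (fun f hf => ⟨(P (ev 0)).E (f 0) * (R (ev 2)).E (f 1) *
        (P (ev 1)).E (f 2), (R (ev 0)).E (f 3) * (P (ev 2)).E (f 4), fun u hu h1 => by
        simp only [W5, word_five, h1 0 (by decide) (by decide) (by decide),
          h1 4 (by decide) (by decide) (by decide), mul_one, hR.right 2 (hf 1) (hu 1),
          hP.right 1 (hf 2) (hu 2), hR.left 0 (hf 3) (hu 3), mul_assoc,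
          hP.swap (i := 1) (k := 2) (by decide) (hf 2) (hu 1).1]⟩) hz (h0 1) (h0 2) (h0 3)
  have hU1 := hU.inter (isOpen_cross 0 2)
  have hU2 := hU1.inter (isOpen_cross 2 4)
  have s1 := step hU fun z hz => n1 z hz.1 hz.2
  have s2 := step hU1 fun z hz => n2 z hz.1 hz.2.1
  have s3 := step hU2 fun z hz => n3 z hz.1 hz.2.1.1
  refine closure_mono (fun w hw => ?_) (closure_minimal s3 isClosed_closure
    (closure_minimal s2 isClosed_closure (s1 ⟨hz, h0⟩)))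
  exact ⟨hw.1, hw.2.1.1.1, hw.2.1.1.2, hw.2.1.2, hw.2.2⟩

/-- the line through two points is unique -/
theorem cross_eq_zero {a a' b b' : V} (h : a ⨯₃ a' ≠ 0) (h1 : a ⬝ᵥ b = 0) (h2 : a' ⬝ᵥ b = 0)
    (h3 : a ⬝ᵥ b' = 0) (h4 : a' ⬝ᵥ b' = 0) : b ⨯₃ b' = 0 := by
  have key : ∀ c : V, a ⬝ᵥ c = 0 → a' ⬝ᵥ c = 0 → ∃ s : ℝ, c = s • (a ⨯₃ a') := fun c e e' =>
    exists_smul_of_cross_eq_zero h (by
      rw [cross_cross_eq_smul_sub_smul, dotProduct_comm a' c, e]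
      rw [dotProduct_comm] at e'
      simp [e'])
  obtain ⟨s, rfl⟩ := key b h1 h2
  obtain ⟨t, rfl⟩ := key b' h3 h4
  simp

theorem inc_of_supp (h : Geo I I' L Φ Ψ A B sc sc') {z : Fin 5 → V} (hz : z ∈ supp (W5 Φ Ψ)) :
    z 0 ⬝ᵥ z 1 = 0 ∧ z 2 ⬝ᵥ z 1 = 0 ∧ z 2 ⬝ᵥ z 3 = 0 ∧ z 4 ⬝ᵥ z 3 = 0 := by
  have i1 : ∀ {i k : Fin 3}, i ≠ k → Inc (Φ (ev i)) (Ψ (ev k)) := fun {i k} hik =>
    h.inc.inc _ _ (ev_ne_zero i) (ev_ne_zero k) (dot_ne hik)
  refine ⟨?_, ?_, ?_, ?_⟩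
  · exact i1 (i := 0) (k := 2) (by decide) _ (mem_supp_of_factor (e := ![0, 1]) (by decide)
      (fun f _ => ⟨1, (Φ (ev 1)).E (f 2) * (Ψ (ev 0)).E (f 3) * (Φ (ev 2)).E (f 4), by
        simp [W5, mul_assoc]⟩) hz)
  · rw [dotProduct_comm]
    exact (i1 (i := 1) (k := 2) (by decide)).symm _ (mem_supp_of_factor (e := ![1, 2]) (by decide)
      (fun f _ => ⟨(Φ (ev 0)).E (f 0), (Ψ (ev 0)).E (f 3) * (Φ (ev 2)).E (f 4), by
        simp [W5, mul_assoc]⟩) hz)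
  · exact i1 (i := 1) (k := 0) (by decide) _ (mem_supp_of_factor (e := ![2, 3]) (by decide)
      (fun f _ => ⟨(Φ (ev 0)).E (f 0) * (Ψ (ev 2)).E (f 1), (Φ (ev 2)).E (f 4), by
        simp [W5, mul_assoc]⟩) hz)
  · rw [dotProduct_comm]
    exact (i1 (i := 2) (k := 0) (by decide)).symm _ (mem_supp_of_factor (e := ![3, 4]) (by decide)
      (fun f _ => ⟨(Φ (ev 0)).E (f 0) * (Ψ (ev 2)).E (f 1) * (Φ (ev 1)).E (f 2), 1, by
        simp [W5, mul_assoc]⟩) hz)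

/-- a projective commutation relation between two one parameter groups is a Weyl relation -/
theorem phase [Nontrivial K] {u w : ℝ → K →L[ℂ] K} (hu : SCont u) (hw : SCont w)
    (ua : ∀ s t, u (s + t) = u s * u t) (wa : ∀ s t, w (s + t) = w s * w t)
    (un : ∀ s η, ‖u s η‖ = ‖η‖) (wn : ∀ s η, ‖w s η‖ = ‖η‖)
    (h : ∀ s t, ∃ c : ℂ, u s * w t = c • (w t * u s)) :
    ∃ θ : ℝ, ∀ s t, u s * w t = ex (θ * s * t) • (w t * u s) := by
  choose χ hχ using h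
  obtain ⟨ξ, hξ⟩ := exists_ne (0 : K)
  have hn : ‖ξ‖ ≠ 0 := norm_ne_zero_iff.2 hξ
  have hwu : ∀ s t, ‖(w t * u s) ξ‖ = ‖ξ‖ := fun s t => by rw [mul_apply_eq_comp, wn, un]
  have uniq : ∀ s t (c : ℂ), u s * w t = c • (w t * u s) → χ s t = c := fun s t c e =>
    smul_left_injective ℂ (m := w t * u s)
      (fun e0 => hn (by rw [← hwu s t, e0]; simp)) ((hχ s t).symm.trans e)
  have hc : Continuous fun p : ℝ × ℝ => χ p.1 p.2 := by
    have cu : SCont fun p : ℝ × ℝ => u p.1 := ⟨fun η => (hu.1 η).comp continuous_fst,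
      hu.2.imp fun C hC p => hC _⟩
    have cw : SCont fun p : ℝ × ℝ => w p.2 := ⟨fun η => (hw.1 η).comp continuous_snd,
      hw.2.imp fun C hC p => hC _⟩
    refine ((((cw.mul cu).1 ξ).inner (𝕜 := ℂ) ((cu.mul cw).1 ξ)).div_const
      ((‖ξ‖ : ℂ) ^ 2)).congr fun p => ?_
    simp only [hχ p.1 p.2, _root_.smul_apply, inner_smul_right, inner_self_eq_norm_sq_to_K, hwu]
    exact mul_div_cancel_right₀ _ (pow_ne_zero 2 (Complex.ofReal_ne_zero.2 hn))
  obtain ⟨θ, hθ⟩ := exists_bichar hc (fun s s' t => uniq _ _ _ (by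
      rw [ua, mul_assoc, hχ s' t, mul_smul_comm, ← mul_assoc, hχ s t, smul_mul_assoc, smul_smul,
        mul_comm (χ s' t), mul_assoc]))
    (fun s t t' => uniq _ _ _ (by
      rw [wa, ← mul_assoc, hχ s t, smul_mul_assoc, mul_assoc, hχ s t', mul_smul_comm, smul_smul,
        mul_assoc]))
    fun s t => by
      have e := congrArg (fun T : K →L[ℂ] K => ‖T ξ‖) (hχ s t)
      simp only [_root_.smul_apply, norm_smul, mul_apply_eq_comp, un, wn] at e
      exact (mul_eq_right₀ hn).1 e.symm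
  exact ⟨θ, fun s t => hθ s t ▸ hχ s t⟩

theorem sCont_lg (Q : POVM V K) : SCont fun t => Q.E (lg t) :=
  Q.sCont_E (C := 1) (fun t => (bm_lg t).meas) (fun t a => (norm_lg t a).le) fun a => by
    unfold lg; fun_prop

theorem lg_mul {Q : POVM V K} (hQ : Q.IsPVM) (s t : ℝ) :
    Q.E (lg (s + t)) = Q.E (lg s) * Q.E (lg t) := by
  rw [← hQ _ _ (bm_lg s) (bm_lg t)]
  exact congrArg _ (funext (lg_add s t))

theorem lg_neg {Q : POVM V K} (hQ : Q.IsPVM) (s : ℝ) : Q.E (lg (-s)) * Q.E (lg s) = 1 := by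
  rw [← lg_mul hQ, neg_add_cancel, ← Q.E_one]
  exact congrArg _ (funext fun a => by simp [lg])

theorem cz_neg {Q : POVM V K} (hQ : Q.IsPVM) (g : G) (s : ℝ) :
    Q.E (cz g s) * Q.E (cz g (-s)) = 1 := by
  rw [← hQ _ _ (bm_cz g s) (bm_cz g _), ← Q.E_one]
  exact congrArg _ (funext fun a => by simp [cz, ← ex_add])

theorem alg {M : Type} [Monoid M] {u w u' w' a b a' b' : M} (ha : a * a' = 1) (hb : b * b' = 1)
    (aw : Commute a w) (ab : Commute a b) (au : Commute a u') (bu : Commute b u')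
    (bw : Commute b w') : u * a * (w * b) * (u' * a') * (w' * b') = u * w * u' * w' := by
  calc _ = u * (a * (w * b * u')) * a' * (w' * b') := by simp only [mul_assoc]
    _ = u * w * (b * u') * (a * a') * (w' * b') := by
      rw [((aw.mul_right ab).mul_right au).eq]; simp only [mul_assoc]
    _ = u * w * u' * (b * w') * b' := by rw [ha, bu.eq]; simp only [mul_assoc, one_mul]
    _ = _ := by rw [bw.eq]; simp only [mul_assoc, hb, mul_one]

theorem conj_mul {M : Type} [Monoid M] {r r' : M} (h : r' * r = 1) (X Y : M) :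
    r * (X * Y) * r' = r * X * r' * (r * Y * r') := by
  simp only [mul_assoc, ← mul_assoc r' r, h, one_mul]

theorem commute_of_conj {M : Type} [Monoid M] {r r' X : M} (h : r' * r = 1)
    (e : r * X * r' = X) : Commute X r := by
  have := congrArg (· * r) e
  simp only [mul_assoc, h, mul_one] at this
  exact this.symm

theorem scalar (h : Geo I I' L Φ Ψ A B sc sc') (s t : ℝ) : ∃ c : ℂ,
    (A (ev 0)).E (lg s) * (B (ev 2)).E (lg t) = c • ((B (ev 2)).E (lg t) * (A (ev 0)).E (lg s)) := by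
  have n0 := ev_ne_zero 0
  have n2 := ev_ne_zero 2
  have d02 : ev 0 ⬝ᵥ ev 2 = 0 := dot_ne (by decide)
  have ρB : ∀ ν t, I.ρ ν * (B (ev 2)).E (lg t) * I.ρ ν⁻¹
      = (B (ev 2)).E (lg t) * (Ψ (ev 2)).E (cz (ι (dl ν)⁻¹) t) := fun ν t => by
    have := h.lift'.ρ_lg n2 (dl ν) t
    rwa [h.dual.ρ_eq, h.dual.ρ_eq, dl_dl, map_inv, dl_dl] at this
  obtain ⟨c, hc⟩ := I.erg_Q (T := (A (ev 0)).E (lg s) * (B (ev 2)).E (lg t) *
      (A (ev 0)).E (lg (-s)) * (B (ev 2)).E (lg (-t)))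
    ⟨Ind.mul_N (Ind.mul_N (Ind.mul_N (h.lift.mem n0 (bm_lg _)) (h.memB n2 (bm_lg _)))
      (h.lift.mem n0 (bm_lg _))) (h.memB n2 (bm_lg _)), fun ν =>
      commute_of_conj (I.ρ.inv_mul_self ν) (by
        simp only [conj_mul (I.ρ.inv_mul_self ν), ρB, h.lift.ρ_lg n0]
        exact alg (cz_neg (h.pro.pvm _) _ _) (cz_neg (h.pro'.pvm _) _ _)
          (h.BΦ _ _ n0 n2 d02 _ _ (bm_cz _ _) (bm_lg _))
          (h.inc.comm _ _ n0 n2 d02 _ _ (bm_cz _ _) (bm_cz _ _))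
          (h.lift.commute_Φ n0 (bm_lg _) (bm_cz _ _)).symm
          (h.AΨ _ _ n0 n2 d02 _ _ (bm_lg _) (bm_cz _ _)).symm
          (h.lift'.commute_Φ n2 (bm_lg _) (bm_cz _ _)).symm)⟩
    (i := 0) (k := 2) (by decide) fun b => by
      have hA : ∀ s, Commute ((A (ev 0)).E (lg s)) (I.U (tv (show (0 : Fin 3) ≠ 2 by decide) b)) :=
        fun s => h.lift.commute_U n0 (by rw [ac_tv]; simp [ev]) (bm_lg s)
      have hB : ∀ s, Commute ((B (ev 2)).E (lg s)) (I.U (tv (show (0 : Fin 3) ≠ 2 by decide) b)) :=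
        fun s => commute_of_conj (I.U.inv_mul_self _) (by
          rw [h.covB n2 (bm_lg s), dl_tv, ac_tv]; simp [ev])
      exact (((hA _).mul_left (hB _)).mul_left (hA _)).mul_left (hB _)
  refine ⟨c, ?_⟩
  have := congrArg (· * ((B (ev 2)).E (lg t) * (A (ev 0)).E (lg s))) hc
  simp only [mul_assoc, ← mul_assoc ((B (ev 2)).E (lg (-t))), lg_neg (h.lift'.pvm _), one_mul,
    lg_neg (h.lift.pvm _), mul_one, smul_mul_assoc] at this
  exact this

theorem sCont_mul (Q : POVM V K) {g : V → ℂ} (hg : BM g) {φ : (Fin 18 → ℝ) → V → ℂ}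
    (hm : ∀ w, Measurable (φ w)) (hb : ∀ w a, ‖φ w a‖ ≤ 1) (hc : ∀ a, Continuous fun w => φ w a) :
    SCont fun w => Q.E fun a => g a * φ w a := by
  obtain ⟨C, hC0, hC⟩ := hg.exists_nonneg
  exact Q.sCont_E (C := C * 1) (fun w => hg.meas.mul (hm w)) (fun w a => by
    rw [norm_mul]; exact mul_le_mul (hC a) (hb w a) (norm_nonneg _) hC0)
    fun a => continuous_const.mul (hc a)

theorem hom0_mul {f g : V → ℂ} (hf : Hom0 f) (hg : Hom0 g) : Hom0 fun a => f a * g a :=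
  fun z hz a => by simp only [hf z hz, hg z hz]

/-- an opposite pair inside a word -/
theorem opp (h : Geo I I' L Φ Ψ A B sc sc') : ∃ t₀ > (0 : ℝ), ∀ t, |t| < t₀ → ∃ z : ℂ, z ≠ 0 ∧
    ∀ (i : Fin 3), ∀ θ > (0 : ℝ), ∀ c φ ψ, PRep θ t c φ ψ → ∀ g f : V → ℂ, BM g → Hom0 g →
      BM f → Hom0 f → (∀ b a, g b ≠ 0 → f a ≠ 0 → 2 * θ * (‖b‖ * ‖a‖) ≤ |b ⬝ᵥ a|) →
      ∀ S T : K →L[ℂ] K, Commute S ((B (ev i)).E (lg t)) → Commute T ((A (ev i)).E (lg t)) →
      (B (ev i)).E (lg t) * sInt volume c (fun w => S * ((Ψ (ev i)).E (fun b => g b * φ w b)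
        * (Φ (ev i)).E fun a => f a * ψ w a) * T) * (A (ev i)).E (lg t)
        = z • (S * ((Ψ (ev i)).E g * (Φ (ev i)).E f) * T) := by
  obtain ⟨t₀, ht₀, H⟩ := h.s8
  refine ⟨t₀, ht₀, fun t ht => ?_⟩
  obtain ⟨z, hz, H⟩ := H t ht
  refine ⟨z, hz, fun i θ hθ c φ ψ hp g f hg hg0 hf hf0 hs S T hS hT => ?_⟩
  have e := H (ev i) (ev i) (by simp [ev_dot_ev]) θ hθ c φ ψ hp g f hg hf hs
  have bφ : ∀ w, BM (fun b => g b * φ w b) ∧ Hom0 fun b => g b * φ w b := fun w =>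
    ⟨hg.mul (BM.of_le (hp.measφ w) (hp.bdφ w)), hom0_mul hg0 (hp.homφ w)⟩
  have bψ : ∀ w, BM (fun a => f a * ψ w a) ∧ Hom0 fun a => f a * ψ w a := fun w =>
    ⟨hf.mul (BM.of_le (hp.measψ w) (hp.bdψ w)), hom0_mul hf0 (hp.homψ w)⟩
  have e1 : ∀ w, (B (ev i)).E (fun b => g b * lg t b * φ w b)
      = (B (ev i)).E (lg t) * (Ψ (ev i)).E fun b => g b * φ w b := fun w => by
    rw [← (refA h.symm).right i (bm_lg t) (bφ w)]
    exact congrArg _ (funext fun b => by ring)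
  have e2 : ∀ w, (A (ev i)).E (fun a => f a * lg t a * ψ w a)
      = (Φ (ev i)).E (fun a => f a * ψ w a) * (A (ev i)).E (lg t) := fun w => by
    rw [← (refA h).left i (bm_lg t) (bψ w)]
    exact congrArg _ (funext fun b => by ring)
  have hX := (sCont_mul (Ψ (ev i)) hg hp.measφ hp.bdφ hp.contφ).mul
    (sCont_mul (Φ (ev i)) hf hp.measψ hp.bdψ hp.contψ)
  simp only [e1, e2, h.lift.hom0 (ev_ne_zero i) hf hf0, h.lift'.hom0 (ev_ne_zero i) hg hg0,
    mul_assoc ((B (ev i)).E (lg t)), ← mul_assoc ((Ψ (ev i)).E _)] at e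
  rw [← mul_sInt hp.int (hX.mul (SCont.const _)), ← sInt_mul hp.int hX] at e
  rw [← sInt_mul hp.int ((SCont.const S).mul hX), ← mul_sInt hp.int hX, ← smul_mul_assoc,
    ← mul_smul_comm, ← e]
  simp only [← mul_assoc, hS.eq]
  simp only [mul_assoc, hT.eq]

theorem two_orders {Ω : Type} [TopologicalSpace Ω] [SecondCountableTopology Ω] [MeasurableSpace Ω]
    [OpensMeasurableSpace Ω] {m : Measure Ω} [SFinite m] {c c' : Ω → ℂ} (hc : Integrable c m)
    (hc' : Integrable c' m) {F : Ω → Ω → K →L[ℂ] K} (hF : SCont fun p : Ω × Ω => F p.1 p.2)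
    {F₁ F₂ : Ω → K →L[ℂ] K} (hF₁ : SCont F₁) (hF₂ : SCont F₂) {W u w u' w' : K →L[ℂ] K} {z z' : ℂ}
    (h₁ : ∀ ω, u * sInt m c' (F ω) * w = z' • F₁ ω) (h₁' : w' * sInt m c F₁ * u' = z • W)
    (h₂ : ∀ ω', w' * sInt m c (fun ω => F ω ω') * u' = z • F₂ ω')
    (h₂' : u * sInt m c' F₂ * w = z' • W) :
    ∃ D, w' * (u * D * w) * u' = (z * z') • W ∧ u * (w' * D * u') * w = (z * z') • W := by
  have s₁ := sCont_sInt hc' hF
  have s₂ : SCont fun ω' => sInt m c fun ω => F ω ω' := sCont_sInt (F := fun ω' ω => F ω ω') hc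
    ⟨fun η => (hF.1 η).comp continuous_swap, hF.2.imp fun C hC p => hC p.swap⟩
  refine ⟨sInt m c fun ω => sInt m c' (F ω), ?_, ?_⟩
  · rw [mul_sInt hc s₁, sInt_mul hc ((SCont.const _).mul s₁)]
    simp only [h₁]
    rw [Py.sInt_smul hc hF₁, mul_smul_comm, smul_mul_assoc, h₁', smul_smul, mul_comm]
  · rw [sInt_swap hc hc' hF, mul_sInt hc' s₂, sInt_mul hc' ((SCont.const _).mul s₂)]
    simp only [h₂]
    rw [Py.sInt_smul hc' hF₂, mul_smul_comm, smul_mul_assoc, h₂', smul_smul]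

theorem eq_zero_of_ex {a t₀ : ℝ} (ht₀ : 0 < t₀) (h : ∀ t, |t| < t₀ → ex (a * t) = 1) : a = 0 := by
  have h1 : 0 < 1 / (|a| + 1) := by positivity
  set t := min (t₀ / 2) (1 / (|a| + 1)) with ht
  have t0 : 0 < t := lt_min (half_pos ht₀) h1
  have e := congrArg Complex.re (h t (by
    rw [abs_of_pos t0]; exact (min_le_left _ _).trans_lt (half_lt_self ht₀)))
  rw [ex, mul_comm, Complex.exp_ofReal_mul_I_re, Complex.one_re] at e
  have b : |a * t| < 1 := by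
    rw [abs_mul, abs_of_pos t0]
    refine (mul_le_mul_of_nonneg_left (min_le_right _ _) (abs_nonneg a)).trans_lt ?_
    rw [mul_one_div, div_lt_one (by positivity)]
    linarith
  have := Real.pi_gt_three
  rw [abs_lt] at b
  exact (mul_eq_zero.1 ((Real.cos_eq_one_iff_of_lt_of_lt (by linarith) (by linarith)).1
    e)).resolve_right t0.ne'

end Ccr

open Ccr

/-- nondegenerate points are dense in the support -/
theorem Geo.nd5 (h : Geo I I' L Φ Ψ A B sc sc') {z : Fin 5 → V} (hz : z ∈ supp (W5 A B))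
    (h0 : ∀ i, z i ≠ 0) : z ∈ closure {z' ∈ supp (W5 A B) | (∀ i, z' i ≠ 0) ∧
      z' 0 ⨯₃ z' 2 ≠ 0 ∧ z' 2 ⨯₃ z' 4 ≠ 0 ∧ z' 1 ⨯₃ z' 3 ≠ 0} :=
  Ccr.nd5 h (refA h) (refA h.symm) hz h0

theorem Geo.nd5' (h : Geo I I' L Φ Ψ A B sc sc') : ∃ z ∈ supp (W5 Φ Ψ), (∀ i, z i ≠ 0) ∧
    z 1 ⬝ᵥ z 4 ≠ 0 ∧ z 0 ⬝ᵥ z 3 ≠ 0 := by
  have := I.nontrivial
  obtain ⟨z, hz, h0⟩ := exists_mem_supp_word
    (P := ![Φ (ev 0), Ψ (ev 2), Φ (ev 1), Ψ (ev 0), Φ (ev 2)]) fun i => by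
      fin_cases i
      exacts [(h.pro.proj _).sym, (h.pro'.proj _).sym, (h.pro.proj _).sym, (h.pro'.proj _).sym,
        (h.pro.proj _).sym]
  obtain ⟨w, hw, w0, c1, c2, c3⟩ :=
    closure_nonempty_iff.1 ⟨z, Ccr.nd5 h (refΦ h) (refΦ h.symm) hz h0⟩
  obtain ⟨i1, i2, i3, i4⟩ := inc_of_supp h hw
  exact ⟨w, hw, w0, fun e => c3 (cross_eq_zero c2 i2 (by rwa [dotProduct_comm]) i3 i4),
    fun e => c3 (cross_eq_zero c1 i1 i2 e i3)⟩

/-- a nonzero five letter word localised off the incidence variety -/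
theorem Ccr.exists_loc (h : Geo I I' L Φ Ψ A B sc sc') : ∃ θ > (0 : ℝ), ∃ θ' > (0 : ℝ),
    ∃ f : Fin 5 → V → ℂ, (∀ k, BM (f k) ∧ Hom0 (f k)) ∧ W5 Φ Ψ f ≠ 0 ∧
      (∀ b a, f 1 b ≠ 0 → f 4 a ≠ 0 → 2 * θ * (‖b‖ * ‖a‖) ≤ |b ⬝ᵥ a|) ∧
      ∀ b a, f 0 b ≠ 0 → f 3 a ≠ 0 → 2 * θ' * (‖b‖ * ‖a‖) ≤ |b ⬝ᵥ a| := by
  obtain ⟨z, hz, h0, h1, h2⟩ := h.nd5'
  obtain ⟨θ, hθ, O₁, hO₁, O₄, hO₄, H⟩ := exists_ni h1
  obtain ⟨θ', hθ', O₀, hO₀, O₃, hO₃, H'⟩ := exists_ni h2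
  let O : Fin 5 → Set V := ![O₀, O₁, Set.univ, O₃, O₄]
  have hO : ∀ k, O k ∩ {0}ᶜ ∈ 𝓝 (z k) := fun k =>
    inter_mem (by fin_cases k; exacts [hO₀, hO₁, univ_mem, hO₃, hO₄])
      (isOpen_compl_singleton.mem_nhds (h0 k))
  obtain ⟨f, hf⟩ := not_forall.1 (hz _ hO)
  obtain ⟨hf, hf0, hW⟩ : (∀ k, BM (f k)) ∧ (∀ k y, y ∉ O k ∩ {0}ᶜ → f k y = 0) ∧ W5 Φ Ψ f ≠ 0 := by
    simpa only [Classical.not_imp] using hf
  have hc : ∀ k a, f k (sg (nrm a)) ≠ 0 → a ∈ cone (O k) := fun k a ha =>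
    Ap2.cone_mono Set.inter_subset_left
      (mem_cone_of_sg_nrm (fun h0 => h0.2 rfl) (not_not.1 fun e => ha (hf0 k _ e)))
  refine ⟨θ / 2, half_pos hθ, θ' / 2, half_pos hθ', fun k a => f k (sg (nrm a)),
    fun k => ⟨(hf k).sg_nrm, hom0_sg_nrm _⟩, ?_, fun b a hb ha => ?_, fun b a hb ha => ?_⟩
  · simpa only [W5, word_five, ← h.pro.conc _ _ (hf _), ← h.pro'.conc _ _ (hf _)] using hW
  · rw [mul_div_cancel₀ _ two_ne_zero]
    exact H b (hc 1 b hb) a (hc 4 a ha)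
  · rw [mul_div_cancel₀ _ two_ne_zero]
    exact H' b (hc 0 b hb) a (hc 3 a ha)

/-- the commutation phase -/
theorem Geo.exists_phase (h : Geo I I' L Φ Ψ A B sc sc') : ∃ θ : ℝ, ∀ x y : V, x ≠ 0 → y ≠ 0 →
    x ⬝ᵥ y = 0 → ∀ s t, (A x).E (lg s) * (B y).E (lg t)
      = ex (θ * s * t) • ((B y).E (lg t) * (A x).E (lg s)) := by
  have := I.nontrivial
  obtain ⟨θ, hθ⟩ := phase (sCont_lg (A (ev 0))) (sCont_lg (B (ev 2))) (lg_mul (h.lift.pvm _))
    (lg_mul (h.lift'.pvm _))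
    (fun s η => ContinuousLinearMap.norm_map_of_mem_unitary (h.lift.lg_unitary _ s) η)
    (fun s η => ContinuousLinearMap.norm_map_of_mem_unitary (h.lift'.lg_unitary _ s) η) (scalar h)
  refine ⟨θ, fun x y hx hy hxy s t => ?_⟩
  obtain ⟨g, rfl, rfl⟩ := exists_ac_flag hx hy hxy
  rw [← h.lift.covU _ (ev_ne_zero 0) _ (bm_lg s), ← h.covB (ev_ne_zero 2) (bm_lg t),
    ← conj_mul (I.U.inv_mul_self g), ← conj_mul (I.U.inv_mul_self g), hθ, mul_smul_comm,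
    smul_mul_assoc]

/-- lifts commute on flags -/
theorem Geo.AB_inc (h : Geo I I' L Φ Ψ A B sc sc') {x y : V} (hx : x ≠ 0) (hy : y ≠ 0)
    (hxy : x ⬝ᵥ y = 0) {f g : V → ℂ} (hf : BM f) (hg : BM g) :
    Commute ((A x).E f) ((B y).E g) := by
  obtain ⟨θ, hθ⟩ := h.exists_phase
  suffices θ = 0 by
    subst this
    refine h.lift'.commute_of hy (fun g hg => h.AΨ x y hx hy hxy f g hf hg) (fun t => ?_) hg
    refine (h.lift.commute_of hx (fun g hg => (h.BΦ x y hx hy hxy g _ hg (bm_lg t)).symm)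
      (fun s => Commute.symm ?_) hf).symm
    simpa [commute_iff_eq] using hθ x y hx hy hxy s t
  obtain ⟨θ₁, p₁, θ₂, p₂, f, hf, hW, s₁, s₂⟩ := exists_loc h
  obtain ⟨t₀, ht₀, H⟩ := Ccr.opp h
  obtain ⟨s₀, hs₀, H'⟩ := Ccr.opp h.symm
  have n := ev_ne_zero
  have d : ∀ {i k : Fin 3}, i ≠ k → ev i ⬝ᵥ ev k = 0 := dot_ne
  have key : ∀ s, |s| < s₀ → ∀ t, |t| < t₀ → ex (θ * s * t + θ * t * s) = 1 := fun s hs t ht => by
    obtain ⟨z, hz, H⟩ := H t ht
    obtain ⟨z', hz', H'⟩ := H' s hs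
    obtain ⟨c, φ, ψ, hp⟩ := exists_pRep p₁ t
    obtain ⟨c', φ', ψ', hp'⟩ := exists_pRep p₂ s
    let Y : (V → ℂ) → (V → ℂ) → (V → ℂ) → (V → ℂ) → K →L[ℂ] K := fun a b c d =>
      (Φ (ev 0)).E a * (Ψ (ev 2)).E b * (Φ (ev 1)).E (f 2) * (Ψ (ev 0)).E c * (Φ (ev 2)).E d
    have r₁ : ∀ a b c d, BM b → BM c → BM d → Y a b c d = (Φ (ev 0)).E a * (Φ (ev 1)).E (f 2) *
        ((Ψ (ev 2)).E b * (Φ (ev 2)).E d) * (Ψ (ev 0)).E c := fun a b c d hb hc hd => by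
      simp only [Y, mul_assoc, (refΦ h).swap (i := 1) (k := 2) (by decide) (hf 2).1 hb,
        (h.inc.comm _ _ (n 2) (n 0) (dot_ne (by decide)) d c hd hc).eq]
    have r₂ : ∀ a b c d, BM a → BM b → BM c → Y a b c d = (Ψ (ev 2)).E b * ((Φ (ev 0)).E a *
        (Ψ (ev 0)).E c) * ((Φ (ev 1)).E (f 2) * (Φ (ev 2)).E d) := fun a b c d ha hb hc => by
      simp only [Y, mul_assoc, (refΦ h).swap (i := 0) (k := 2) (by decide) ha hb,
        (refΦ h).swap (i := 1) (k := 0) (by decide) (hf 2).1 hc]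
    have bm : ∀ k {φ : V → ℂ}, Measurable φ → (∀ a, ‖φ a‖ ≤ 1) → BM fun a => f k a * φ a :=
      fun k φ h1 h2 => (hf k).1.mul (BM.of_le h1 h2)
    have K₁ : ∀ a c₃, BM a → BM c₃ → (B (ev 2)).E (lg t) * sInt volume c (fun w =>
        Y a (fun b => f 1 b * φ w b) c₃ fun b => f 4 b * ψ w b) * (A (ev 2)).E (lg t)
        = z • Y a (f 1) c₃ (f 4) := fun a c₃ ha hc => by
      simp only [r₁ a _ c₃ _ (bm 1 (hp.measφ _) (hp.bdφ _)) hc (bm 4 (hp.measψ _) (hp.bdψ _)),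
        r₁ a _ c₃ _ (hf 1).1 hc (hf 4).1]
      exact H 2 θ₁ p₁ c φ ψ hp _ _ (hf 1).1 (hf 1).2 (hf 4).1 (hf 4).2 s₁ _ _
        ((h.BΦ _ _ (n 0) (n 2) (d (by decide)) _ _ ha (bm_lg t)).mul_left
          (h.BΦ _ _ (n 1) (n 2) (d (by decide)) _ _ (hf 2).1 (bm_lg t)))
        (h.AΨ _ _ (n 2) (n 0) (d (by decide)) _ _ (bm_lg t) hc).symm
    have K₂ : ∀ b d₄, BM b → BM d₄ → (A (ev 0)).E (lg s) * sInt volume c' (fun w =>
        Y (fun a => f 0 a * φ' w a) b (fun a => f 3 a * ψ' w a) d₄) * (B (ev 0)).E (lg s)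
        = z' • Y (f 0) b (f 3) d₄ := fun b d₄ hb hd => by
      simp only [r₂ _ b _ d₄ (bm 0 (hp'.measφ _) (hp'.bdφ _)) hb (bm 3 (hp'.measψ _) (hp'.bdψ _)),
        r₂ _ b _ d₄ (hf 0).1 hb (hf 3).1]
      exact H' 0 θ₂ p₂ c' φ' ψ' hp' _ _ (hf 0).1 (hf 0).2 (hf 3).1 (hf 3).2 s₂ _ _
        (h.AΨ _ _ (n 0) (n 2) (d (by decide)) _ _ (bm_lg s) hb).symm
        ((h.BΦ _ _ (n 1) (n 0) (d (by decide)) _ _ (hf 2).1 (bm_lg s)).mul_left
          (h.BΦ _ _ (n 2) (n 0) (d (by decide)) _ _ hd (bm_lg s)))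
    have c₀ := sCont_mul (Φ (ev 0)) (hf 0).1 hp'.measφ hp'.bdφ hp'.contφ
    have c₁ := sCont_mul (Ψ (ev 2)) (hf 1).1 hp.measφ hp.bdφ hp.contφ
    have c₃ := sCont_mul (Ψ (ev 0)) (hf 3).1 hp'.measψ hp'.bdψ hp'.contψ
    have c₄ := sCont_mul (Φ (ev 2)) (hf 4).1 hp.measψ hp.bdψ hp.contψ
    have fst : ∀ {F : (Fin 18 → ℝ) → K →L[ℂ] K}, SCont F →
        SCont fun p : (Fin 18 → ℝ) × (Fin 18 → ℝ) => F p.1 := fun hF =>
      ⟨fun η => (hF.1 η).comp continuous_fst, hF.2.imp fun C hC p => hC _⟩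
    have snd : ∀ {F : (Fin 18 → ℝ) → K →L[ℂ] K}, SCont F →
        SCont fun p : (Fin 18 → ℝ) × (Fin 18 → ℝ) => F p.2 := fun hF =>
      ⟨fun η => (hF.1 η).comp continuous_snd, hF.2.imp fun C hC p => hC _⟩
    obtain ⟨D, e₁, e₂⟩ := two_orders hp.int hp'.int
      (F := fun w w' => Y (fun a => f 0 a * φ' w' a) (fun b => f 1 b * φ w b)
        (fun a => f 3 a * ψ' w' a) fun b => f 4 b * ψ w b)
      (((((snd c₀).mul (fst c₁)).mul (SCont.const _)).mul (snd c₃)).mul (fst c₄))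
      (((((SCont.const _).mul c₁).mul (SCont.const _)).mul (SCont.const _)).mul c₄)
      ((((c₀.mul (SCont.const _)).mul (SCont.const _)).mul c₃).mul (SCont.const _))
      (fun w => K₂ _ _ (bm 1 (hp.measφ _) (hp.bdφ _)) (bm 4 (hp.measψ _) (hp.bdψ _)))
      (K₁ _ _ (hf 0).1 (hf 3).1)
      (fun w => K₁ _ _ (bm 0 (hp'.measφ _) (hp'.bdφ _)) (bm 3 (hp'.measψ _) (hp'.bdψ _)))
      (K₂ _ _ (hf 1).1 (hf 4).1)
    have e₃ : (z * z') • Y (f 0) (f 1) (f 3) (f 4)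
        = (ex (θ * s * t + θ * t * s) * (z * z')) • Y (f 0) (f 1) (f 3) (f 4) := by
      rw [mul_smul (ex _), ← e₂]
      nth_rewrite 2 [e₂]
      rw [← e₁]
      simp only [← mul_assoc, hθ _ _ (n 0) (n 2) (d (by decide)) s t]
      simp only [mul_assoc, hθ _ _ (n 2) (n 0) (d (by decide)) t s, smul_mul_assoc, mul_smul_comm,
        smul_smul, ex_add]
    have hY : Y (f 0) (f 1) (f 3) (f 4) ≠ 0 := by simpa only [W5, word_five] using hW
    exact (mul_eq_right₀ (mul_ne_zero hz hz')).1 (smul_left_injective ℂ hY e₃).symm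
  have := eq_zero_of_ex (a := θ * s₀) ht₀ fun t ht => by
    rw [← key (s₀ / 2) (by rw [abs_of_pos (half_pos hs₀)]; exact half_lt_self hs₀) t ht]
    congr 1
    ring
  exact (mul_eq_zero.1 this).resolve_right hs₀.ne'

end Crest.Agent.N111
end

-- ▼ part N111/F/Opp
section

/-!
# Row 111, module F: opposite pairs are never incident (`Geo.opp0`, the statement `Geo.opp` with
`F5` unfolded).
-/

set_option autoImplicit false
set_option linter.unusedSectionVars false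
set_option linter.unusedVariables false

namespace Crest.Agent.N111

open MeasureTheory Topology Filter Matrix
open scoped InnerProductSpace

variable {K : Type} [NormedAddCommGroup K] [InnerProductSpace ℂ K] [CompleteSpace K]

variable {I I' : Ind K} {L : ℕ → ℝ} {Φ Ψ A B : V → POVM V K} {sc sc' : ℝ → ℝ}

theorem Opp.alg {a b a' b' : V} {k k' : ℝ} (hk : 0 < k) (hk' : 0 < k') (ha' : a' ≠ 0)
    (h1 : a ⨯₃ a' = k • b ∨ a ⨯₃ a' = -(k • b)) (h2 : b ⨯₃ b' = k' • a' ∨ b ⨯₃ b' = -(k' • a'))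
    (h3 : a' ⬝ᵥ b' = 0) : |a ⬝ᵥ b'| = k * k' := by
  have e : ‖(a ⨯₃ a') ⨯₃ b'‖ = |a ⬝ᵥ b'| * ‖a'‖ := by
    rw [cross_cross_eq_smul_sub_smul, h3, zero_smul, sub_zero, norm_smul, Real.norm_eq_abs]
  have e' : ‖(a ⨯₃ a') ⨯₃ b'‖ = k * k' * ‖a'‖ := by
    rcases h1 with h1 | h1 <;> rcases h2 with h2 | h2 <;>
      simp [h1, h2, norm_smul, abs_of_pos hk, abs_of_pos hk', mul_assoc]
  exact mul_right_cancel₀ (norm_ne_zero_iff.2 ha') (e.symm.trans e')

theorem Geo.opp0 (h : Geo I I' L Φ Ψ A B sc sc') {k k' : ℝ} (hk : 0 < k) (hk' : 0 < k')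
    (h5 : ∀ x x' y : V, y ≠ 0 → (x ⨯₃ x' = y ∨ x ⨯₃ x' = -y) →
      ∀ z ∈ supp (word ![A x, B y, A x']), (∀ i, z i ≠ 0) →
        z 0 ⨯₃ z 2 = k • z 1 ∨ z 0 ⨯₃ z 2 = -(k • z 1))
    (h5' : ∀ x x' y : V, y ≠ 0 → (x ⨯₃ x' = y ∨ x ⨯₃ x' = -y) →
      ∀ z ∈ supp (word ![B x, A y, B x']), (∀ i, z i ≠ 0) →
        z 0 ⨯₃ z 2 = k' • z 1 ∨ z 0 ⨯₃ z 2 = -(k' • z 1))
    {x y : V} (hxy : x ⬝ᵥ y = 1) {z : Fin 2 → V}
    (hz : z ∈ supp (word ![A x, B y])) (h0 : ∀ i, z i ≠ 0) : |z 0 ⬝ᵥ z 1| = k * k' := by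
  obtain ⟨g, rfl, rfl⟩ := exists_ac_opp hxy
  rw [← supp_word_conj (P := ![A (ev 0), B (ev 0)]) (I.U.mem_unitary g) fun i f hf => by
    rw [URep.star_apply]
    fin_cases i
    exacts [h.lift.covU _ (ev_ne_zero 0) f hf g, h.covB (ev_ne_zero 0) hf g]] at hz
  by_contra hn
  have hO := (isClosed_eq (by fun_prop : Continuous fun z : Fin 2 → V => |z 0 ⬝ᵥ z 1|)
    (continuous_const (y := k * k'))).isOpen_compl.mem_nhds hn
  rw [nhds_pi, mem_pi'] at hO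
  obtain ⟨t, O, hO, hsub⟩ := hO
  have he : Function.Injective (![0, 3] : Fin 2 → Fin 4) := by decide
  obtain ⟨w, hw, w0, hO'⟩ := exists_lift_supp
    (isPoly_word ![A (ev 0), B (ev 2), A (ev 1), B (ev 0)]) (word_conc fun i => by
      fin_cases i
      exacts [h.lift.sym _, h.lift'.sym _, h.lift.sym _, h.lift'.sym _]) he (fun φ hφ => by
      have e0 := he.extend_apply φ (fun _ _ => (1 : ℂ)) 0
      have e3 := he.extend_apply φ (fun _ _ => (1 : ℂ)) 1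
      have e1 := Function.extend_apply' (f := (![0, 3] : Fin 2 → Fin 4)) φ (fun _ _ => (1 : ℂ)) 1
        (by decide)
      have e2 := Function.extend_apply' (f := (![0, 3] : Fin 2 → Fin 4)) φ (fun _ _ => (1 : ℂ)) 2
        (by decide)
      simp only [cons_val_zero, cons_val_one] at e0 e3
      rw [word_two, word_four, e0, e1, e2, e3, POVM.E_one, POVM.E_one, mul_one, mul_one])
    hz h0 hO
  have s012 := mem_supp_of_factor (W' := word ![A (ev 0), B (ev 2), A (ev 1)]) (e := ![0, 1, 2])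
    (by decide) (fun f hf => ⟨1, (B (ev 0)).E (f 3), by simp [mul_assoc]⟩) hw
  have s123 := mem_supp_of_factor (W' := word ![B (ev 2), A (ev 1), B (ev 0)]) (e := ![1, 2, 3])
    (by decide) (fun f hf => ⟨(A (ev 0)).E (f 0), 1, by simp [mul_assoc]⟩) hw
  have s23 := mem_supp_of_factor (W' := word ![A (ev 1), B (ev 0)]) (e := ![2, 3]) (by decide)
    (fun f hf => ⟨(A (ev 0)).E (f 0) * (B (ev 2)).E (f 1), 1, by simp [mul_assoc]⟩) hw
  have e20 : ev 2 ⨯₃ ev 0 = ev 1 := by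
    funext i; fin_cases i <;> simp [cross_apply, ev]
  exact hsub (show (fun i => w (![0, 3] i)) ∈ _ from fun i _ => hO' i) (Opp.alg hk hk' (w0 2)
    (h5 _ _ _ (ev_ne_zero 2) (Or.inl Geo2.ev01) _ s012 fun i => w0 _)
    (h5' _ _ _ (ev_ne_zero 1) (Or.inl e20) _ s123 fun i => w0 _)
    (h.incAB (ev_ne_zero 1) (ev_ne_zero 0) (by simp [ev_dot_ev]) _ s23))

end Crest.Agent.N111
end

-- ▼ part N111/F/F5
section

/-! # Row 111: the line through two points. -/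

set_option autoImplicit false
set_option linter.unusedSectionVars false
set_option linter.unusedVariables false
set_option maxHeartbeats 400000

namespace Crest.Agent.N111

open MeasureTheory Topology Filter Matrix
open scoped InnerProductSpace

variable {K : Type} [NormedAddCommGroup K] [InnerProductSpace ℂ K] [CompleteSpace K]

variable {I I' : Ind K} {L : ℕ → ℝ} {Φ Ψ A B : V → POVM V K} {sc sc' : ℝ → ℝ}


/-- the lifted line through two lifted points -/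
def F5 (A B : V → POVM V K) (k : ℝ) : Prop :=
  ∀ x x' y : V, y ≠ 0 → (x ⨯₃ x' = y ∨ x ⨯₃ x' = -y) → ∀ z ∈ supp (word ![A x, B y, A x']),
    (∀ i, z i ≠ 0) → z 0 ⨯₃ z 2 = k • z 1 ∨ z 0 ⨯₃ z 2 = -(k • z 1)

namespace F5a

theorem dot_ev {i k : Fin 3} (h : i ≠ k) : ev i ⬝ᵥ ev k = 0 := by rw [ev_dot_ev, if_neg h]

theorem exists_ratio {a b c : V} (hb : b ≠ 0) (h1 : a ⬝ᵥ b = 0) (h2 : b ⬝ᵥ c = 0) :
    ∃ v : ℝ, a ⨯₃ c = v • b :=
  exists_smul_of_cross_eq_zero hb (by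
    rw [cross_cross_eq_smul_sub_smul', h1, h2, zero_smul, zero_smul, sub_zero])

theorem ratio_eq {u b : V} {v : ℝ} (hb : b ≠ 0) (h : u = v • b) : ‖u‖ / ‖b‖ = |v| := by
  rw [h, norm_smul, mul_div_cancel_right₀ _ (norm_ne_zero_iff.2 hb), Real.norm_eq_abs]

theorem alg {a b c d e : V} {κ : ℝ} (hκ : 0 < κ) (hb : b ≠ 0) (hd : d ≠ 0) (h1 : a ⬝ᵥ b = 0)
    (h2 : b ⬝ᵥ c = 0) (h3 : c ⬝ᵥ d = 0) (h4 : d ⬝ᵥ e = 0) (n1 : a ⨯₃ c ≠ 0) (n2 : c ⨯₃ e ≠ 0)
    (n3 : b ⨯₃ d ≠ 0) (l1 : b ⬝ᵥ e ≠ 0 → |b ⬝ᵥ e| = κ) (l2 : d ⬝ᵥ a ≠ 0 → |d ⬝ᵥ a| = κ) :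
    ‖a ⨯₃ c‖ * ‖d‖ = ‖c ⨯₃ e‖ * ‖b‖ := by
  obtain ⟨w, hw⟩ := exists_ratio hb h1 h2
  obtain ⟨w', hw'⟩ := exists_ratio hd h3 h4
  have w0 : w ≠ 0 := fun e => n1 (by rw [hw, e, zero_smul])
  have w0' : w' ≠ 0 := fun e => n2 (by rw [hw', e, zero_smul])
  have e1 : b ⬝ᵥ e ≠ 0 := fun e0 => n3 (by
    have : b ⨯₃ (c ⨯₃ e) = 0 := by
      rw [cross_cross_eq_smul_sub_smul', e0, dotProduct_comm, h2, zero_smul, zero_smul, sub_zero]
    simpa [hw', w0'] using this)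
  have e2 : w * (b ⬝ᵥ e) = w' * (d ⬝ᵥ a) := by
    have := triple_product_permutation e a c
    rw [hw, hw', dotProduct_smul, dotProduct_smul, dotProduct_comm e, dotProduct_comm a] at this
    exact this
  have e3 : d ⬝ᵥ a ≠ 0 := fun e0 => mul_ne_zero w0 e1 (by rw [e2, e0, mul_zero])
  have e4 := congrArg abs e2
  rw [abs_mul, abs_mul, l1 e1, l2 e3, mul_left_inj' hκ.ne'] at e4
  rw [hw, hw', norm_smul, norm_smul, Real.norm_eq_abs, Real.norm_eq_abs, e4]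
  ring

theorem inc3 (h : Geo I I' L Φ Ψ A B sc sc') {x x' y : V} (hx : x ≠ 0) (hx' : x' ≠ 0) (hy : y ≠ 0)
    (h1 : x ⬝ᵥ y = 0) (h2 : y ⬝ᵥ x' = 0) {z : Fin 3 → V} (hz : z ∈ supp (word ![A x, B y, A x']))
    (h0 : z 1 ≠ 0) : ∃ v : ℝ, z 0 ⨯₃ z 2 = v • z 1 :=
  exists_ratio h0
    (h.incAB hx hy h1 _ (mem_supp_of_factor (W' := word ![A x, B y]) (e := ![0, 1]) (by decide)
      (fun f hf => ⟨1, (A x').E (f 2), by simp⟩) hz))
    (h.symm.incAB hy hx' h2 _ (mem_supp_of_factor (W' := word ![B y, A x']) (e := ![1, 2])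
      (by decide) (fun f hf => ⟨(A x).E (f 0), 1, by simp [mul_assoc]⟩) hz))

theorem supp_conj (h : Geo I I' L Φ Ψ A B sc sc') (g : G) {y : V}
    (hy : ac (dl g) (ev 2) = y ∨ ac (dl g) (ev 2) = -y) :
    supp (word ![A (ev 0), B (ev 2), A (ev 1)])
      = supp (word ![A (ac g (ev 0)), B y, A (ac g (ev 1))]) :=
  supp_word_conj (I.U.mem_unitary g) fun i f hf => by
    rw [URep.star_apply]
    fin_cases i
    · exact h.lift.covU _ (ev_ne_zero 0) f hf g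
    · refine (h.covB (ev_ne_zero 2) hf g).trans ?_
      rcases hy with e | e
      · rw [e]; rfl
      · rw [e]
        refine h.lift'.neg (fun e0 => ac_ne_zero (dl g) (ev_ne_zero 2) ?_) hf
        rw [e, e0, neg_zero]
    · exact h.lift.covU _ (ev_ne_zero 1) f hf g

theorem supp_cyc (h : Geo I I' L Φ Ψ A B sc sc') : supp (word ![A (ev 0), B (ev 2), A (ev 1)])
    = supp (word ![A (ev 1), B (ev 0), A (ev 2)]) := by
  obtain ⟨g, h0, h1⟩ := exists_ac_pair (x := ev 1) (x' := ev 2) (Geo2.ev12 ▸ ev_ne_zero 0)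
  have := supp_conj h g (y := ev 0) (Or.inl (by rw [← Geo2.ev01, ← ac_cross, h0, h1, Geo2.ev12]))
  rwa [h0, h1] at this

end F5a

open F5a in
theorem Geo.w5_eq (h : Geo I I' L Φ Ψ A B sc sc') {z : Fin 5 → V} (hz : z ∈ supp (W5 A B))
    (h0 : ∀ i, z i ≠ 0) : ‖z 0 ⨯₃ z 2‖ / ‖z 1‖ = ‖z 2 ⨯₃ z 4‖ / ‖z 3‖ := by
  rw [div_eq_div_iff (norm_ne_zero_iff.2 (h0 1)) (norm_ne_zero_iff.2 (h0 3))]
  obtain ⟨κ, hκ, hl⟩ := h.level
  have cc : ∀ i k : Fin 5, Continuous fun z : Fin 5 → V => z i ⨯₃ z k := fun i k => by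
    refine continuous_pi fun j => ?_
    fin_cases j <;> simp [cross_apply] <;> fun_prop
  refine closure_minimal (t := {z : Fin 5 → V | ‖z 0 ⨯₃ z 2‖ * ‖z 3‖ = ‖z 2 ⨯₃ z 4‖ * ‖z 1‖})
    ?_ (isClosed_eq ((cc 0 2).norm.mul (by fun_prop)) ((cc 2 4).norm.mul (by fun_prop)))
    (h.nd5 hz h0)
  rintro z ⟨hz, h0, n1, n2, n3⟩
  have c : ∀ {i j : Fin 3}, i ≠ j → ∀ {f g : V → ℂ}, BM f → BM g →
      (A (ev i)).E f * (B (ev j)).E g = (B (ev j)).E g * (A (ev i)).E f := fun hij f g hf hg =>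
    h.AB_inc (ev_ne_zero _) (ev_ne_zero _) (dot_ev hij) hf hg
  have s01 := mem_supp_of_factor (W' := word ![A (ev 0), B (ev 2)]) (e := ![0, 1]) (by decide)
    (fun f hf => ⟨1, (A (ev 1)).E (f 2) * (B (ev 0)).E (f 3) * (A (ev 2)).E (f 4), by
      simp [W5, mul_assoc]⟩) hz
  have s12 := mem_supp_of_factor (W' := word ![B (ev 2), A (ev 1)]) (e := ![1, 2]) (by decide)
    (fun f hf => ⟨(A (ev 0)).E (f 0), (B (ev 0)).E (f 3) * (A (ev 2)).E (f 4), by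
      simp [W5, mul_assoc]⟩) hz
  have s23 := mem_supp_of_factor (W' := word ![A (ev 1), B (ev 0)]) (e := ![2, 3]) (by decide)
    (fun f hf => ⟨(A (ev 0)).E (f 0) * (B (ev 2)).E (f 1), (A (ev 2)).E (f 4), by
      simp [W5, mul_assoc]⟩) hz
  have s34 := mem_supp_of_factor (W' := word ![B (ev 0), A (ev 2)]) (e := ![3, 4]) (by decide)
    (fun f hf => ⟨(A (ev 0)).E (f 0) * (B (ev 2)).E (f 1) * (A (ev 1)).E (f 2), 1, by
      simp [W5, mul_assoc]⟩) hz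
  have s14 := mem_supp_of_factor (W' := word ![B (ev 2), A (ev 2)]) (e := ![1, 4]) (by decide)
    (fun f hf => ⟨(A (ev 0)).E (f 0) * (A (ev 1)).E (f 2), (B (ev 0)).E (f 3), by
      rw [W5, word_five, mul_assoc _ ((B (ev 0)).E (f 3)), ← c (by decide) (hf 4) (hf 3),
        mul_assoc ((A (ev 0)).E (f 0)), ← c (by decide) (hf 2) (hf 1)]
      simp [mul_assoc]⟩) hz
  have s03 := mem_supp_of_factor (W' := word ![A (ev 0), B (ev 0)]) (e := ![0, 3]) (by decide)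
    (fun f hf => ⟨(B (ev 2)).E (f 1), (A (ev 1)).E (f 2) * (A (ev 2)).E (f 4), by
      rw [W5, word_five, c (by decide) (hf 0) (hf 1), mul_assoc _ ((A (ev 1)).E (f 2)),
        c (by decide) (hf 2) (hf 3)]
      simp [mul_assoc]⟩) hz
  have s30 := supp_word_rev _ s03
  rw [show (fun i : Fin 2 => ![A (ev 0), B (ev 0)] i.rev) = ![B (ev 0), A (ev 0)] by
    funext i; fin_cases i <;> rfl] at s30
  exact alg hκ (h0 1) (h0 3)
    (h.incAB (ev_ne_zero 0) (ev_ne_zero 2) (dot_ev (by decide)) _ s01)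
    (h.symm.incAB (ev_ne_zero 2) (ev_ne_zero 1) (dot_ev (by decide)) _ s12)
    (h.incAB (ev_ne_zero 1) (ev_ne_zero 0) (dot_ev (by decide)) _ s23)
    (h.symm.incAB (ev_ne_zero 0) (ev_ne_zero 2) (dot_ev (by decide)) _ s34) n1 n2 n3
    (hl (ev 2) (ev 2) (by simp [ev_dot_ev]) _ s14) (hl (ev 0) (ev 0) (by simp [ev_dot_ev]) _ s30)

namespace F5a

/-- the ratio -/
noncomputable def rt (z : Fin 3 → V) : ℝ := ‖z 0 ⨯₃ z 2‖ / ‖z 1‖

theorem contAt_rt {z : Fin 3 → V} (h : z 1 ≠ 0) : ContinuousAt rt z := by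
  have cc : Continuous fun z : Fin 3 → V => z 0 ⨯₃ z 2 := by
    refine continuous_pi fun j => ?_
    fin_cases j <;> simp [cross_apply] <;> fun_prop
  exact cc.norm.continuousAt.div (continuous_apply 1).norm.continuousAt (norm_ne_zero_iff.2 h)

theorem rt_sg {z z' : Fin 3 → V} (h : ∀ k, z' k = z k ∨ z' k = -z k) : rt z' = rt z := by
  rcases h 0 with e0 | e0 <;> rcases h 1 with e1 | e1 <;> rcases h 2 with e2 | e2 <;>
    simp only [rt, e0, e1, e2, map_neg, LinearMap.neg_apply, norm_neg]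

theorem rt_eq (h : Geo I I' L Φ Ψ A B sc sc') {z z' : Fin 3 → V}
    (hz : z ∈ supp (word ![A (ev 0), B (ev 2), A (ev 1)])) (h0 : ∀ i, z i ≠ 0)
    (hz' : z' ∈ supp (word ![A (ev 0), B (ev 2), A (ev 1)])) (h0' : ∀ i, z' i ≠ 0) :
    rt z = rt z' := by
  by_contra hne
  obtain ⟨J, J', hJ, hJ', m, m', hd⟩ := t2_separation hne
  rw [supp_cyc h] at hz'
  have hW : I.CovW ![false, true, false] (word ![A (ev 1), B (ev 0), A (ev 2)]) := by
    have := h.covW ![false, true, false] (x := ![ev 1, ev 0, ev 2]) fun i => by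
      fin_cases i <;> exact ev_ne_zero _
    rwa [show (fun i => if ![false, true, false] i then B (![ev 1, ev 0, ev 2] i)
      else A (![ev 1, ev 0, ev 2] i)) = ![A (ev 1), B (ev 0), A (ev 2)] by
        funext i; fin_cases i <;> rfl] at this
  have n10 : (1 : Fin 3) ≠ 0 := by decide
  have hO : ∀ᶠ y in 𝓝 z, (∀ i, y i ≠ 0) ∧ rt y ∈ J :=
    (eventually_all.2 fun i => (continuous_apply i).continuousAt.eventually_ne (h0 i)).and
      ((contAt_rt (h0 1)).eventually (hJ.mem_nhds m))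
  rw [Filter.Eventually, nhds_pi, mem_pi'] at hO
  obtain ⟨t, O', hO', hsub⟩ := hO
  refine hz (fun i => interior (O' i)) (fun i => interior_mem_nhds.2 (hO' i)) fun f hf hf0 => ?_
  refine hW.sep n10 (fun g hg b => ?_)
    (Z := {y | y 1 ≠ 0 ∧ ∃ v : ℝ, y 0 ⨯₃ y 2 = v • y 1 ∧ |v| ∈ J'}) ?_ ?_ hz' ?_ ?_
  · rw [word_three]
    refine ((h.lift.commute_U (ev_ne_zero 1) (by simp [ac_tv, ev]) (hg 0)).mul_left ?_).mul_left
      (h.lift.commute_U (ev_ne_zero 2) (by simp [ac_tv, ev]) (hg 2))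
    have h1 := congrArg (· * I.U (tv n10 b)) (h.covB (ev_ne_zero 0) (hg 1) (tv n10 b))
    have h2 : ac (dl (tv n10 b)) (ev 0) = ev 0 := by simp [dl_tv, ac_tv, ev]
    simp only [h2, mul_assoc, ← map_mul, inv_mul_cancel, map_one, mul_one] at h1
    exact h1.symm
  · rintro y ⟨y1, v, e, hv⟩ y' hs
    rcases hs 0 with e0 | e0 <;> rcases hs 1 with e1 | e1 <;> rcases hs 2 with e2 | e2 <;>
      refine ⟨by simpa [e1] using y1, ?_⟩ <;>
      first
        | (refine ⟨v, ?_, hv⟩; simp [e0, e1, e2, e]; done)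
        | (refine ⟨-v, ?_, by rwa [abs_neg]⟩; simp [e0, e1, e2, e])
  · rintro y ⟨y1, v, e, hv⟩ ν
    refine ⟨ac_ne_zero _ y1, v, ?_, hv⟩
    change ac (ι ν) (y 0) ⨯₃ ac (ι ν) (y 2) = v • ac (ι (dl ν)) (y 1)
    rw [ac_cross, e, ac_smul, ι_dl]
  · filter_upwards [(continuous_apply 1).continuousAt.eventually_ne (h0' 1),
      (contAt_rt (h0' 1)).eventually (hJ'.mem_nhds m')] with y y1 hy y' hy' hs
    have y1' : y' 1 ≠ 0 := by rcases hs 1 with e | e <;> simpa [e] using y1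
    obtain ⟨v, hv⟩ := inc3 h (ev_ne_zero 1) (ev_ne_zero 2) (ev_ne_zero 0) (dot_ev (by decide))
      (dot_ev (by decide)) hy' y1'
    exact ⟨y1', v, hv, by rwa [← ratio_eq y1' hv, ← rt, rt_sg hs]⟩
  · intro O hO hZ g hg hg0
    have := (isPoly_word ![A (ev 0), B (ev 2), A (ev 1), B (ev 0), A (ev 2)]).nullOn_of_disjoint
      (O := ![interior (O' 0), interior (O' 1), interior (O' 2) ∩ O 0, O 1, {0}ᶜ ∩ O 2])
      (fun k => isSigmaCompact_of_isOpen ?_) (fun y hy hs => ?_)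
      ![f 0, f 1, fun a => f 2 a * g 0 a, g 1, fun a => ic {0}ᶜ a * g 2 a] (fun k => ?_) fun k => ?_
    · rw [word_five] at this
      simp only [cons_val_zero, cons_val_one, cons_val] at this
      rw [h.lift.pvm _ _ _ (hf 2) (hg 0), ← (h.lift.sym _).cut (hg 2)] at this
      rw [word_three, word_three, ← this]
      simp only [mul_assoc]
    · fin_cases k
      exacts [isOpen_interior, isOpen_interior, isOpen_interior.inter (hO 0), hO 1,
        isOpen_compl_singleton.inter (hO 2)]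
    · have a1 : (∀ i, ![y 0, y 1, y 2] i ≠ 0) ∧ rt ![y 0, y 1, y 2] ∈ J := hsub fun i _ => by
        fin_cases i
        exacts [interior_subset (hy 0), interior_subset (hy 1), interior_subset (hy 2).1]
      have s := mem_supp_of_factor (W' := word ![A (ev 1), B (ev 0), A (ev 2)]) (e := ![2, 3, 4])
        (by decide) (fun f hf => ⟨(A (ev 0)).E (f 0) * (B (ev 2)).E (f 1), 1, by
          simp [mul_assoc]⟩) hs
      obtain ⟨y3, v, e, hv⟩ := hZ _ s fun k => by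
        fin_cases k
        exacts [(hy 2).2, hy 3, (hy 4).2]
      have a2 := h.w5_eq hs fun i => by
        fin_cases i
        exacts [a1.1 0, a1.1 1, a1.1 2, y3, (hy 4).1]
      have a3 : ‖y 2 ⨯₃ y 4‖ / ‖y 3‖ = |v| := ratio_eq y3 e
      exact Set.disjoint_left.1 hd a1.2 (by rwa [← a3, ← a2] at hv)
    · fin_cases k
      exacts [hf 0, hf 1, (hf 2).mul (hg 0), hg 1, Cv1.bm_cut (hg 2)]
    · fin_cases k
      · exact hf0 0
      · exact hf0 1
      · intro a ha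
        rcases not_and_or.1 ha with e | e
        · exact mul_eq_zero_of_left (hf0 2 a e) _
        · exact mul_eq_zero_of_right _ (hg0 0 a e)
      · exact hg0 1
      · intro a ha
        rcases not_and_or.1 ha with e | e
        · exact mul_eq_zero_of_left (ic_of_notMem e) _
        · exact mul_eq_zero_of_right _ (hg0 2 a e)

end F5a

theorem F5a.exists_pt (h : Geo I I' L Φ Ψ A B sc sc') :
    ∃ y ∈ supp (word ![A (ev 0), B (ev 2), A (ev 1)]), (∀ i, y i ≠ 0) ∧ 0 < F5a.rt y := by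
  have := I.nontrivial
  obtain ⟨w, hw, w0⟩ := exists_mem_supp_word
    (P := ![A (ev 0), B (ev 2), A (ev 1), B (ev 0), A (ev 2)]) fun i => by
      fin_cases i
      exacts [h.lift.sym _, h.lift'.sym _, h.lift.sym _, h.lift'.sym _, h.lift.sym _]
  obtain ⟨y, hy, y0, n1, -⟩ := Set.Nonempty.of_closure ⟨w, h.nd5 hw w0⟩
  exact ⟨_, mem_supp_of_factor (W' := word ![A (ev 0), B (ev 2), A (ev 1)]) (e := ![0, 1, 2])
    (by decide) (fun f hf => ⟨1, (B (ev 0)).E (f 3) * (A (ev 2)).E (f 4), by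
      simp [W5, mul_assoc]⟩) hy, fun i => y0 _,
    div_pos (norm_pos_iff.2 n1) (norm_pos_iff.2 (y0 1))⟩

open F5a in
theorem Geo.f5 (h : Geo I I' L Φ Ψ A B sc sc') : ∃ k > (0 : ℝ), F5 A B k := by
  obtain ⟨y, s, y0, hk⟩ := exists_pt h
  refine ⟨rt y, hk, fun x x' b hb hx z hz h0 => ?_⟩
  have hc : x ⨯₃ x' ≠ 0 := by
    rcases hx with e | e <;> rw [e]
    exacts [hb, neg_ne_zero.2 hb]
  obtain ⟨g, rfl, rfl⟩ := exists_ac_pair hc
  rw [ac_cross, Geo2.ev01] at hx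
  rw [← supp_conj h g hx] at hz
  obtain ⟨v, hv⟩ := inc3 h (ev_ne_zero 0) (ev_ne_zero 1) (ev_ne_zero 2) (dot_ev (by decide))
    (dot_ev (by decide)) hz (h0 1)
  have e : |v| = rt y := (ratio_eq (h0 1) hv).symm.trans (rt_eq h hz h0 s y0)
  rw [← e, hv]
  rcases abs_choice v with e' | e' <;> rw [e']
  exacts [Or.inl rfl, Or.inr (by rw [neg_smul, neg_neg])]

/-- opposite pairs are never incident -/
theorem Geo.opp (h : Geo I I' L Φ Ψ A B sc sc') {k k' : ℝ} (hk : 0 < k) (hk' : 0 < k')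
    (h5 : F5 A B k) (h5' : F5 B A k') {x y : V} (hxy : x ⬝ᵥ y = 1) {z : Fin 2 → V}
    (hz : z ∈ supp (word ![A x, B y])) (h0 : ∀ i, z i ≠ 0) : |z 0 ⬝ᵥ z 1| = k * k' :=
  h.opp0 hk hk' h5 h5' hxy hz h0

end Crest.Agent.N111
end

-- ▼ part N111/F/E0
section

/-! # Row 111: all even scale averages vanish. -/

set_option autoImplicit false
set_option linter.unusedSectionVars false
set_option linter.unusedVariables false

namespace Crest.Agent.N111

open MeasureTheory Topology Filter Matrix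
open scoped InnerProductSpace

variable {K : Type} [NormedAddCommGroup K] [InnerProductSpace ℂ K] [CompleteSpace K]

variable {I I' : Ind K} {L : ℕ → ℝ} {Φ Ψ A B : V → POVM V K} {sc sc' : ℝ → ℝ}

namespace E0

/-- the phases on four slots -/
noncomputable def p4 (τ : Fin 3 → V → ℝ) (r : ℝ) (w : ℝ × ℝ) : Fin 4 → V → ℂ :=
  ![fun a => ph r w 0 (τ 0 a), fun a => ph r w 1 (τ 1 a), fun a => ph r w 2 (τ 2 a), fun _ => 1]

theorem krep {τ : Fin 3 → V → ℝ} (hτ : ∀ k, Measurable (τ k)) {Z : Fin 4 → Set V}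
    (hZ : ∀ k, ContinuousOn (τ k) (Z k.castSucc)) {c : ℝ × ℝ → ℂ} (hc : Integrable c)
    {p : ℝ × ℝ → ℝ × ℝ} (hp : Continuous p) (r : ℝ) :
    KRep (ℝ × ℝ) volume c (fun w => p4 τ r (p w)) Z := by
  have h1 : ∀ k t, Continuous fun w => ph r (p w) k t := fun k t =>
    (continuous_ph k).comp (f := fun w => (r, p w, t)) (by fun_prop)
  have h2 : ∀ k w, Continuous (ph r w k) := fun k w =>
    (continuous_ph k).comp (f := fun t => (r, w, t)) (by fun_prop)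
  refine ⟨hc, fun w k => ?_, fun w k y => ?_, fun k y => ?_, fun w k => ?_⟩
  · fin_cases k
    exacts [(bm_ph r _ 0).meas.comp (hτ 0), (bm_ph r _ 1).meas.comp (hτ 1),
      (bm_ph r _ 2).meas.comp (hτ 2), measurable_const]
  · fin_cases k
    exacts [(norm_ph r _ 0 _).le, (norm_ph r _ 1 _).le, (norm_ph r _ 2 _).le, norm_one.le]
  · fin_cases k
    exacts [h1 0 _, h1 1 _, h1 2 _, continuous_const]
  · fin_cases k
    exacts [(h2 0 _).comp_continuousOn (hZ 0), (h2 1 _).comp_continuousOn (hZ 1),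
      (h2 2 _).comp_continuousOn (hZ 2), continuousOn_const]

theorem prod_p4 (τ : Fin 3 → V → ℝ) (r : ℝ) (w : ℝ × ℝ) (z : Fin 4 → V) :
    ∏ k, p4 τ r w k (z k)
      = ex (w.1 * (r * (τ 2 (z 2) - τ 0 (z 0))) + w.2 * (r * (τ 1 (z 1) - τ 2 (z 2)))) := by
  simp only [p4, ph, Fin.prod_univ_four, Matrix.cons_val_zero, Matrix.cons_val_one,
    Matrix.cons_val, mul_one, ← ex_add]
  congr 1
  ring

/-- comparison of the two kernels near the support -/
theorem half {W : (Fin 4 → V → ℂ) → K →L[ℂ] K} (hW : IsPoly W) {Z : Fin 4 → Set V}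
    (hZ : ∀ k, IsOpen (Z k))
    (hconc : ∀ f, (∀ k, BM (f k)) → W f = W fun k y => ic (Z k) y * f k y)
    {τ : Fin 3 → V → ℝ} (hτ : ∀ k, Measurable (τ k)) (hτ' : ∀ k, ContinuousOn (τ k) (Z k.castSucc))
    {c : ℝ × ℝ → ℂ} (hc : Integrable c) {r : ℝ} {O : Set (ℝ × ℝ)} (hO : IsOpen O) {a : ℂ}
    (hs : ∀ z ∈ supp W, (∀ k, z k ∈ Z k) →
      (r * (τ 2 (z 2) - τ 0 (z 0)), r * (τ 1 (z 1) - τ 2 (z 2))) ∈ O)
    (hK : ∀ p ∈ O, K2 c p = a * K2 c (0, p.2)) :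
    sInt volume c (fun w => W (p4 τ r w)) = a • sInt volume c fun w => W (p4 τ r (0, w.2)) := by
  have h1 := krep hτ hτ' hc continuous_id r
  have h2 := krep hτ hτ' (hc.const_mul a) (p := fun w => (0, w.2)) (by fun_prop) r
  have hk : ∀ k : Fin 3, ContinuousOn (fun z : Fin 4 → V => τ k (z k.castSucc))
      (Set.pi Set.univ Z) := fun k =>
    (hτ' k).comp (continuous_apply _).continuousOn fun z hz => hz _ trivial
  have hO' := ((continuousOn_const (c := r).mul ((hk 2).sub (hk 0))).prodMk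
    (continuousOn_const (c := r).mul ((hk 1).sub (hk 2)))).isOpen_inter_preimage
    (isOpen_set_pi Set.finite_univ fun k _ => hZ k) hO
  rw [← sInt_smul_left a hc (hW.sCont h2.meas h2.bd h2.contω)]
  refine hW.wd hZ hconc h1 h2 hO' (fun z hz hz' => ⟨fun k _ => hz' k, hs z hz hz'⟩)
    fun z hz _ => ?_
  have := hK _ hz.2
  simp only [K2, mul_zero, zero_add] at this
  simp only [prod_p4, id, zero_mul, zero_add, mul_assoc a, integral_const_mul]
  exact this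

/-- the localised four letter word -/
noncomputable def W4 (A B : V → POVM V K) (S U : Set V) (f : Fin 4 → V → ℂ) : K →L[ℂ] K :=
  word ![A (ev 0), A (ev 1), A (ev 0), B (ev 2)] fun k a => ic (![S, U, S, {0}ᶜ] k) a * f k a

variable {S U : Set V}

theorem bm_cut (hS : MeasurableSet S) (hU : MeasurableSet U) (k : Fin 4) :
    BM (ic (![S, U, S, {0}ᶜ] k)) := by
  fin_cases k
  exacts [BM.ic hS, BM.ic hU, BM.ic hS, BM.ic (measurableSet_singleton _).compl]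

theorem isPoly_W4 (hS : MeasurableSet S) (hU : MeasurableSet U) : IsPoly (W4 A B S U) :=
  (isPoly_word _).comp (φ := fun _ a => a) (fun _ => measurable_id) (bm_cut hS hU)

theorem W4_conc {Z : Fin 4 → Set V} (hZ : ∀ k, ![S, U, S, {0}ᶜ] k ⊆ Z k) (f : Fin 4 → V → ℂ) :
    W4 A B S U f = W4 A B S U fun k y => ic (Z k) y * f k y := by
  unfold W4
  congr 1
  funext k a
  by_cases ha : a ∈ ![S, U, S, {0}ᶜ] k
  · simp only [ic_of_mem (hZ k ha), one_mul]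
  · rw [ic_of_notMem ha, zero_mul, zero_mul]

theorem supp_W4 (hS : IsClosed S) (hU : MeasurableSet U) {z : Fin 4 → V}
    (hz : z ∈ supp (W4 A B S U)) :
    z ∈ supp (word ![A (ev 0), A (ev 1), A (ev 0), B (ev 2)]) ∧ z 0 ∈ S ∧ z 2 ∈ S := by
  have hb := bm_cut hS.measurableSet hU
  have key := mem_of_mem_supp (W := W4 A B S U) (Z := ![S, Set.univ, S, Set.univ])
    (fun k => by fin_cases k; exacts [hS, isClosed_univ, hS, isClosed_univ])
    (fun f hf i hi => (isPoly_word _).eq_zero_of_slot (fun k => (hb k).mul (hf k)) (i := i)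
      fun y => by
        by_cases hy : y ∈ ![S, U, S, {0}ᶜ] i
        · rw [hi y (by fin_cases i; exacts [hy, trivial, hy, trivial]), mul_zero]
        · rw [ic_of_notMem hy, zero_mul]) hz
  exact ⟨fun O hO hN => hz O hO fun f hf h0 => hN _ (fun k => (hb k).mul (hf k))
    fun k y hy => by simp only [h0 k y hy, mul_zero], key 0, key 2⟩

theorem cross01 : ev 0 ⨯₃ ev 1 = ev 2 := by
  funext i; fin_cases i <;> simp [ev, cross_apply]

/-- the two line relations on the support -/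
theorem rel (h : Geo I I' L Φ Ψ A B sc sc') {k : ℝ} (h5 : F5 A B k) {z : Fin 4 → V}
    (hz : z ∈ supp (word ![A (ev 0), A (ev 1), A (ev 0), B (ev 2)])) (h0 : ∀ i, z i ≠ 0) (v : V) :
    |v ⬝ᵥ (z 0 ⨯₃ z 1)| = |v ⬝ᵥ (z 1 ⨯₃ z 2)| := by
  have c0 : ∀ {f g}, BM f → BM g → Commute ((A (ev 0)).E f) ((B (ev 2)).E g) :=
    h.AB_inc (ev_ne_zero 0) (ev_ne_zero 2) (by simp [ev_dot_ev])
  have c1 : ∀ {f g}, BM f → BM g → Commute ((A (ev 1)).E f) ((B (ev 2)).E g) :=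
    h.AB_inc (ev_ne_zero 1) (ev_ne_zero 2) (by simp [ev_dot_ev])
  have e1 := mem_supp_of_factor (W' := word ![A (ev 0), B (ev 2), A (ev 1)]) (e := ![0, 3, 1])
    (by decide) (fun f hf => ⟨1, (A (ev 0)).E (f 2), by
      simp only [word, List.ofFn_succ, List.ofFn_zero, List.prod_cons, List.prod_nil, mul_one,
        one_mul, Matrix.cons_val_zero, Matrix.cons_val_succ, Fin.succ_zero_eq_one,
        Fin.succ_one_eq_two, Fin.reduceSucc, mul_assoc]
      rw [(c0 (hf 2) (hf 3)).eq, ← mul_assoc ((A (ev 1)).E _), (c1 (hf 1) (hf 3)).eq,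
        mul_assoc]⟩) hz
  have e2 := mem_supp_of_factor (W' := word ![A (ev 1), B (ev 2), A (ev 0)]) (e := ![1, 3, 2])
    (by decide) (fun f hf => ⟨(A (ev 0)).E (f 0), 1, by
      simp only [word, List.ofFn_succ, List.ofFn_zero, List.prod_cons, List.prod_nil, mul_one,
        one_mul, Matrix.cons_val_zero, Matrix.cons_val_succ, Fin.succ_zero_eq_one,
        Fin.succ_one_eq_two, Fin.reduceSucc, mul_assoc]
      rw [(c0 (hf 2) (hf 3)).eq]⟩) hz
  have f1 : z 0 ⨯₃ z 1 = k • z 3 ∨ z 0 ⨯₃ z 1 = -(k • z 3) :=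
    h5 _ _ _ (ev_ne_zero 2) (Or.inl cross01) _ e1 fun i => h0 _
  have f2 : z 1 ⨯₃ z 2 = k • z 3 ∨ z 1 ⨯₃ z 2 = -(k • z 3) :=
    h5 _ _ _ (ev_ne_zero 2) (Or.inr (by rw [← cross_anticomm, cross01])) _ e2 fun i => h0 _
  rcases f1 with f1 | f1 <;> rcases f2 with f2 | f2 <;> simp only [f1, f2, dotProduct_neg, abs_neg]

/-- the localising sets -/
def St (α β : V) (η q : ℝ) (M : ℕ) : Set V :=
  {a | q ≤ |α ⬝ᵥ a| ∧ |α ⬝ᵥ a| ≤ (1 + η) * q ∧ |α ⬝ᵥ a| ≤ M * |β ⬝ᵥ a|}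

theorem continuous_dot (α : V) : Continuous fun a : V => α ⬝ᵥ a :=
  continuous_const.dotProduct continuous_id

theorem isClosed_St (α β : V) (η q : ℝ) (M : ℕ) : IsClosed (St α β η q M) :=
  (isClosed_le continuous_const (continuous_dot α).abs).inter
    ((isClosed_le (continuous_dot α).abs continuous_const).inter
      (isClosed_le (continuous_dot α).abs (continuous_const.mul (continuous_dot β).abs)))

theorem St_ne {α β : V} {η q : ℝ} {M : ℕ} (hq : 0 < q) {a : V} (ha : a ∈ St α β η q M) :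
    α ⬝ᵥ a ≠ 0 := abs_pos.1 (hq.trans_le ha.1)

theorem exists_St {α β : V} {η : ℝ} (hη : 0 < η) {a : V} (ha : a ∈ GA α β) :
    ∃ (q : ℚ) (M : ℕ), (0 : ℝ) < q ∧ a ∈ St α β η q M := by
  have h1 := abs_pos.2 ha.1
  have h2 := abs_pos.2 ha.2
  obtain ⟨q, hq, hq'⟩ := exists_rat_btwn (div_lt_self h1 (by linarith : 1 < 1 + η))
  obtain ⟨M, hM⟩ := exists_nat_ge (|α ⬝ᵥ a| / |β ⬝ᵥ a|)
  refine ⟨q, M, (div_pos h1 (by linarith)).trans hq, hq'.le, ?_, (div_le_iff₀ h2).1 hM⟩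
  rw [div_lt_iff₀ (by linarith)] at hq
  linarith

theorem split (h : Geo I I' L Φ Ψ A B sc sc') (hS : MeasurableSet S) (α β : V) (r : ℝ)
    (w : ℝ × ℝ) : (A (ev 0)).E (ic S) * Wc (fun i => Φ (![ev 0, ev 1, ev 0] i)) α β (ph r w)
      * (A (ev 0)).E (ic S)
      = W4 A B S {a | α ⬝ᵥ a ≠ 0} (p4 (fun _ => tc α β) r w)
        + W4 A B S {a | α ⬝ᵥ a ≠ 0}ᶜ (p4 ![tc α β, fun _ => 0, tc α β] r w) := by
  have hU : MeasurableSet {a : V | α ⬝ᵥ a ≠ 0} :=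
    (isOpen_ne_fun (continuous_dot α) continuous_const).measurableSet
  have b : ∀ k, BM fun a => ph r w k (tc α β a) := fun k => (bm_ph r w k).comp (measurable_tc α β)
  have b0 : ∀ k, Hom0 fun a => ph r w k (tc α β a) := fun k z hz a => by simp only [tc_smul α β hz]
  have e3 : (B (ev 2)).E (fun a => ic {0}ᶜ a * 1) = 1 := by
    rw [← (h.lift'.sym _).cut BM.one, POVM.E_one]
  have b1 := (BM.ic hU).mul (b 1)
  have b2 := (BM.ic hU.compl).mul (BM.const (Y := V) (ph r w 1 0))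
  have e1 : (A (ev 1)).E (fun a => ph r w 1 (tc α β a))
      = (A (ev 1)).E (fun a => ic {a | α ⬝ᵥ a ≠ 0} a * ph r w 1 (tc α β a))
        + (A (ev 1)).E fun a => ic {a | α ⬝ᵥ a ≠ 0}ᶜ a * ph r w 1 0 := by
    rw [← POVM.E_add _ b1 b2]
    congr 1
    funext a
    by_cases ha : α ⬝ᵥ a = 0
    · simp [ha, tc]
    · simp [ha]
  simp only [W4, Wc, p4, word, List.ofFn_succ, List.ofFn_zero, List.prod_cons, List.prod_nil,
    mul_one, Matrix.cons_val_zero, Matrix.cons_val_succ, Fin.succ_zero_eq_one,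
    Fin.succ_one_eq_two, Fin.reduceSucc, Matrix.cons_val_one, Matrix.cons_val] at e3 ⊢
  rw [e3, ← h.lift.hom0 (ev_ne_zero 0) (b 0) (b0 0), ← h.lift.hom0 (ev_ne_zero 0) (b 2) (b0 2),
    ← h.lift.hom0 (ev_ne_zero 1) (b 1) (b0 1), e1, h.lift.pvm _ _ _ (BM.ic hS) (b 0),
    h.lift.pvm _ _ _ (BM.ic hS) (b 2), ((h.lift.pvm _).commute (BM.ic hS) (b 2)).eq]
  noncomm_ring

/-- the localised comparison of `toi` and `doi` -/
theorem claim (h : Geo I I' L Φ Ψ A B sc sc') (α β : V) {η q : ℝ} (hη : 0 < η) (hq : 0 < q) (M : ℕ)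
    {c : ℝ × ℝ → ℂ} (hc : Integrable c) {R : ℝ} {O : Set (ℝ × ℝ)} (hO : IsOpen O) {a : ℂ}
    (h₁ : ∀ p : ℝ × ℝ, |p.1 + p.2| ≤ (1 + η) * |p.2| → |p.2| ≤ (1 + η) * |p.1 + p.2| → p ∈ O)
    (h₂ : ∀ p : ℝ × ℝ, R < |p.2| → p ∈ O) (hK : ∀ p ∈ O, K2 c p = a * K2 c (0, p.2))
    {r : ℝ} (hr : |R| * M < r) :
    (A (ev 0)).E (ic (St α β η q M)) * toi (Wc (fun i => Φ (![ev 0, ev 1, ev 0] i)) α β) c r
      * (A (ev 0)).E (ic (St α β η q M))
      = a • ((A (ev 0)).E (ic (St α β η q M)) * doi (Φ (ev 1)) (Φ (ev 0)) α β c r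
        * (A (ev 0)).E (ic (St α β η q M))) := by
  obtain ⟨k, -, h5⟩ := h.f5
  have hS := isClosed_St α β η q M
  have hU : IsOpen {a : V | α ⬝ᵥ a ≠ 0} := isOpen_ne_fun (continuous_dot α) continuous_const
  have hr0 : 0 < r := lt_of_le_of_lt (by positivity) hr
  have mt := measurable_tc α β
  have ct := continuousOn_tc α β
  have m₂ : ∀ k, Measurable (![tc α β, fun _ => 0, tc α β] k) := fun k => by
    fin_cases k
    exacts [mt, measurable_const, mt]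
  have P₁ := isPoly_W4 (A := A) (B := B) hS.measurableSet hU.measurableSet
  have P₂ := isPoly_W4 (A := A) (B := B) hS.measurableSet hU.measurableSet.compl
  have hne : ∀ a : V, α ⬝ᵥ a ≠ 0 → a ≠ 0 := fun a ha h0 => ha (by rw [h0, dotProduct_zero])
  have H₁ := half P₁ (Z := ![{a | α ⬝ᵥ a ≠ 0}, {a | α ⬝ᵥ a ≠ 0}, {a | α ⬝ᵥ a ≠ 0}, {0}ᶜ])
    (fun k => by fin_cases k; exacts [hU, hU, hU, isOpen_compl_singleton])
    (fun f _ => W4_conc (fun k => by
      fin_cases k; exacts [fun _ => St_ne hq, le_rfl, fun _ => St_ne hq, le_rfl]) f)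
    (τ := fun _ => tc α β) (fun _ => mt) (fun k => by fin_cases k; exacts [ct, ct, ct])
    hc (r := r) hO (fun z hz hZ => by
      obtain ⟨hz, s0, s2⟩ := supp_W4 hS hU.measurableSet hz
      have z0 : α ⬝ᵥ z 0 ≠ 0 := hZ 0
      have z1 : α ⬝ᵥ z 1 ≠ 0 := hZ 1
      have z2 : α ⬝ᵥ z 2 ≠ 0 := hZ 2
      have e := rel h h5 hz (fun i => by
        fin_cases i; exacts [hne _ z0, hne _ z1, hne _ z2, hZ 3]) (α ⨯₃ β)
      have e' : |r * (tc α β (z 2) - tc α β (z 0)) + r * (tc α β (z 1) - tc α β (z 2))|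
          * |α ⬝ᵥ z 0| = |r * (tc α β (z 1) - tc α β (z 2))| * |α ⬝ᵥ z 2| := by
        rw [← mul_add, sub_add_sub_cancel', abs_mul, abs_mul,
          abs_sub_comm (tc α β (z 1)) (tc α β (z 2)),
          tc_sub z0 z1, tc_sub z1 z2, abs_div, abs_div, e, abs_mul, abs_mul]
        have := abs_ne_zero.2 z0
        have := abs_ne_zero.2 z1
        have := abs_ne_zero.2 z2
        field_simp
      have aux : ∀ x y a b : ℝ, 0 ≤ x → 0 ≤ y → x * a = y * b → q ≤ a → b ≤ (1 + η) * q →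
          x ≤ (1 + η) * y := fun x y a b hx hy e ha hb =>
        le_of_mul_le_mul_right (by nlinarith [mul_le_mul_of_nonneg_left ha hx,
          mul_le_mul_of_nonneg_left hb hy]) hq
      exact h₁ _ (aux _ _ _ _ (abs_nonneg _) (abs_nonneg _) e' s0.1 s2.2.1)
        (aux _ _ _ _ (abs_nonneg _) (abs_nonneg _) e'.symm s2.1 s0.2.1)) hK
  have H₂ := half P₂ (Z := ![{a | α ⬝ᵥ a ≠ 0}, Set.univ, {a | α ⬝ᵥ a ≠ 0}, Set.univ])
    (fun k => by fin_cases k; exacts [hU, isOpen_univ, hU, isOpen_univ])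
    (fun f _ => W4_conc (fun k => by
      fin_cases k; exacts [fun _ => St_ne hq, Set.subset_univ _, fun _ => St_ne hq,
        Set.subset_univ _]) f)
    m₂ (fun k => by fin_cases k; exacts [ct, continuousOn_const, ct])
    hc (r := r) hO (fun z hz hZ => by
      obtain ⟨-, -, s2⟩ := supp_W4 hS hU.measurableSet.compl hz
      have z2 := abs_pos.2 (St_ne hq s2)
      refine h₂ _ ?_
      change R < |r * (0 - tc α β (z 2))|
      rw [zero_sub, abs_mul, abs_neg, abs_of_pos hr0, tc, abs_div, mul_div_assoc', lt_div_iff₀ z2]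
      have hβ : 0 < |β ⬝ᵥ z 2| := by
        rcases (abs_nonneg (β ⬝ᵥ z 2)).eq_or_lt with e | e
        · have := s2.2.2
          rw [← e, mul_zero] at this
          linarith
        · exact e
      nlinarith [mul_le_mul_of_nonneg_left s2.2.2 (abs_nonneg R), mul_lt_mul_of_pos_right hr hβ,
        mul_le_mul_of_nonneg_right (le_abs_self R) z2.le]) hK
  have key : ∀ p : ℝ × ℝ → ℝ × ℝ, Continuous p → (A (ev 0)).E (ic (St α β η q M))
      * sInt volume c (fun w => Wc (fun i => Φ (![ev 0, ev 1, ev 0] i)) α β (ph r (p w)))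
      * (A (ev 0)).E (ic (St α β η q M))
      = sInt volume c (fun w => W4 A B (St α β η q M) {a | α ⬝ᵥ a ≠ 0}
          (p4 (fun _ => tc α β) r (p w)))
        + sInt volume c fun w => W4 A B (St α β η q M) {a | α ⬝ᵥ a ≠ 0}ᶜ
          (p4 ![tc α β, fun _ => 0, tc α β] r (p w)) := fun p hp => by
    have s0 := sCont_ph (isPoly_Wc (fun i => Φ (![ev 0, ev 1, ev 0] i)) α β) r
    have s1 : SCont fun w => Wc (fun i => Φ (![ev 0, ev 1, ev 0] i)) α β (ph r (p w)) :=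
      ⟨fun η => (s0.1 η).comp hp, s0.2.imp fun C hC w => hC _⟩
    have k₁ := krep (τ := fun _ => tc α β) (fun _ => mt) (Z := fun _ => ∅)
      (fun _ => continuousOn_empty _) hc hp r
    have k₂ := krep m₂ (Z := fun _ => ∅) (fun _ => continuousOn_empty _) hc hp r
    rw [mul_sInt hc s1, sInt_mul hc ((SCont.const _).mul s1), ← Py.sInt_add hc
      (P₁.sCont k₁.meas k₁.bd k₁.contω) (P₂.sCont k₂.meas k₂.bd k₂.contω)]
    simp only [split h hS.measurableSet]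
  have e : doi (Φ (ev 1)) (Φ (ev 0)) α β c r = sInt volume c fun w =>
      Wc (fun i => Φ (![ev 0, ev 1, ev 0] i)) α β (ph r (0, w.2)) := by
    simp [doi, Wc, ph, word, List.ofFn_succ, POVM.E_one]
  rw [e, key _ (by fun_prop), toi, key _ continuous_id', H₁, H₂, smul_add]

/-- countable covers -/
theorem cover {ι : Type} [Countable ι] (P : POVM V K) {S : ι → Set V} {G : Set V}
    (hS : ∀ n, MeasurableSet (S n)) (hG : MeasurableSet G) (hc : G ⊆ ⋃ n, S n) {η : K}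
    (h : ∀ n, P.E (ic (S n)) η = 0) : P.E (ic G) η = 0 := by
  have h0 : P.ν η G = 0 :=
    measure_mono_null hc (measure_iUnion_null fun n => P.ν_eq_zero (hS n) (h n))
  rw [P.E_apply_congr (BM.ic hG) BM.zero ((measure_eq_zero_iff_ae_notMem.1 h0).mono
    fun y hy => ic_of_notMem hy), P.E_zero]
  rfl

theorem main {l : Filter ℕ} [l.NeBot] {m : (ℝ × ℝ → ℂ) → ℂ} {c : ℝ × ℝ → ℂ}
    (h : Geo I I' L Φ Ψ A B sc sc') (hl : l ≤ atTop)
    (hm : IsM l (fun i => Φ (![ev 0, ev 1, ev 0] i)) (Ψ (ev 2)) m) (hc : Integrable c) (he : Ev c)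
    {η R : ℝ} (hη : 0 < η) {O : Set (ℝ × ℝ)} (hO : IsOpen O) {a : ℂ}
    (h₁ : ∀ p : ℝ × ℝ, |p.1 + p.2| ≤ (1 + η) * |p.2| → |p.2| ≤ (1 + η) * |p.1 + p.2| → p ∈ O)
    (h₂ : ∀ p : ℝ × ℝ, R < |p.2| → p ∈ O) (hK : ∀ p ∈ O, K2 c p = a * K2 c (0, p.2)) :
    m c = 0 := by
  have := I.nontrivial
  have d0 : ev 0 ⬝ᵥ ev 2 = 0 := by simp [ev_dot_ev]
  have hf := h.flag (ev_ne_zero 0) (ev_ne_zero 2) d0
  refine (smul_eq_zero.1 (hf.eq_zero_of_gd (T := m c • 1) fun α β => ?_)).resolve_right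
    _root_.one_ne_zero
  have bA := BM.ic (isOpen_GA α β).measurableSet
  have bB := BM.ic (isOpen_GB α β).measurableSet
  have key : ∀ q : ℝ, 0 < q → ∀ M, (A (ev 0)).E (ic (St α β η q M))
      * (m c • gd (Φ (ev 0)) (Ψ (ev 2)) α β) = 0 := fun q hq M => by
    have mS := (isClosed_St α β η q M).measurableSet
    have cm : Commute ((A (ev 0)).E (ic (St α β η q M))) (gd (Φ (ev 0)) (Ψ (ev 2)) α β) :=
      (h.lift.commute_Φ (ev_ne_zero 0) (BM.ic mS) bA).mul_right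
        (h.AΨ _ _ (ev_ne_zero 0) (ev_ne_zero 2) d0 _ _ (BM.ic mS) bB)
    have a1 := (hm c hc he α β).mul ((A (ev 0)).E (ic (St α β η q M)))
      ((A (ev 0)).E (ic (St α β η q M)))
    have a2 := (((h.s7 (x := ev 1) (x' := ev 0) (by
      rw [← cross_anticomm, cross01]; exact neg_ne_zero.2 (ev_ne_zero 2)) (ev_ne_zero 2)
      (by simp [ev_dot_ev]) d0 hc he α β).mono hl).mul ((A (ev 0)).E (ic (St α β η q M)))
      ((A (ev 0)).E (ic (St α β η q M)))).smul a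
    have a3 := (a1.congr hl ((eventually_gt_atTop (|R| * M)).mono fun r hr => by
      have := congrArg (· * gd (Φ (ev 0)) (Ψ (ev 2)) α β) (claim h α β hη hq M hc hO h₁ h₂ hK hr)
      simp only [smul_mul_assoc, mul_assoc, cm.eq] at this
      simp only [mul_assoc]
      exact this)).unique a2
    change _ * (m c • gd (Φ (ev 0)) (Ψ (ev 2)) α β) * _ = _ at a3
    rwa [mul_zero, zero_mul, smul_zero, mul_assoc, ← (cm.smul_right _).eq, ← mul_assoc,
      (h.lift.pvm _).ic_idem mS] at a3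
  have e : m c • (1 : K →L[ℂ] K) * gd (Φ (ev 0)) (Ψ (ev 2)) α β
      = (A (ev 0)).E (ic (GA α β)) * (m c • gd (Φ (ev 0)) (Ψ (ev 2)) α β) := by
    rw [h.lift.hom0 (ev_ne_zero 0) bA (hom0_ic_GA α β), smul_mul_assoc, one_mul,
      mul_smul_comm, gd, ← mul_assoc, hf.pvm.ic_idem (isOpen_GA α β).measurableSet]
  rw [e]
  ext1 ζ
  exact cover (ι := {q : ℚ // (0 : ℝ) < q} × ℕ) (A (ev 0)) (S := fun n => St α β η n.1.1 n.2)
    (fun n => (isClosed_St _ _ _ _ _).measurableSet) (isOpen_GA α β).measurableSet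
    (fun a ha => by
      obtain ⟨q, M, hq, h⟩ := exists_St hη ha
      exact Set.mem_iUnion.2 ⟨(⟨q, hq⟩, M), h⟩)
    fun n => (congrArg (· ζ) (key _ n.1.2 n.2) :)

end E0

section
variable {l : Filter ℕ} [l.NeBot] {m : (ℝ × ℝ → ℂ) → ℂ} {c : ℝ × ℝ → ℂ}

theorem Geo.e0_null (h : Geo I I' L Φ Ψ A B sc sc') (hl : l ≤ atTop)
    (hm : IsM l (fun i => Φ (![ev 0, ev 1, ev 0] i)) (Ψ (ev 2)) m) (hc : Integrable c) (he : Ev c)
    {ε R : ℝ} (hε : 0 < ε)
    (hK : ∀ p : ℝ × ℝ, |p.1| < ε ∨ |p.1 + 2 * p.2| < ε ∨ R < |p.2| → K2 c p = 0) : m c = 0 := by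
  have hη : 0 < ε / (|R| + 1) := by positivity
  refine E0.main h hl hm hc he hη (R := R) (a := 0)
    (O := {p | |p.1| < ε ∨ |p.1 + 2 * p.2| < ε ∨ R < |p.2|})
    ((isOpen_lt continuous_fst.abs continuous_const).union
      ((isOpen_lt (continuous_fst.add (continuous_const.mul continuous_snd)).abs
        continuous_const).union (isOpen_lt continuous_const continuous_snd.abs)))
    (fun p h1 h2 => ?_) (fun p hp => Or.inr (Or.inr hp)) fun p hp => by rw [hK p hp, zero_mul]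
  by_contra hn
  simp only [Set.mem_ofPred_eq, not_or, not_lt] at hn
  obtain ⟨n1, n2, n3⟩ := hn
  set η := ε / (|R| + 1)
  have e1 : η * |p.2| < ε := by
    have : η * (|R| + 1) = ε := div_mul_cancel₀ _ (by positivity)
    nlinarith [mul_le_mul_of_nonneg_left (n3.trans (le_abs_self R)) hη.le]
  have e2 : |p.1 + p.2| - |p.2| < ε := by linarith
  have e3 : |p.2| - |p.1 + p.2| < ε := by
    rcases le_total |p.2| |p.1 + p.2| with e | e
    · linarith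
    · nlinarith [mul_le_mul_of_nonneg_left e hη.le]
  rcases abs_cases p.1 with a | a <;> rcases abs_cases p.2 with b | b <;>
    rcases abs_cases (p.1 + p.2) with d | d <;> rcases abs_cases (p.1 + 2 * p.2) with e | e <;>
    linarith [a.1, b.1, d.1, e.1, a.2, b.2, d.2, e.2]

theorem Geo.e0_N (h : Geo I I' L Φ Ψ A B sc sc') (hl : l ≤ atTop)
    (hm : IsM l (fun i => Φ (![ev 0, ev 1, ev 0] i)) (Ψ (ev 2)) m) (hc : Integrable c) (he : Ev c)
    {N : ℝ → ℂ} {R : ℝ} (hR : 0 < R) (hN : ∀ y, R < |y| → N y = 0)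
    (hK : ∀ p : ℝ × ℝ, |p.1| ≤ 4 * R → K2 c p = N p.2)
    (hK' : ∀ p : ℝ × ℝ, R < |p.2| → K2 c p = 0) : m c = 0 := by
  refine E0.main h hl hm hc he one_pos (R := R) (a := 1) (O := {p | |p.1| < 4 * R ∨ R < |p.2|})
    ((isOpen_lt continuous_fst.abs continuous_const).union
      (isOpen_lt continuous_const continuous_snd.abs))
    (fun p h1 h2 => ?_) (fun p hp => Or.inr hp) fun p hp => ?_
  · refine (lt_or_ge R |p.2|).symm.imp (fun h3 => ?_) id
    have := abs_sub (p.1 + p.2) p.2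
    rw [add_sub_cancel_right] at this
    linarith
  · rcases hp with hp | hp
    · rw [hK p hp.le, hK (0, p.2) (by simpa using hR.le), one_mul]
    · rw [hK' p hp, hK' (0, p.2) hp, mul_zero]
end

/-- **E0** -/
theorem Geo.e0 (h : Geo I I' L Φ Ψ A B sc sc') {c : ℝ × ℝ → ℂ} (hc : Integrable c) (he : Ev c)
    (α β : V) : AvT atTop (fun l => toi (Wc ![Φ (ev 0), Φ (ev 1), Φ (ev 0)] α β) c l
      * gd (Φ (ev 0)) (Ψ (ev 2)) α β) 0 := by
  have := I.nontrivial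
  refine avT_of_ultra fun l hl => ?_
  obtain ⟨m, hm⟩ := h.exists_isM (x := ![ev 0, ev 1, ev 0])
    (fun i => by fin_cases i; exacts [ev_ne_zero 0, ev_ne_zero 1, ev_ne_zero 0])
    (fun i => by fin_cases i <;> simp [ev]) l hl
  have hf : Flag ((fun i => Φ (![ev 0, ev 1, ev 0] i)) 2) (Ψ (ev 2)) :=
    h.flag (ev_ne_zero 0) (ev_ne_zero 2) (by simp [ev_dot_ev])
  have h0 := e0_abstract m 1 (fun c c' h1 h2 h3 h4 => hm.add hf h1 h2 h3 h4)
    (fun z c h1 h2 => hm.smul hf z h1 h2) (fun c h1 h2 => hm.bd hf h1 h2)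
    (fun c h1 h2 r hr => hm.dil hf hl h1 h2 hr)
    (fun c h1 h2 ε R hε hK => h.e0_null hl hm h1 h2 hε hK)
    (fun c h1 h2 N R hR hN hK hK' => h.e0_N hl hm h1 h2 hR hN hK hK') c hc he
  have h1 := hm c hc he α β
  have e : (fun i => Φ (![ev 0, ev 1, ev 0] i)) = ![Φ (ev 0), Φ (ev 1), Φ (ev 0)] := by
    funext i; fin_cases i <;> rfl
  rw [h0, zero_smul, e] at h1
  exact h1

end Crest.Agent.N111
end

-- ▼ part N111/F/Star1
section

/-! # Row 111, (**): scalar lemmas (partition of unity, the positive kernel, chart geometry). -/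

set_option autoImplicit false

namespace Crest.Agent.N111.St

open MeasureTheory Topology Filter Matrix
open scoped ContDiff

/-- a smooth partition of unity along `ℤ` -/
noncomputable def ch (x : ℝ) : ℝ := Real.smoothTransition (x + 1) - Real.smoothTransition x

theorem ch_nonneg (x : ℝ) : 0 ≤ ch x := sub_nonneg.2 (Real.smoothTransition.monotone (by linarith))

theorem ch_le_one (x : ℝ) : ch x ≤ 1 := by
  rw [ch]; linarith [Real.smoothTransition.le_one (x + 1), Real.smoothTransition.nonneg x]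

theorem ch_eq_zero {x : ℝ} (h : 1 ≤ |x|) : ch x = 0 := by
  rcases le_abs'.1 h with h | h
  · rw [ch, Real.smoothTransition.zero_of_nonpos (by linarith),
      Real.smoothTransition.zero_of_nonpos (by linarith), sub_self]
  · rw [ch, Real.smoothTransition.one_of_one_le (by linarith),
      Real.smoothTransition.one_of_one_le h, sub_self]



@[fun_prop] theorem contDiff_ch : ContDiff ℝ ∞ ch :=
  (Real.smoothTransition.contDiff.comp (by fun_prop)).sub Real.smoothTransition.contDiff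

@[fun_prop] theorem continuous_ch : Continuous ch := contDiff_ch.continuous

theorem sum_ch {y θ : ℝ} {M : ℕ} (h0 : 0 ≤ θ) (h1 : θ ≤ 1) (hy : |y| + 1 ≤ M) :
    ∑ n ∈ Finset.range (2 * M), ch (y - (n + θ - M)) = 1 := by
  have := Finset.sum_range_sub' (fun n : ℕ => Real.smoothTransition (y - (n + θ - M) + 1)) (2 * M)
  have h2 := abs_le.1 (show |y| ≤ M - 1 by linarith)
  rw [Real.smoothTransition.one_of_one_le (by push_cast; linarith),
    Real.smoothTransition.zero_of_nonpos (x := y - ((2 * M : ℕ) + θ - M) + 1)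
      (by push_cast; linarith), sub_zero] at this
  rw [← this]
  refine Finset.sum_congr rfl fun n _ => ?_
  rw [ch]; congr 2; push_cast; ring

/-- a plateau function -/
noncomputable def nu (R y : ℝ) : ℝ := Real.smoothTransition (2 - (y / R) ^ 2)

theorem nu_nonneg (R y : ℝ) : 0 ≤ nu R y := Real.smoothTransition.nonneg _
theorem nu_le_one (R y : ℝ) : nu R y ≤ 1 := Real.smoothTransition.le_one _

theorem nu_eq_one {R y : ℝ} (hR : 0 < R) (h : |y| ≤ R) : nu R y = 1 := by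
  refine Real.smoothTransition.one_of_one_le ?_
  have : |y / R| ≤ 1 := by rwa [abs_div, abs_of_pos hR, div_le_one hR]
  nlinarith [sq_abs (y / R), abs_nonneg (y / R)]

theorem nu_eq_zero {R y : ℝ} (hR : 0 < R) (h : 2 * R ≤ |y|) : nu R y = 0 := by
  refine Real.smoothTransition.zero_of_nonpos ?_
  have : 2 ≤ |y / R| := by rwa [abs_div, abs_of_pos hR, le_div_iff₀ hR]
  nlinarith [sq_abs (y / R)]

@[fun_prop] theorem contDiff_nu (R : ℝ) : ContDiff ℝ ∞ (nu R) :=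
  Real.smoothTransition.contDiff.comp (by fun_prop)

@[fun_prop] theorem continuous_nu (R : ℝ) : Continuous (nu R) := (contDiff_nu R).continuous

theorem exists_grid {H : ℝ → ℝ} (hH : Continuous H) (M : ℕ) : ∃ θ, 0 ≤ θ ∧ θ ≤ 1 ∧
    ∑ n ∈ Finset.range (2 * M), H (n + θ - M) ≤ ∫ x in Set.Ioc (-(M : ℝ)) M, H x := by
  have hc : Continuous fun θ : ℝ => ∑ n ∈ Finset.range (2 * M), H (n + θ - M) := by fun_prop
  obtain ⟨θ, hθ, h⟩ := exists_le_setAverage (μ := volume) (s := Set.Ioc (0 : ℝ) 1) (by simp) (by simp)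
    (hc.integrableOn_Ioc)
  refine ⟨θ, hθ.1.le, hθ.2, h.trans (le_of_eq ?_)⟩
  rw [setAverage_eq, ← intervalIntegral.integral_of_le zero_le_one,
    ← intervalIntegral.integral_of_le (by linarith [(Nat.cast_nonneg M : (0 : ℝ) ≤ M)]),
    intervalIntegral.integral_finsetSum fun n _ => Continuous.intervalIntegrable (by fun_prop) _ _]
  have := intervalIntegral.sum_integral_adjacent_intervals (μ := volume) (f := H)
    (a := fun n : ℕ => (n : ℝ) - M) (n := 2 * M) fun n _ => hH.intervalIntegrable _ _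
  simp only [Nat.cast_zero, zero_sub, Nat.cast_mul, Nat.cast_ofNat, show 2 * (M : ℝ) - M = M by ring]
    at this
  rw [← this]
  simp only [Measure.real, Real.volume_Ioc, sub_zero, ENNReal.ofReal_one, ENNReal.toReal_one,
    inv_one, one_smul]
  refine Finset.sum_congr rfl fun n _ => ?_
  simp only [show ∀ θ : ℝ, n + θ - M = θ + (n - M) from fun θ => by ring,
    intervalIntegral.integral_comp_add_right, zero_add]
  congr 1; push_cast; ring

theorem card_le_of_close {s : Finset ℕ} {r : ℕ} (h : ∀ n ∈ s, ∀ m ∈ s, n ≤ m + r) :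
    s.card ≤ r + 1 := by
  rcases s.eq_empty_or_nonempty with rfl | hs
  · simp
  · refine (Finset.card_le_card (t := Finset.Icc (s.min' hs) (s.min' hs + r)) fun n hn =>
      Finset.mem_Icc.2 ⟨s.min'_le n hn, h n hn _ (s.min'_mem hs)⟩).trans (le_of_eq ?_)
    rw [Nat.card_Icc]; omega

theorem norm_sum_sq_le {α : Type*} (s : Finset α) {w : α → ℝ} (hw : ∀ n ∈ s, 0 ≤ w n)
    (h1 : ∑ n ∈ s, w n = 1) (z : α → ℂ) :
    ‖∑ n ∈ s, (w n : ℂ) * z n‖ ^ 2 ≤ ∑ n ∈ s, w n * ‖z n‖ ^ 2 := by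
  have h2 : ‖∑ n ∈ s, (w n : ℂ) * z n‖ ≤ ∑ n ∈ s, w n * ‖z n‖ :=
    (norm_sum_le _ _).trans (le_of_eq (Finset.sum_congr rfl fun n hn => by
      rw [norm_mul, Complex.norm_real, Real.norm_of_nonneg (hw n hn)]))
  have h3 := (convexOn_pow (𝕜 := ℝ) 2).map_sum_le hw h1 (p := fun n => ‖z n‖)
    fun n _ => Set.mem_Ici.2 (norm_nonneg _)
  exact (pow_le_pow_left₀ (norm_nonneg _) h2 2).trans h3

theorem hasCompactSupport_nu {R : ℝ} (hR : 0 < R) : HasCompactSupport (nu R) :=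
  HasCompactSupport.intro (isCompact_closedBall 0 (2 * R)) fun y hy =>
    nu_eq_zero hR (by simpa using (not_le.1 (mt Metric.mem_closedBall.2 hy)).le)

theorem hasCompactSupport_ch {h : ℝ} (hh : 0 < h) : HasCompactSupport fun y => ch (y / h) :=
  HasCompactSupport.intro (isCompact_closedBall 0 h) fun y hy => ch_eq_zero (by
    rw [abs_div, abs_of_pos hh, le_div_iff₀ hh, one_mul]
    simpa using (not_le.1 (mt Metric.mem_closedBall.2 hy)).le)

theorem abs_log_sub_le {x y ρ : ℝ} (hx : 0 < x) (hρ : ρ ≤ 1 / 2) (h : |x - y| ≤ ρ * x) :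
    |Real.log x - Real.log y| ≤ 2 * ρ := by
  have h1 := abs_le.1 h
  have hρ0 : 0 ≤ ρ := nonneg_of_mul_nonneg_left ((abs_nonneg _).trans h) hx
  have hy : 0 < y := by nlinarith
  have h2 := Real.log_le_sub_one_of_pos (div_pos hx hy)
  have h3 := Real.log_le_sub_one_of_pos (div_pos hy hx)
  rw [Real.log_div hx.ne' hy.ne'] at h2
  rw [Real.log_div hy.ne' hx.ne'] at h3
  have h4 : x / y ≤ 1 + 2 * ρ := by rw [div_le_iff₀ hy]; nlinarith
  have h5 : y / x ≤ 1 + ρ := by rw [div_le_iff₀ hx]; nlinarith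
  rw [abs_le]; constructor <;> linarith

/-! ### the chart -/

/-- the point of the line `b` with coordinate `x` -/
noncomputable def pl (α β : V) (x : ℝ) (b : V) : V := b ⨯₃ (β - x • α)

variable {α β a b c : V} {x θ : ℝ}

theorem measurable_pl (α β : V) (x : ℝ) : Measurable (pl α β x) := by
  refine measurable_pi_lambda _ fun i => ?_
  fin_cases i <;> simp [pl, cross_apply] <;> fun_prop

theorem dot_pl (α β : V) (x : ℝ) (b : V) : α ⬝ᵥ pl α β x b = -((α ⨯₃ β) ⬝ᵥ b) := by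
  simp [pl, cross_apply, dotProduct, Fin.sum_univ_three]; ring

theorem dot_pl' (α β : V) (x : ℝ) (b : V) : β ⬝ᵥ pl α β x b = x * -((α ⨯₃ β) ⬝ᵥ b) := by
  simp [pl, cross_apply, dotProduct, Fin.sum_univ_three]; ring

theorem tc_pl (h : (α ⨯₃ β) ⬝ᵥ b ≠ 0) (x : ℝ) : tc α β (pl α β x b) = x := by
  rw [tc, dot_pl, dot_pl', mul_div_cancel_right₀ _ (neg_ne_zero.2 h)]

theorem pl_ne_zero (h : (α ⨯₃ β) ⬝ᵥ b ≠ 0) (x : ℝ) : pl α β x b ≠ 0 := fun e => by
  have := dot_pl α β x b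
  rw [e, dotProduct_zero] at this
  exact h (neg_eq_zero.1 this.symm)

theorem le_norm_pl (h : θ * ‖b‖ ≤ |(α ⨯₃ β) ⬝ᵥ b|) (x : ℝ) :
    θ * ‖b‖ ≤ 3 * ‖α‖ * ‖pl α β x b‖ := by
  have := abs_dot_le α (pl α β x b)
  rw [dot_pl, abs_neg] at this
  exact h.trans this

theorem norm_pl_le {X : ℝ} (hx : |x| ≤ X) (b : V) :
    ‖pl α β x b‖ ≤ 2 * ‖b‖ * (‖β‖ + X * ‖α‖) := by
  refine (norm_cross_le _ _).trans ?_
  gcongr
  refine (norm_sub_le _ _).trans ?_
  rw [norm_smul, Real.norm_eq_abs]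
  gcongr

theorem norm_cross_pl (ha : α ⬝ᵥ a ≠ 0) (h : a ⬝ᵥ b = 0) (x : ℝ) :
    ‖a ⨯₃ pl α β x b‖ ≤ 3 * ‖α‖ * ‖a‖ * |tc α β a - x| * ‖b‖ := by
  have e : a ⨯₃ pl α β x b = ((α ⬝ᵥ a) * (tc α β a - x)) • b := by
    rw [pl, cross_cross_eq_smul_sub_smul', dotProduct_comm b a, h, zero_smul, sub_zero, dotProduct_sub, dotProduct_smul,
      dotProduct_comm a β, dotProduct_comm a α, tc, smul_eq_mul]
    congr 1; field_simp
  rw [e, norm_smul, Real.norm_eq_abs, abs_mul]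
  gcongr
  exact abs_dot_le _ _

theorem close (α β : V) (hθ : 0 < θ) (X : ℝ) {R : ℝ} (hR : 0 ≤ R) : ∃ R' > (0 : ℝ),
    ∀ᶠ l in atTop, ∀ (b c : V) (x : ℝ), b ≠ 0 → θ * ‖b‖ ≤ |(α ⨯₃ β) ⬝ᵥ b| → |x| ≤ X → c ≠ 0 →
      l * ‖c ⨯₃ pl α β x b‖ ≤ R * (‖c‖ * ‖pl α β x b‖) → |l * tc α β c - l * x| ≤ R' := by
  set W := ‖β‖ + |X| * ‖α‖ with hW
  have hW0 : 0 ≤ W := by positivity
  refine ⟨24 * ‖α ⨯₃ β‖ * R * W ^ 2 / θ ^ 2 + 1, by positivity, ?_⟩
  filter_upwards [eventually_gt_atTop 0, eventually_ge_atTop (8 * ‖α‖ * R * W / θ)]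
    with l hl0 hl b c x hb hbθ hx hc h
  have hb0 : 0 < ‖b‖ := norm_pos_iff.2 hb
  have hc0 : 0 < ‖c‖ := norm_pos_iff.2 hc
  have hp : ‖pl α β x b‖ ≤ 2 * ‖b‖ * W := norm_pl_le (hx.trans (le_abs_self X)) b
  have h0 : l * ‖c ⨯₃ pl α β x b‖ ≤ R * (‖c‖ * (2 * ‖b‖ * W)) := h.trans (by gcongr)
  have e1 : (α ⨯₃ β) ⬝ᵥ (c ⨯₃ pl α β x b) = ((α ⨯₃ β) ⬝ᵥ b) * (β ⬝ᵥ c - x * (α ⬝ᵥ c)) := by
    simp [pl, cross_apply, dotProduct, Fin.sum_univ_three]; ring
  have e2 : ((α ⨯₃ β) ⬝ᵥ b) • c = -(α ⨯₃ (c ⨯₃ pl α β x b)) - (α ⬝ᵥ c) • pl α β x b := by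
    rw [cross_cross_eq_smul_sub_smul', dot_pl, neg_smul, dotProduct_comm c α]; abel
  have h1 : θ * ‖b‖ * |β ⬝ᵥ c - x * (α ⬝ᵥ c)| ≤ 3 * ‖α ⨯₃ β‖ * ‖c ⨯₃ pl α β x b‖ := by
    refine le_trans ?_ (abs_dot_le _ _)
    rw [e1, abs_mul]; gcongr
  have h2 : θ * ‖b‖ * ‖c‖ ≤ 2 * ‖α‖ * ‖c ⨯₃ pl α β x b‖ + |α ⬝ᵥ c| * (2 * ‖b‖ * W) := by
    have h3 := norm_sub_le (-(α ⨯₃ (c ⨯₃ pl α β x b))) ((α ⬝ᵥ c) • pl α β x b)
    rw [← e2, norm_neg, norm_smul, norm_smul, Real.norm_eq_abs, Real.norm_eq_abs] at h3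
    have h4 := norm_cross_le α (c ⨯₃ pl α β x b)
    have h5 := mul_le_mul_of_nonneg_left hp (abs_nonneg (α ⬝ᵥ c))
    nlinarith
  rw [div_le_iff₀ hθ] at hl
  have h3 : θ * ‖c‖ ≤ 4 * W * |α ⬝ᵥ c| := by
    have h4 : l * (2 * ‖α‖ * ‖c ⨯₃ pl α β x b‖) ≤ l * (θ * ‖b‖ * ‖c‖ / 2) := by
      have := mul_le_mul_of_nonneg_left h0 (show 0 ≤ 2 * ‖α‖ by positivity)
      have := mul_le_mul_of_nonneg_right hl (show 0 ≤ ‖b‖ * ‖c‖ / 2 by positivity)
      nlinarith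
    have h5 := le_of_mul_le_mul_left h4 hl0
    refine le_of_mul_le_mul_left (a := ‖b‖) ?_ hb0
    nlinarith
  have h4 : 0 < |α ⬝ᵥ c| := by
    by_contra hn
    rw [le_antisymm (not_lt.1 hn) (abs_nonneg _)] at h3
    nlinarith [mul_pos hθ hc0]
  have h5 : l * tc α β c - l * x = l * (β ⬝ᵥ c - x * (α ⬝ᵥ c)) / (α ⬝ᵥ c) := by
    have := abs_pos.1 h4
    rw [tc]; field_simp
  refine le_trans ?_ (le_add_of_nonneg_right zero_le_one)
  rw [h5, abs_div, abs_mul, abs_of_pos hl0, div_le_div_iff₀ h4 (by positivity)]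
  have h6 : θ * (l * |β ⬝ᵥ c - x * (α ⬝ᵥ c)|) ≤ 6 * ‖α ⨯₃ β‖ * R * W * ‖c‖ := by
    refine le_of_mul_le_mul_left (a := ‖b‖) ?_ hb0
    have := mul_le_mul_of_nonneg_left h1 hl0.le
    have := mul_le_mul_of_nonneg_left h0 (show 0 ≤ 3 * ‖α ⨯₃ β‖ by positivity)
    nlinarith
  have := mul_le_mul_of_nonneg_left h6 hθ.le
  have := mul_le_mul_of_nonneg_left h3 (show 0 ≤ 6 * ‖α ⨯₃ β‖ * R * W by positivity)
  nlinarith

end Crest.Agent.N111.St
end

-- ▼ part N111/F/Star2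
section

/-! # Row 111, (**): families of caps are dominated by a positive triple operator integral. -/

set_option autoImplicit false

namespace Crest.Agent.N111.St

open MeasureTheory Topology Filter Matrix
open scoped InnerProductSpace ContDiff

variable {K : Type} [NormedAddCommGroup K] [InnerProductSpace ℂ K] [CompleteSpace K]

/-- functions supported in caps of size `R / l` with bounded overlap -/
structure Fam (F : Finset Γ) (φ N : Γ → V → ℂ) (B R η ε l : ℝ) (n₀ : ℕ) : Prop where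
  bmφ : ∀ μ, BM (φ μ)
  bmN : ∀ μ, BM (N μ)
  bdφ : ∀ μ a, ‖φ μ a‖ ≤ B
  bdN : ∀ μ a, ‖N μ a‖ ≤ B
  zN : ∀ μ, N μ 0 = 0
  diam : ∀ μ ∈ F, ∀ a a', φ μ a ≠ 0 ∨ N μ a ≠ 0 → φ μ a' ≠ 0 →
    l * ‖a ⨯₃ a'‖ ≤ R * (‖a‖ * ‖a'‖)
  ov : ∀ a, a ≠ 0 → ∀ F' ⊆ F, (∀ μ ∈ F', φ μ a ≠ 0) → F'.card ≤ n₀
  md : ∀ μ ∈ F, ∀ a a', a ≠ 0 → a' ≠ 0 → l * ‖a ⨯₃ a'‖ ≤ η * (‖a‖ * ‖a'‖) →
    ‖φ μ a - φ μ a'‖ ≤ ε

theorem ae_mem {Y : Type} [MeasurableSpace Y] (P : POVM Y K) {O : Set Y} (hO : MeasurableSet O)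
    {ζ : K} (h : P.E (ic O) ζ = ζ) : ∀ᵐ y ∂P.ν ζ, y ∈ O :=
  P.ν_eq_zero hO.compl (by rw [P.E_ic_compl hO]; simp [h])

theorem sum_le_card {α : Type*} {s : Finset α} {u : α → ℝ} {D : ℝ} {n : ℕ} (hD : 0 ≤ D)
    (h : ∀ μ ∈ s, u μ ≤ D) (hc : ∀ s' ⊆ s, (∀ μ ∈ s', u μ ≠ 0) → s'.card ≤ n) :
    ∑ μ ∈ s, u μ ≤ n * D := by
  classical
  rw [← Finset.sum_filter_ne_zero]
  refine (Finset.sum_le_card_nsmul _ _ D fun μ hμ => h μ (Finset.mem_filter.1 hμ).1).trans ?_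
  rw [nsmul_eq_mul]
  gcongr
  exact hc _ (Finset.filter_subset _ _) fun μ hμ => (Finset.mem_filter.1 hμ).2

theorem Fam.sum_sub {F : Finset Γ} {φ N : Γ → V → ℂ} {B R η ε l : ℝ} {n₀ : ℕ}
    (h : Fam F φ N B R η ε l n₀) {a a' : V} (ha : a ≠ 0) (ha' : a' ≠ 0)
    (hc : l * ‖a ⨯₃ a'‖ ≤ η * (‖a‖ * ‖a'‖)) :
    ∑ μ ∈ F, ‖φ μ a - φ μ a'‖ ^ 2 ≤ (n₀ + n₀ : ℕ) * ε ^ 2 := by
  classical
  refine sum_le_card (sq_nonneg ε) (fun μ hμ => pow_le_pow_left₀ (norm_nonneg _)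
    (h.md μ hμ a a' ha ha' hc) 2) fun s hs h0 => ?_
  rw [← Finset.card_filter_add_card_filter_not (s := s) fun μ => φ μ a ≠ 0]
  refine add_le_add (h.ov a ha _ ((Finset.filter_subset _ _).trans hs) fun μ hμ =>
    (Finset.mem_filter.1 hμ).2) (h.ov a' ha' _ ((Finset.filter_subset _ _).trans hs)
      fun μ hμ e => h0 μ (Finset.mem_filter.1 hμ).1 ?_)
  rw [e, not_not.1 (Finset.mem_filter.1 hμ).2]; simp

theorem chart_est {P Cc Q : POVM V K} (hP : Flag P Q) (hC : Cc.IsPVM)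
    (hCQ : ∀ f h, BM f → BM h → Commute (Cc.E f) (Q.E h)) (α β : V) {S S' : Set V}
    (mS : MeasurableSet S) (mS' : MeasurableSet S') {T θ : ℝ} (hT : 0 ≤ T) (hθ : 0 < θ)
    (hS : ∀ a ∈ S, α ⬝ᵥ a ≠ 0 ∧ |tc α β a| ≤ T)
    (hS' : ∀ b ∈ S', b ≠ 0 ∧ θ * ‖b‖ ≤ |(α ⨯₃ β) ⬝ᵥ b|) {ζ : K} (hζ : P.E (ic S) ζ = ζ)
    (hζ' : Q.E (ic S') ζ = ζ) (B : ℝ) {R η : ℝ} (hR : 0 ≤ R) (hη : 0 < η) (n₀ : ℕ) :
    ∃ c, Integrable c ∧ Ev c ∧ (∀ l, 0 < l → 0 ≤ (⟪ζ, toi (Wc ![P, Cc, P] α β) c l ζ⟫_ℂ).re) ∧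
      ∃ C₁ > (0 : ℝ), ∀ᶠ l in atTop, ∀ F φ N ε, Fam F φ N B R η ε l n₀ →
        ∑ μ ∈ F, ‖Cc.E (N μ) (P.E (φ μ) ζ)‖ ^ 2 ≤ 4 * B ^ 2 * n₀ * ε ^ 2 * ‖ζ‖ ^ 2
          + C₁ * (⟪ζ, toi (Wc ![P, Cc, P] α β) c l ζ⟫_ℂ).re := by
  classical
  obtain ⟨J, hJ, hJE, hJ1⟩ := hP.exists_joint
  obtain ⟨J', hJ', hJE'⟩ := POVM.exists_joint hC hP.pvm' hCQ
  obtain ⟨R', hR', hcl⟩ := close α β hθ (T + 1) hR
  set h := η * θ / (9 * ‖α‖ ^ 2 + 1) with hh
  have h0 : 0 < h := by positivity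
  have hhη : 9 * ‖α‖ ^ 2 * h ≤ η * θ := by
    have : (9 * ‖α‖ ^ 2 + 1) * h = η * θ := by rw [hh]; field_simp
    linarith
  obtain ⟨c, c1, c2, hc⟩ := exists_ker (χ := fun y => ch (y / h)) (N := nu R') (by fun_prop)
    (hasCompactSupport_ch h0) (contDiff_nu R') (hasCompactSupport_nu hR')
  have aS := ae_mem P mS hζ
  have bm1 : ∀ l x : ℝ, BM fun a => ((ch ((l * tc α β a - x) / h) : ℝ) : ℂ) := fun l x =>
    BM.ofReal (C := 1) (by fun_prop) fun a => by rw [abs_of_nonneg (ch_nonneg _)]; exact ch_le_one _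
  have bm2 : ∀ l x : ℝ, BM fun a => ((nu R' (l * tc α β a - x) : ℝ) : ℂ) := fun l x =>
    BM.ofReal (C := 1) (by fun_prop) fun a => by
      rw [abs_of_nonneg (nu_nonneg _ _)]; exact nu_le_one _ _
  let H : ℝ → ℝ → ℝ := fun l x => ‖Cc.E (fun a => (nu R' (l * tc α β a - x) : ℂ))
    (P.E (fun a => (ch ((l * tc α β a - x) / h) : ℂ)) ζ)‖ ^ 2
  have hk : ∀ l, 0 < l → Integrable (H l) ∧
      ∫ x, H l x ≤ (⟪ζ, toi (Wc ![P, Cc, P] α β) c l ζ⟫_ℂ).re := fun l hl => by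
    have := hc K (P.map _ (measurable_tc α β)) (Cc.map _ (measurable_tc α β)) (hP.pvm.map _ _)
      (hC.map _ _) l hl T ζ ((P.E_apply_congr ((BM.ic measurableSet_Icc).comp (measurable_tc α β))
        (BM.ic mS) (aS.mono fun a ha => by
          simp only [ic_of_mem ha, ic_of_mem (show tc α β a ∈ Set.Icc (-T) T from
            abs_le.1 (hS a ha).2)])).trans hζ)
    rwa [toi_congr (W' := Wc ![P, Cc, P] α β) fun f _ => by
      rw [Wc, word_three, word_three]; rfl] at this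
  refine ⟨c, c1, c2, fun l hl => (integral_nonneg fun x => sq_nonneg _).trans (hk l hl).2,
    2 * ((⌈R' / h⌉₊ + 1 : ℕ) * (n₀ * B ^ 4)) / h + 1, by positivity, ?_⟩
  filter_upwards [hcl, eventually_gt_atTop 0, eventually_ge_atTop (2 * h)]
    with l hcl hl hlh F φ N ε hF
  set M : ℕ := ⌈l * T / h⌉₊ + 1 with hM
  have hHc : Continuous (H l) := by
    have s1 := (Cc.sCont_E (f := fun (x : ℝ) a => ((nu R' (l * tc α β a - x) : ℝ) : ℂ)) (C := 1)
      (fun x => (bm2 l x).1) (fun x a => by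
        rw [Complex.norm_real, Real.norm_of_nonneg (nu_nonneg _ _)]; exact nu_le_one _ _)
      fun a => by fun_prop).mul (P.sCont_E
        (f := fun (x : ℝ) a => ((ch ((l * tc α β a - x) / h) : ℝ) : ℂ)) (C := 1)
        (fun x => (bm1 l x).1) (fun x a => by
          rw [Complex.norm_real, Real.norm_of_nonneg (ch_nonneg _)]; exact ch_le_one _)
        fun a => by fun_prop)
    exact (s1.1 ζ).norm.pow 2
  obtain ⟨τ, τ0, τ1, hgrid⟩ := exists_grid (H := fun y => H l (h * y)) (by fun_prop) M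
  have hgrid' : ∑ n ∈ Finset.range (2 * M), H l (h * (n + τ - M))
      ≤ h⁻¹ * (⟪ζ, toi (Wc ![P, Cc, P] α β) c l ζ⟫_ℂ).re := by
    refine (hgrid.trans (setIntegral_le_integral ((hk l hl).1.comp_mul_left' h0.ne')
      (Eventually.of_forall fun x => sq_nonneg _))).trans ?_
    rw [Measure.integral_comp_mul_left (H l), abs_of_pos (inv_pos.2 h0), smul_eq_mul]
    gcongr; exact (hk l hl).2
  let x : ℕ → ℝ := fun n => h * (n + τ - M) / l
  have hlx : ∀ n, l * x n = h * (n + τ - M) := fun n => mul_div_cancel₀ _ hl.ne'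
  have hx : ∀ n ∈ Finset.range (2 * M), |x n| ≤ T + 1 := fun n hn => by
    have h1 : (n : ℝ) + 1 ≤ 2 * M := by exact_mod_cast Finset.mem_range.1 hn
    have h2 : (M : ℝ) ≤ l * T / h + 2 := by
      have := Nat.ceil_lt_add_one (show 0 ≤ l * T / h by positivity)
      rw [hM]; push_cast; linarith
    have h3 : |(n : ℝ) + τ - M| ≤ M := by
      rw [abs_le]; constructor <;> linarith [(Nat.cast_nonneg n : (0 : ℝ) ≤ n)]
    rw [abs_div, abs_mul, abs_of_pos h0, abs_of_pos hl, div_le_iff₀ hl]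
    have h4 : h * (l * T / h + 2) = l * T + 2 * h := by field_simp
    nlinarith [mul_le_mul_of_nonneg_left (h3.trans h2) h0.le]
  have hγ : ∀ b ∈ S', (α ⨯₃ β) ⬝ᵥ b ≠ 0 := fun b hb => abs_pos.1
    ((mul_pos hθ (norm_pos_iff.2 (hS' b hb).1)).trans_le (hS' b hb).2)
  let χ : ℕ → V → ℝ := fun n a => ch ((l * tc α β a - h * (n + τ - M)) / h)
  let co : ℕ → Γ → V → ℂ := fun n μ b => ic S' b * φ μ (pl α β (x n) b)
  have bco : ∀ n μ, BM (co n μ) := fun n μ =>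
    (BM.ic mS').mul ((hF.bmφ μ).comp (measurable_pl α β _))
  have hco : ∀ n μ b, co n μ b ≠ 0 → b ∈ S' ∧ φ μ (pl α β (x n) b) ≠ 0 := fun n μ b e =>
    ⟨by_contra fun hb => e (by simp [co, hb]), right_ne_zero_of_mul e⟩
  let G : Set (V × V) := (S ×ˢ S') ∩ {z | z.1 ⬝ᵥ z.2 = 0}
  have mF : MeasurableSet {z : V × V | z.1 ⬝ᵥ z.2 = 0} :=
    (isClosed_eq (by unfold dotProduct; fun_prop) continuous_const).measurableSet
  have mG : MeasurableSet G := (mS.prod mS').inter mF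
  have aG : ∀ᵐ z ∂J.ν ζ, z ∈ G := by
    have m1 : MeasurableSet {z : V × V | ‖z.1‖ = 1 ∧ ‖z.2‖ = 1 ∧ z.1 ⬝ᵥ z.2 = 0} :=
      (isClosed_eq (by fun_prop) continuous_const).measurableSet.inter
        ((isClosed_eq (by fun_prop) continuous_const).measurableSet.inter mF)
    have a1 := ae_mem J m1 (ζ := ζ) (by rw [hJ1]; rfl)
    have a2 := ae_mem J (mS.prod mS') (ζ := ζ) (by
      rw [show ic (S ×ˢ S') = fun z => ic S z.1 * ic S' z.2 from funext fun z => by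
        by_cases h1 : z.1 ∈ S <;> by_cases h2 : z.2 ∈ S' <;> simp [h1, h2],
        hJE _ _ (BM.ic mS) (BM.ic mS'), mul_apply_eq_comp, hζ', hζ])
    filter_upwards [a1, a2] with z h1 h2 using ⟨h2, h1.2.2⟩
  have bsum : ∀ μ, BM fun z : V × V => ∑ n ∈ Finset.range (2 * M), (χ n z.1 : ℂ) * co n μ z.2 :=
    fun μ => BM.sum _ fun n _ => ((bm1 l _).comp measurable_fst).mul ((bco n μ).comp measurable_snd)
  let er : Γ → V × V → ℂ := fun μ z =>
    ic G z * (φ μ z.1 - ∑ n ∈ Finset.range (2 * M), (χ n z.1 : ℂ) * co n μ z.2)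
  have ber : ∀ μ, BM (er μ) := fun μ =>
    (BM.ic mG).mul (((hF.bmφ μ).comp measurable_fst).sub (bsum μ))
  have hdec : ∀ μ, P.E (φ μ) ζ = J.E (er μ) ζ + ∑ n ∈ Finset.range (2 * M),
      Q.E (co n μ) (P.E (fun a => (χ n a : ℂ)) ζ) := fun μ => by
    have e1 := hJE _ _ (hF.bmφ μ) (BM.const 1)
    rw [Q.E_one, mul_one] at e1
    rw [← e1, J.E_apply_congr (((hF.bmφ μ).comp measurable_fst).mul (BM.const 1))
      ((ber μ).add (bsum μ)) (aG.mono fun z hz => by simp [er, ic_of_mem hz]),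
      J.E_add (ber μ) (bsum μ), J.E_sum _ fun n _ =>
        ((bm1 l _).comp measurable_fst).mul ((bco n μ).comp measurable_snd),
      _root_.add_apply, _root_.sum_apply]
    congr 1
    refine Finset.sum_congr rfl fun n _ => ?_
    rw [hJE _ _ (bm1 l _) (bco n μ), (hP.comm _ _ (bm1 l _) (bco n μ)).eq]; rfl
  have herr : ∑ μ ∈ F, ‖J.E (er μ) ζ‖ ^ 2 ≤ (n₀ + n₀ : ℕ) * ε ^ 2 * ‖ζ‖ ^ 2 := by
    refine J.sum_norm_E_sq_le F (fun μ _ => ber μ) (fun z => ?_) ζ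
    by_cases hz : z ∈ G
    swap
    · simp only [er, ic_of_notMem hz, zero_mul, norm_zero]; simp; positivity
    obtain ⟨⟨ha, hb⟩, hab⟩ := hz
    have h1 : ∑ n ∈ Finset.range (2 * M), χ n z.1 = 1 := by
      rw [← sum_ch (y := l * tc α β z.1 / h) τ0 τ1 (M := M) ?_]
      · refine Finset.sum_congr rfl fun n _ => ?_
        simp only [χ]; congr 1; field_simp
      · have := Nat.le_ceil (l * T / h)
        rw [hM, abs_div, abs_mul, abs_of_pos hl, abs_of_pos h0]; push_cast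
        have h2 : l * |tc α β z.1| / h ≤ l * T / h := by gcongr; exact (hS _ ha).2
        linarith
    have h2 : ∀ μ, ‖er μ z‖ ^ 2 ≤ ∑ n ∈ Finset.range (2 * M),
        χ n z.1 * ‖φ μ z.1 - φ μ (pl α β (x n) z.2)‖ ^ 2 := fun μ => by
      refine le_trans (le_of_eq ?_) (norm_sum_sq_le _ (w := fun n => χ n z.1)
        (fun n _ => ch_nonneg _) h1 _)
      simp only [er, co, ic_of_mem (show z ∈ G from ⟨⟨ha, hb⟩, hab⟩), ic_of_mem hb, one_mul, mul_sub,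
        Finset.sum_sub_distrib, ← Finset.sum_mul, ← Complex.ofReal_sum, h1, Complex.ofReal_one]
    refine (Finset.sum_le_sum fun μ _ => h2 μ).trans ?_
    rw [Finset.sum_comm, ← one_mul (((n₀ + n₀ : ℕ) : ℝ) * ε ^ 2), ← h1, Finset.sum_mul]
    refine Finset.sum_le_sum fun n _ => ?_
    rw [← Finset.mul_sum]
    rcases eq_or_ne (χ n z.1) 0 with e | e
    · simp [e]
    have ha0 : z.1 ≠ 0 := fun e => (hS _ ha).1 (by rw [e, dotProduct_zero])
    refine mul_le_mul_of_nonneg_left (hF.sum_sub ha0 (pl_ne_zero (hγ _ hb) _) ?_) (ch_nonneg _)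
    have h3 : l * |tc α β z.1 - x n| ≤ h := by
      have := not_le.1 (mt ch_eq_zero e)
      rw [abs_div, abs_of_pos h0, div_lt_one h0, ← hlx, ← mul_sub, abs_mul, abs_of_pos hl] at this
      exact this.le
    have h4 := mul_le_mul_of_nonneg_left (norm_cross_pl (β := β) (hS _ ha).1 hab (x n)) hl.le
    have h5 := le_norm_pl (hS' _ hb).2 (x n)
    refine le_of_mul_le_mul_left (a := θ) ?_ hθ
    have h6 := mul_le_mul_of_nonneg_left h3 (show 0 ≤ 3 * ‖α‖ * ‖z.1‖ * ‖z.2‖ by positivity)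
    have h7 := mul_le_mul_of_nonneg_left h5 (show 0 ≤ 3 * ‖α‖ * ‖z.1‖ * h by positivity)
    have h8 := mul_le_mul_of_nonneg_left hhη
      (show 0 ≤ ‖z.1‖ * ‖pl α β (x n) z.2‖ by positivity)
    nlinarith [mul_le_mul_of_nonneg_left (h4.trans (le_of_eq_of_le (by ring) h6)) hθ.le]
  have hmain : ∀ μ ∈ F, ‖Cc.E (N μ) (∑ n ∈ Finset.range (2 * M),
      Q.E (co n μ) (P.E (fun a => (χ n a : ℂ)) ζ))‖ ^ 2 ≤ (⌈R' / h⌉₊ + 1 : ℕ) *
        ∑ n ∈ Finset.range (2 * M), ‖J'.E (fun z => N μ z.1 * co n μ z.2)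
          (P.E (fun a => (χ n a : ℂ)) ζ)‖ ^ 2 := fun μ hμ => by
    have me : ∀ n, MeasurableSet {b | co n μ b ≠ 0} := fun n =>
      ((bco n μ).1 (measurableSet_singleton 0)).compl
    refine le_trans (le_of_eq ?_) (Q.norm_sum_E_sq_le _ (fun n _ => BM.ic (me n)) (by positivity)
      (fun b => ?_) _)
    · rw [map_sum]
      congr 2
      refine Finset.sum_congr rfl fun n _ => ?_
      have e1 : Cc.E (N μ) * Q.E (co n μ)
          = Q.E (ic {b | co n μ b ≠ 0}) * (Cc.E (N μ) * Q.E (co n μ)) := by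
        rw [← mul_assoc, ← (hCQ _ _ (hF.bmN μ) (BM.ic (me n))).eq, mul_assoc,
          ← hP.pvm' _ _ (BM.ic (me n)) (bco n μ)]
        congr 2; funext b
        by_cases e : co n μ b = 0 <;> simp [e]
      rw [hJE' _ _ (hF.bmN μ) (bco n μ)]
      exact congrArg (fun X : K →L[ℂ] K => X _) e1
    · rw [← mul_one ((⌈R' / h⌉₊ + 1 : ℕ) : ℝ)]
      refine sum_le_card zero_le_one (fun n _ => pow_le_one₀ (norm_nonneg _) (norm_ic_le _ _))
        fun s hs e => card_le_of_close fun n hn m hm => ?_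
      have e1 : ∀ n ∈ s, co n μ b ≠ 0 := fun n hn => by_contra fun e' => e n hn (by
        rw [ic_of_notMem (show b ∉ {b | co n μ b ≠ 0} from e')]; simp)
      obtain ⟨hb, p1⟩ := hco _ _ _ (e1 n hn)
      obtain ⟨-, p2⟩ := hco _ _ _ (e1 m hm)
      have := hcl b _ (x m) (hS' b hb).1 (hS' b hb).2 (hx m (hs hm)) (pl_ne_zero (hγ b hb) _)
        (hF.diam μ hμ _ _ (Or.inl p1) p2)
      rw [tc_pl (hγ b hb), hlx, hlx] at this
      have h1 : (n : ℝ) - m ≤ R' / h := by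
        rw [le_div_iff₀ h0]; linarith [(abs_le.1 this).2]
      have h2 := Nat.le_ceil (R' / h)
      exact_mod_cast (show (n : ℝ) ≤ m + ⌈R' / h⌉₊ by linarith)
  have hC' : ∀ n ∈ Finset.range (2 * M), ∀ v, ∑ μ ∈ F, ‖J'.E (fun z => N μ z.1 * co n μ z.2) v‖ ^ 2
      ≤ n₀ * B ^ 4 * ‖Cc.E (fun a => (nu R' (l * tc α β a - h * (n + τ - M)) : ℂ)) v‖ ^ 2 :=
    fun n hn v => by
      have b1 : ∀ μ, BM fun z : V × V => N μ z.1 * co n μ z.2 := fun μ =>
        ((hF.bmN μ).comp measurable_fst).mul ((bco n μ).comp measurable_snd)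
      have e1 := hJE' _ _ (bm2 l (h * (n + τ - M))) (BM.const 1)
      rw [Q.E_one, mul_one] at e1
      have b2 := ((bm2 l (h * (n + τ - M))).comp (measurable_fst (β := V))).mul (BM.const 1)
      have e2 : ∀ μ ∈ F, J'.E (fun z => N μ z.1 * co n μ z.2) v = J'.E (fun z => N μ z.1 * co n μ z.2)
          (Cc.E (fun a => (nu R' (l * tc α β a - h * (n + τ - M)) : ℂ)) v) := fun μ hμ => by
        rw [← e1, ← mul_apply_eq_comp, ← hJ' _ _ (b1 μ) b2]
        congr 2; funext z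
        by_cases e : N μ z.1 * co n μ z.2 = 0
        · rw [e, zero_mul]
        obtain ⟨hb, p⟩ := hco _ _ _ (right_ne_zero_of_mul e)
        have := hcl z.2 z.1 (x n) (hS' _ hb).1 (hS' _ hb).2 (hx n hn)
          (fun e' => left_ne_zero_of_mul e (by rw [e', hF.zN]))
          (hF.diam μ hμ _ _ (Or.inr (left_ne_zero_of_mul e)) p)
        rw [← hlx, nu_eq_one hR' this]; simp
      rw [Finset.sum_congr rfl fun μ hμ => by rw [e2 μ hμ]]
      refine J'.sum_norm_E_sq_le F (fun μ _ => b1 μ) (fun z => ?_) _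
      refine sum_le_card (by positivity) (fun μ _ => ?_) fun s hs e => ?_
      · have h1 := hF.bdN μ z.1
        have h2 : ‖co n μ z.2‖ ≤ B := by
          rw [norm_mul]
          exact (mul_le_of_le_one_left (norm_nonneg _) (norm_ic_le _ _)).trans (hF.bdφ μ _)
        rw [norm_mul, show B ^ 4 = (B * B) ^ 2 by ring]
        gcongr
        exact (norm_nonneg _).trans h1
      · rcases s.eq_empty_or_nonempty with rfl | ⟨μ, hμ⟩
        · simp
        have e3 : ∀ μ ∈ s, co n μ z.2 ≠ 0 := fun μ hμ e' => e μ hμ (by simp [e'])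
        exact hF.ov _ (pl_ne_zero (hγ _ (hco _ _ _ (e3 μ hμ)).1) _) s hs
          fun μ hμ => (hco _ _ _ (e3 μ hμ)).2
  have hsplit : ∀ μ ∈ F, ‖Cc.E (N μ) (P.E (φ μ) ζ)‖ ^ 2 ≤ 2 * B ^ 2 * ‖J.E (er μ) ζ‖ ^ 2 +
      2 * ((⌈R' / h⌉₊ + 1 : ℕ) * ∑ n ∈ Finset.range (2 * M), ‖J'.E (fun z => N μ z.1 * co n μ z.2)
          (P.E (fun a => (χ n a : ℂ)) ζ)‖ ^ 2) := fun μ hμ => by
    have hB : 0 ≤ B := (norm_nonneg _).trans (hF.bdN μ 0)
    have h1 := Cc.norm_E_apply_le (hF.bmN μ) hB (J.E (er μ) ζ) (Eventually.of_forall (hF.bdN μ))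
    have h2 := hmain μ hμ
    rw [hdec μ, map_add]
    generalize Cc.E (N μ) (J.E (er μ) ζ) = u at h1 ⊢
    generalize Cc.E (N μ) (∑ n ∈ Finset.range (2 * M), _) = w at h2 ⊢
    have h3 := pow_le_pow_left₀ (norm_nonneg _) h1 2
    have h4 := pow_le_pow_left₀ (norm_nonneg _) (norm_add_le u w) 2
    nlinarith [sq_nonneg (‖u‖ - ‖w‖)]
  refine (Finset.sum_le_sum hsplit).trans ?_
  rw [Finset.sum_add_distrib, ← Finset.mul_sum, ← Finset.mul_sum, ← Finset.mul_sum, Finset.sum_comm]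
  have h1 := (Finset.sum_le_sum fun n hn => hC' n hn (P.E (fun a => (χ n a : ℂ)) ζ))
  rw [← Finset.mul_sum] at h1
  have h2 := h1.trans (mul_le_mul_of_nonneg_left hgrid' (by positivity))
  have h3 := (integral_nonneg fun x => sq_nonneg _).trans (hk l hl).2
  refine add_le_add ((mul_le_mul_of_nonneg_left herr (by positivity)).trans_eq (by push_cast; ring))
    ((mul_le_mul_of_nonneg_left (mul_le_mul_of_nonneg_left h2 (by positivity)) zero_le_two).trans ?_)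
  rw [add_mul, one_mul]
  exact (le_of_eq (by rw [div_eq_mul_inv]; ring)).trans (le_add_of_nonneg_right h3)

end Crest.Agent.N111.St
end

-- ▼ part N111/F/Star3
section

/-! # Row 111, (**): the caps attached to a shell. -/

set_option autoImplicit false

namespace Crest.Agent.N111.St

open MeasureTheory Topology Filter Matrix
open scoped InnerProductSpace

/-- distortion at the scale `nm m * nm m⁻¹` -/
theorem distort {m : G} {a a' : V} {ρ : ℝ} (ha : a ≠ 0) (ha' : a' ≠ 0) (hρ : ρ ≤ 1 / 2)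
    (h : 18 * (nm m * nm m⁻¹) * ‖a ⨯₃ a'‖ ≤ ρ * (‖a‖ * ‖a'‖)) :
    ‖ac m a ⨯₃ ac m a'‖ ≤ 2 * ρ * (‖ac m a‖ * ‖ac m a'‖) ∧
    |Real.log ‖ac m a‖ - Real.log ‖a‖ - (Real.log ‖ac m a'‖ - Real.log ‖a'‖)| ≤ 4 * ρ := by
  obtain ⟨κ, r, e, -, hr⟩ := exists_decomp ha a'
  rw [← cross_anticomm, norm_neg] at hr
  have h0 : 0 < ‖a‖ := norm_pos_iff.2 ha
  have h0' : 0 < ‖a'‖ := norm_pos_iff.2 ha'
  have hm := (nm_pos m).le
  have hm' := (nm_pos m⁻¹).le
  have h1 : ‖a'‖ ≤ 3 * nm m⁻¹ * ‖ac m a'‖ := by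
    simpa only [← ac_mul, inv_mul_cancel, ac_one] using norm_ac_le m⁻¹ (ac m a')
  have h2 : 9 * (nm m * nm m⁻¹) * ‖r‖ ≤ ρ * ‖a'‖ := by
    refine le_of_mul_le_mul_left (a := ‖a‖) ?_ h0
    nlinarith [mul_le_mul_of_nonneg_left hr (show 0 ≤ 9 * (nm m * nm m⁻¹) by positivity)]
  have hρ0 : 0 ≤ ρ := nonneg_of_mul_nonneg_left (le_trans (by positivity) h2) h0'
  have h3 : 1 ≤ 9 * (nm m * nm m⁻¹) := by
    have := h1.trans (mul_le_mul_of_nonneg_left (norm_ac_le m a') (by positivity))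
    exact le_of_mul_le_mul_right (a := ‖a'‖) (by linarith) h0'
  have h4 : ‖r‖ ≤ ρ * ‖a'‖ := (le_mul_of_one_le_left (norm_nonneg _) h3).trans h2
  have h5 : ‖ac m r‖ ≤ ρ * ‖ac m a'‖ := by
    refine le_of_mul_le_mul_left (a := 3 * nm m⁻¹) ?_ (by have := nm_pos m⁻¹; positivity)
    nlinarith [mul_le_mul_of_nonneg_left (norm_ac_le m r) (show 0 ≤ 3 * nm m⁻¹ by positivity),
      mul_le_mul_of_nonneg_left h1 hρ0]
  have e' : ac m a' = κ • ac m a + ac m r := by rw [e, ac_add, ac_smul]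
  have hκ : κ ≠ 0 := fun e0 => by
    rw [e0, zero_smul, zero_add] at e
    rw [← e] at h4; nlinarith
  constructor
  · nth_rewrite 1 [e']
    rw [map_add, map_smul, cross_self, smul_zero, zero_add]
    nlinarith [norm_cross_le (ac m a) (ac m r),
      mul_le_mul_of_nonneg_left h5 (norm_nonneg (ac m a))]
  · have k1 := abs_log_sub_le (y := ‖κ • a‖) h0' hρ
      ((abs_norm_sub_norm_le _ _).trans (by rwa [show a' - κ • a = r by rw [e]; abel]))
    have k2 := abs_log_sub_le (y := ‖κ • ac m a‖) (norm_pos_iff.2 (ac_ne_zero m ha')) hρ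
      ((abs_norm_sub_norm_le _ _).trans (by
        rwa [show ac m a' - κ • ac m a = ac m r by rw [e']; abel]))
    rw [norm_smul, Real.log_mul (norm_ne_zero_iff.2 hκ) h0.ne'] at k1
    rw [norm_smul, Real.log_mul (norm_ne_zero_iff.2 hκ) (norm_ne_zero_iff.2 (ac_ne_zero m ha))] at k2
    rw [abs_le] at k1 k2 ⊢
    constructor <;> linarith [k1.1, k1.2, k2.1, k2.2]

theorem fam_shell {f N g : V → ℂ} (hf : BM f) (hf0 : Hom0 f) (hfc : ContinuousOn f {0}ᶜ)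
    (hN : BM N) {B θ : ℝ} (hfB : ∀ a, ‖f a‖ ≤ B) (hNB : ∀ a, ‖N a‖ ≤ B) (hθ : 0 < θ)
    (h₁ : ∀ a b, N a ≠ 0 → g b ≠ 0 → θ * (‖a‖ * ‖b‖) ≤ |a ⬝ᵥ b|)
    (h₂ : ∀ a b, f a ≠ 0 → g b ≠ 0 → θ * (‖a‖ * ‖b‖) ≤ |a ⬝ᵥ b|) (t R C : ℝ) :
    ∃ R₁ ≥ (0 : ℝ), ∃ n₀ : ℕ, ∀ ε > (0 : ℝ), ∃ η > (0 : ℝ), ∀ (L u : ℝ) (F : Finset Γ),
      |3 * L - u| ≤ C → (∀ μ ∈ F, μ ∈ Sh L R ∧ g (pt μ) ≠ 0) →
      Fam F (fun μ a => f (ac (ι (dl μ)) a) * cz (ι (dl μ)) t a)
        (fun μ a => ic {0}ᶜ a * N (ac (ι (dl μ)) a)) B R₁ η ε (Real.exp u) n₀ := by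
  obtain ⟨n₀, hn⟩ := overlap R (Real.exp R / θ)
  refine ⟨6 * Real.exp (R + C) * (Real.exp R / θ) ^ 2, by positivity, n₀, fun ε hε => ?_⟩
  have hB : 0 ≤ B := (norm_nonneg _).trans (hfB 0)
  obtain ⟨δ, hδ, hu⟩ := hf0.unif hfc (half_pos hε)
  obtain ⟨ρ₀, hρ₀, hρ₁⟩ := exists_eps (x := B * (|t| * 4)) (by positivity) (half_pos hε)
  set ρ := min (min (1 / 2) (δ / 2)) ρ₀ with hρ
  have hρ0 : 0 < ρ := by positivity
  refine ⟨ρ / (18 * Real.exp (2 * R + C)), by positivity, fun L u F hLu hF => ?_⟩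
  have hcz : ∀ m a, ‖cz m t a‖ = 1 := fun m a => norm_ex _
  have con : ∀ μ ∈ F, ∀ a, f (ac (ι (dl μ)) a) ≠ 0 ∨ N (ac (ι (dl μ)) a) ≠ 0 →
      ‖ac (ι (dl μ)) a‖ ≤ Real.exp R / θ * Real.exp (-2 * L) * ‖a‖ := fun μ hμ a ha =>
    norm_ac_dl_le hθ (hF μ hμ).1 (ha.elim (h₂ _ _ · (hF μ hμ).2) (h₁ _ _ · (hF μ hμ).2))
  have n1 : ∀ μ ∈ F, nm (ι (dl μ)) ≤ Real.exp (L + R) := fun μ hμ => by
    rw [ι_dl]; exact Sh.nm_dl_le (hF μ hμ).1
  have n2 : ∀ μ ∈ F, nm (ι (dl μ))⁻¹ ≤ Real.exp (2 * L + R) := fun μ hμ => by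
    rw [ι_dl, ← nm_dl, dl_dl]; exact Sh.nm_le (hF μ hμ).1
  rw [abs_le] at hLu
  refine ⟨fun μ => (hf.comp (measurable_ac _)).mul (bm_cz _ _),
    fun μ => Cv1.bm_cut (hN.comp (measurable_ac _)), fun μ a => by rw [norm_mul, hcz, mul_one]; exact hfB _,
    fun μ a => ?_, fun μ => by simp, fun μ hμ a a' ha ha' => ?_, fun a ha F' hF' h0 => ?_,
    fun μ hμ a a' ha ha' hc => ?_⟩
  · rw [norm_mul]
    exact (mul_le_of_le_one_left (norm_nonneg _) (norm_ic_le _ _)).trans (hNB _)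
  · have c1 := con μ hμ a (ha.imp left_ne_zero_of_mul right_ne_zero_of_mul)
    have c2 := con μ hμ a' (Or.inl (left_ne_zero_of_mul ha'))
    have e : a ⨯₃ a' = ac (dl (ι (dl μ))⁻¹) (ac (ι (dl μ)) a ⨯₃ ac (ι (dl μ)) a') := by
      simp only [← ac_cross, ← ac_mul, inv_mul_cancel, ac_one]
    have c3 : ‖a ⨯₃ a'‖ ≤ 3 * Real.exp (L + R) * (2 * (Real.exp R / θ * Real.exp (-2 * L) * ‖a‖) *
        (Real.exp R / θ * Real.exp (-2 * L) * ‖a'‖)) := by
      rw [e]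
      refine (norm_ac_le _ _).trans ?_
      rw [nm_dl, inv_inv]
      have := n1 μ hμ
      gcongr
      exact (norm_cross_le _ _).trans (by gcongr)
    have c4 : Real.exp u * Real.exp (L + R) * Real.exp (-2 * L) * Real.exp (-2 * L)
        ≤ Real.exp (R + C) := by
      simp only [← Real.exp_add]; exact Real.exp_le_exp.2 (by linarith [hLu.1, hLu.2])
    nlinarith [mul_le_mul_of_nonneg_left c3 (Real.exp_pos u).le, mul_le_mul_of_nonneg_left c4
      (show 0 ≤ 6 * (Real.exp R / θ) ^ 2 * (‖a‖ * ‖a'‖) by positivity)]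
  · exact hn L a ha F' fun μ hμ => ⟨(hF μ (hF' hμ)).1,
      con μ (hF' hμ) a (Or.inl (left_ne_zero_of_mul (h0 μ hμ)))⟩
  · have c1 : nm (ι (dl μ)) * nm (ι (dl μ))⁻¹ ≤ Real.exp (2 * R + C) * Real.exp u :=
      (mul_le_mul (n1 μ hμ) (n2 μ hμ) (nm_pos _).le (Real.exp_pos _).le).trans (by
        simp only [← Real.exp_add]; exact Real.exp_le_exp.2 (by linarith [hLu.1, hLu.2]))
    rw [div_mul_eq_mul_div, le_div_iff₀ (by positivity)] at hc
    obtain ⟨d1, d2⟩ := distort (m := ι (dl μ)) (ρ := ρ) ha ha'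
      ((min_le_left _ _).trans (min_le_left _ _)) (by
        nlinarith [mul_le_mul_of_nonneg_right c1 (norm_nonneg (a ⨯₃ a'))])
    have d3 := hu _ _ (ac_ne_zero _ ha) (ac_ne_zero _ ha') (d1.trans (by
      gcongr; linarith [(min_le_left _ ρ₀).trans (min_le_right (1 / 2) (δ / 2))]))
    have d4 : ‖cz (ι (dl μ)) t a - cz (ι (dl μ)) t a'‖ ≤ |t| * 4 * ρ₀ := by
      refine (norm_ex_sub_ex_le _ _).trans ?_
      rw [← mul_sub, abs_mul, mul_assoc]
      gcongr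
      linarith [min_le_right (min (1 / 2) (δ / 2)) ρ₀]
    rw [show ∀ x y z w : ℂ, x * y - z * w = (x - z) * y + z * (y - w) from fun _ _ _ _ => by ring]
    refine (norm_add_le _ _).trans ?_
    rw [norm_mul, norm_mul, hcz, mul_one]
    nlinarith [mul_le_mul (hfB (ac (ι (dl μ)) a')) d4 (norm_nonneg _) hB]

theorem std_dot {i k m : Fin 3} (hik : i ≠ k) (him : i ≠ m) (hkm : k ≠ m) (b : V) :
    |(ev i ⨯₃ (ev k + (3 : ℝ) • ev i)) ⬝ᵥ b| = |b m| := by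
  fin_cases i <;> fin_cases k <;> fin_cases m <;>
    simp_all [ev, cross_apply, dotProduct, Fin.sum_univ_three]

variable {K : Type} [NormedAddCommGroup K] [InnerProductSpace ℂ K] [CompleteSpace K]

/-- families of caps are small at suitable scales -/
theorem fam_small {P Cc Q : POVM V K} (hP : Flag P Q) (hC : Cc.IsPVM)
    (hCQ : ∀ f h, BM f → BM h → Commute (Cc.E f) (Q.E h))
    (e0 : ∀ c, Integrable c → Ev c → ∀ α β,
      AvT atTop (fun l => toi (Wc ![P, Cc, P] α β) c l * gd P Q α β) 0) (ξ : K) (B : ℝ) {R : ℝ}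
    (hR : 0 ≤ R) (n₀ : ℕ) {δ : ℝ} (hδ : 0 < δ) : ∃ ε > (0 : ℝ), ∀ η > (0 : ℝ), ∃ᶠ u in atTop,
      ∀ F φ N, Fam F φ N B R η ε (Real.exp u) n₀ → ∑ μ ∈ F, ‖Cc.E (N μ) (P.E (φ μ) ξ)‖ ^ 2 ≤ δ := by
  let J := {j : Fin 3 × Fin 3 × Fin 3 // j.1 ≠ j.2.1 ∧ j.1 ≠ j.2.2 ∧ j.2.1 ≠ j.2.2}
  let S : J → Set V := fun j => {0}ᶜ ∩ {a | ‖a‖ ≤ 2 * |a j.1.1|}
  let T : J → Set V := fun j => {0}ᶜ ∩ {b | ‖b‖ = |b j.1.2.2|}
  have mS : ∀ j, MeasurableSet (S j) := fun j => (measurableSet_singleton 0).compl.inter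
    (isClosed_le (by fun_prop) (by fun_prop)).measurableSet
  have mT : ∀ j, MeasurableSet (T j) := fun j => (measurableSet_singleton 0).compl.inter
    (isClosed_eq (by fun_prop) (by fun_prop)).measurableSet
  obtain ⟨E, hE, -⟩ := hP.cover MeasurableSet.univ MeasurableSet.univ mS mT
    fun a _ b _ ha hb hab => by
      have ha0 : a ≠ 0 := norm_ne_zero_iff.1 (by rw [ha]; exact one_ne_zero)
      have hb0 : b ≠ 0 := norm_ne_zero_iff.1 (by rw [hb]; exact one_ne_zero)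
      obtain ⟨i, k, m, h1, h2, h3, h4, h5⟩ := exists_std_chart ha0 hb0 hab
      exact ⟨⟨(i, k, m), h1, h2, h3⟩, ⟨ha0, h5⟩, hb0, h4⟩
  rw [ic_univ, P.E_one, Q.E_one, mul_one] at hE
  set X : J → K →L[ℂ] K := fun j => P.E (ic (S j)) * Q.E (ic (T j)) * E j with hX
  have x1 : ∀ j, P.E (ic (S j)) (X j ξ) = X j ξ := fun j => by
    rw [← mul_apply_eq_comp, hX, ← mul_assoc, ← mul_assoc, hP.pvm.ic_idem (mS j)]
  have x2 : ∀ j, Q.E (ic (T j)) (X j ξ) = X j ξ := fun j => by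
    rw [← mul_apply_eq_comp, hX, ← mul_assoc, ← mul_assoc,
      ← (hP.comm _ _ (BM.ic (mS j)) (BM.ic (mT j))).eq, mul_assoc (P.E _), hP.pvm'.ic_idem (mT j)]
  let α : J → V := fun j => ev j.1.1
  let β : J → V := fun j => ev j.1.2.1 + (3 : ℝ) • ev j.1.1
  have hS : ∀ j, ∀ a ∈ S j, a ∈ GA (α j) (β j) ∧ tc (α j) (β j) a ∈ Set.Icc (1 : ℝ) 5 :=
    fun j a ha => by
      have := mem_std_chart ha.1 (ev_ne_zero j.1.2.2) j.2.1 j.2.2.1 j.2.2.2 (by rw [norm_ev]; simp [ev])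
        ha.2
      exact ⟨this.1, this.2.2⟩
  have hT : ∀ j, ∀ b ∈ T j, b ≠ 0 ∧ 1 * ‖b‖ ≤ |(α j ⨯₃ β j) ⬝ᵥ b| := fun j b hb =>
    ⟨hb.1, by rw [std_dot j.2.1 j.2.2.1 j.2.2.2, one_mul]; exact hb.2.le⟩
  have x3 : ∀ j, gd P Q (α j) (β j) (X j ξ) = X j ξ := fun j => by
    rw [gd, mul_apply_eq_comp, Q.E_apply_congr (BM.ic (isOpen_GB _ _).measurableSet) (BM.ic (mT j))
      ((ae_mem Q (mT j) (x2 j)).mono fun b hb => by
        rw [ic_of_mem hb, ic_of_mem (show b ∈ GB (α j) (β j) from abs_pos.1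
          ((mul_pos one_pos (norm_pos_iff.2 hb.1)).trans_le (hT j b hb).2))]), x2,
      P.E_apply_congr (BM.ic (isOpen_GA _ _).measurableSet) (BM.ic (mS j))
      ((ae_mem P (mS j) (x1 j)).mono fun a ha => by rw [ic_of_mem ha, ic_of_mem (hS j a ha).1]), x1]
  obtain ⟨n, hn⟩ : ∃ n : ℝ, n = ((Finset.univ : Finset J).card : ℝ) := ⟨_, rfl⟩
  have hn0 : 0 ≤ n := hn ▸ Nat.cast_nonneg _
  obtain ⟨e, he, he'⟩ := exists_eps (x := n * ∑ j, 4 * B ^ 2 * n₀ * ‖X j ξ‖ ^ 2) (by positivity)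
    (half_pos hδ)
  refine ⟨√e, Real.sqrt_pos.2 he, fun η hη => ?_⟩
  choose c c1 c2 c3 C hC0 hest using fun j => chart_est hP hC hCQ (α j) (β j) (mS j) (mT j)
    (T := 5) (by norm_num) one_pos (fun a ha => ⟨(hS j a ha).1.1, abs_le.2
      ⟨by linarith [(hS j a ha).2.1], (hS j a ha).2.2⟩⟩) (hT j) (x1 j) (x2 j) B hR hη n₀
  let D : J → ℝ → K →L[ℂ] K := fun j l => ((n * C j : ℝ) : ℂ) • (star (X j) *
    (toi (Wc ![P, Cc, P] (α j) (β j)) (c j) l * gd P Q (α j) (β j)) * X j)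
  have sD : ∀ j, SCont (D j) := fun j => Py.sCont_smul _ (((SCont.const _).mul
    ((sCont_toi (isPoly_Wc _ _ _) (c1 j)).mul (SCont.const _))).mul (SCont.const _))
  have aD := AvT.sum Finset.univ (fun j _ =>
    ((e0 _ (c1 j) (c2 j) (α j) (β j)).mul (star (X j)) (X j)).smul ((n * C j : ℝ) : ℂ))
    fun j _ => sD j
  simp only [mul_zero, zero_mul, smul_zero, Finset.sum_const_zero] at aD
  have iD : ∀ l, (⟪ξ, (∑ j, D j l) ξ⟫_ℂ).re =
      ∑ j, n * C j * (⟪X j ξ, toi (Wc ![P, Cc, P] (α j) (β j)) (c j) l (X j ξ)⟫_ℂ).re := fun l => by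
    rw [_root_.sum_apply, inner_sum, Complex.re_sum]
    refine Finset.sum_congr rfl fun j _ => ?_
    simp only [D, _root_.smul_apply, mul_apply_eq_comp, x3, inner_smul_right,
      ContinuousLinearMap.star_eq_adjoint, ContinuousLinearMap.adjoint_inner_right,
      Complex.re_ofReal_mul]
  have sD' : SCont fun l => ∑ j, D j l := by
    induction (Finset.univ : Finset J) using Finset.cons_induction with
    | empty => simpa using SCont.const (0 : K →L[ℂ] K)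
    | cons j s hj ih => simpa only [Finset.sum_cons] using (sD j).add ih
  have fr := aD.frequently_lt sD' ξ (fun l hl => by
    rw [iD]
    exact Finset.sum_nonneg fun j _ => mul_nonneg (mul_nonneg hn0 (hC0 j).le)
      (c3 j l hl)) (half_pos hδ)
  refine (fr.and_eventually (Real.tendsto_exp_atTop.eventually (eventually_all.2 hest))).mono
    fun u ⟨h1, h2⟩ F φ N hF => ?_
  rw [iD] at h1
  have h3 : ∀ μ, ‖Cc.E (N μ) (P.E (φ μ) ξ)‖ ^ 2 ≤ n * ∑ j, ‖Cc.E (N μ) (P.E (φ μ) (X j ξ))‖ ^ 2 :=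
    fun μ => by
      nth_rewrite 1 [show ξ = ∑ j, X j ξ by rw [← _root_.sum_apply, ← hE]; rfl]
      rw [map_sum, map_sum, hn]
      exact (pow_le_pow_left₀ (norm_nonneg _) (norm_sum_le _ _) 2).trans sq_sum_le_card_mul_sum_sq
  refine (Finset.sum_le_sum fun μ _ => h3 μ).trans ?_
  rw [← Finset.mul_sum, Finset.sum_comm]
  refine (mul_le_mul_of_nonneg_left (Finset.sum_le_sum fun j _ => h2 j F φ N _ hF)
    hn0).trans ?_
  rw [Finset.sum_add_distrib, mul_add, Real.sq_sqrt he.le, Finset.mul_sum _ _ n, Finset.mul_sum _ _ n]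
  rw [Finset.mul_sum, Finset.sum_mul] at he'
  have h4 : ∑ j, n * (4 * B ^ 2 * n₀ * e * ‖X j ξ‖ ^ 2) ≤ δ / 2 :=
    (Finset.sum_congr rfl fun j _ => by ring).trans_le he'
  simp only [← mul_assoc n (C _)]
  linarith

end Crest.Agent.N111.St
end

-- ▼ part N111/F/Star
section

/-! # Row 111: the relation (**). -/

set_option autoImplicit false
set_option linter.unusedSectionVars false
set_option linter.unusedVariables false

namespace Crest.Agent.N111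

open MeasureTheory Topology Filter Matrix
open scoped InnerProductSpace

variable {K : Type} [NormedAddCommGroup K] [InnerProductSpace ℂ K] [CompleteSpace K]

variable {I I' : Ind K} {L : ℕ → ℝ} {Φ Ψ A B : V → POVM V K} {sc sc' : ℝ → ℝ}

theorem KF.eq_zero_of_small' {z : K} {B : ℝ} (h : ∀ δ : ℝ, 0 < δ → ‖z‖ ≤ B * δ) : z = 0 :=
  norm_eq_zero.1 (Complex.ofReal_eq_zero.1 (KF.eq_zero_of_small (B := B) (by simpa using h)))

/-- the row estimate, in the dual orientation -/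
theorem St.core (h : Geo I I' L Φ Ψ A B sc sc') {N f g : V → ℂ} (hN : BM N) (hN0 : Hom0 N)
    (hf : BM f) (hf0 : Hom0 f) (hfc : ContinuousOn f {0}ᶜ) (hg : BM g) (hg0 : Hom0 g)
    (hgc : ContinuousOn g {0}ᶜ) {θ : ℝ} (hθ : 0 < θ)
    (h₁ : ∀ a b, N a ≠ 0 → g b ≠ 0 → θ * (‖a‖ * ‖b‖) ≤ |a ⬝ᵥ b|)
    (h₂ : ∀ a b, f a ≠ 0 → g b ≠ 0 → θ * (‖a‖ * ‖b‖) ≤ |a ⬝ᵥ b|) (t : ℝ) :
    (Φ (ev 0)).E g * star ((Ψ (ev 1)).E N * (Ψ (ev 0)).E f * (B (ev 0)).E (lg t)) = 0 := by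
  classical
  set Z := (Ψ (ev 1)).E N * (Ψ (ev 0)).E f * (B (ev 0)).E (lg t) with hZ
  obtain ⟨C, hC0, hC⟩ := exists_bound_pi (f := ![N, f, g]) fun k => by fin_cases k <;> assumption
  have hNC : ∀ a, ‖N a‖ ≤ C := hC 0
  have hfC : ∀ a, ‖f a‖ ≤ C := hC 1
  have hgC : ∀ a, ‖g a‖ ≤ C := hC 2
  have e0 := ev_ne_zero 0
  have e1 := ev_ne_zero 1
  have hU : ∀ (k : ℕ) (η : K), ∃ z : ℂ, ‖z‖ = 1 ∧
      I.U (al k) (star Z η) = z • star Z (I.U (al k) η) := fun k η => by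
    have a0 := ac_al_ev0 (-k)
    have a1 := ac_al_of (-k) (a := ev 1) (by simp [ev])
    rw [← dl_al] at a0 a1
    have c0 := h.pro'.pre.commute e0 a0 hf.conj
    have c1 := h.pro'.pre.commute e1 a1 hN.conj
    have c2 := h.lift'.conj_lg e0 a0 (-t)
    rw [h.dual.U_eq, dl_dl] at c0 c1 c2
    rw [h.dual.U_eq, map_inv, dl_dl] at c2
    refine ⟨_, norm_ex (-t * Real.log (sc' (Real.exp (-2 * -k)))), ?_⟩
    rw [hZ, star_mul, star_mul, h.lift'.star_lg, POVM.E_star _ hf, POVM.E_star _ hN,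
      ← _root_.smul_apply, ← smul_mul_assoc, ← c2]
    simp only [mul_apply_eq_comp, ← bes_comm_apply c1.symm, ← bes_comm_apply c0.symm,
      URep.inv_apply_apply]
  have hρ : ∀ μ : Γ, I.ρ μ⁻¹ * Z * I.ρ μ =
      (Ψ (ev 1)).E (fun a => ic {0}ᶜ a * N (ac (ι (dl μ)) a)) * (Ψ (ev 0)).E
        (fun a => f (ac (ι (dl μ)) a) * cz (ι (dl μ)) t a) * (B (ev 0)).E (lg t) := fun μ => by
    have c0 := h.ρΨ e0 hf hf0 μ⁻¹
    have c1 := h.ρΨ e1 hN hN0 μ⁻¹
    have c2 := h.lift'.ρ_lg e0 (dl μ⁻¹) t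
    rw [h.dual.ρ_eq, h.dual.ρ_eq, ← map_inv dl, dl_dl, dl_dl] at c2
    rw [inv_inv] at c0 c1 c2
    rw [← (h.pro'.proj _).sym.cut (hN.comp (measurable_ac _)),
      h.pro'.pvm _ _ _ (hf.comp (measurable_ac _)) (bm_cz _ _), mul_assoc ((Ψ (ev 1)).E _),
      mul_assoc _ _ ((B _).E _),
      ← (h.lift'.commute_Φ e0 (bm_lg t) (bm_cz _ _)).eq, ← c0, ← c1, ← c2, hZ]
    refine ContinuousLinearMap.ext fun v => ?_
    simp only [mul_apply_eq_comp, URep.apply_inv_apply]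
  have hZN : Z ∈ I.N := Ind.mul_N (Ind.mul_N (h.memΨ e1 hN) (h.memΨ e0 hf)) (h.memB e0 (bm_lg t))
  obtain ⟨C₀, hC₀⟩ := h.lift.lc_dense h.tight.1 h.lc
  have small : ∀ R, ∀ δ > (0 : ℝ), ∃ᶠ k in atTop, ∀ F : Finset Γ,
      (∀ μ ∈ F, μ ∈ Sh (L k) R ∧ g (pt μ) ≠ 0) →
      ∑ μ ∈ F, ‖(I.ρ μ⁻¹ * Z * I.ρ μ) I.ξ‖ ^ 2 ≤ δ := fun R δ hδ => by
    obtain ⟨R₁, hR₁, n₀, hfam⟩ := St.fam_shell hf hf0 hfc hN hfC hNC hθ h₁ h₂ t R C₀
    have fl := fun i (hi : ev i ⬝ᵥ ev 2 = 0) => h.symm.flag (ev_ne_zero i) (ev_ne_zero 2) hi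
    obtain ⟨ε, hε, hs⟩ := St.fam_small (fl 0 (by simp [ev])) (h.pro'.pvm (ev 1))
      (fl 1 (by simp [ev])).comm (fun c hc he α β => h.symm.e0 hc he α β)
      ((B (ev 0)).E (lg t) I.ξ) C hR₁ n₀ hδ
    obtain ⟨η, hη, hfam⟩ := hfam ε hε
    refine frequently_atTop.2 fun k₀ => ?_
    obtain ⟨u, hu, k, hk, hku⟩ := ((hs η hη).and_eventually (hC₀ k₀)).exists
    refine ⟨k, hk, fun F hF => ?_⟩
    simpa only [hρ, mul_apply_eq_comp] using hu F _ _ (hfam _ _ F hku hF)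
  have bes : ∀ (D : ℝ) (η : K), 0 ≤ D → I.Bes D η → (Φ (ev 0)).E g (star Z η) = 0 := by
    intro D η hD hη
    refine KF.eq_zero_of_small' (B := 1 + C + C * D) fun δ hδ => ?_
    obtain ⟨R, hR⟩ := h.tight.seq (star Z η) δ hδ
    have hs := Metric.tendsto_nhds.1 (h.pro.strong g hg hg0 hgc (star Z η)) δ hδ
    obtain ⟨k, h1, h2, h3⟩ := ((small R (δ ^ 2) (by positivity)).and_eventually (hR.and hs)).exists
    rw [dist_zero_right] at h3
    obtain ⟨z, hz, hz'⟩ := hU k η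
    have bg : BM fun μ => g (pt μ) := bm_Γ fun μ => hgC _
    have b1 : ∀ S : Set Γ, BM fun μ => g (pt μ) * ic S μ := fun S => bg.mul (bm_ic_Γ S)
    have h4 : ‖I.mJ (fun μ => g (pt μ) * ic (Sh (L k) R)ᶜ μ) (I.U (al k) (star Z η))‖ ≤ C * δ :=
      (I.norm_mJ_mono (bm_ic_Γ _) hC0 (fun μ => by rw [norm_mul]; gcongr; exact hgC _) _).trans
        (by gcongr)
    have h5 : ‖I.mJ (fun μ => g (pt μ) * ic (Sh (L k) R) μ) (I.U (al k) (star Z η))‖
        ≤ C * D * δ := by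
      refine LG.norm_le (by positivity) fun F => ?_
      set F' := F.filter fun μ => μ ∈ Sh (L k) R ∧ g (pt μ) ≠ 0 with hF'
      have r := (hη.U (al k)).row (Y := fun μ => star (I.ρ μ⁻¹ * Z * I.ρ μ)) (fun μ => Ind.star_N
        (Ind.mul_N (Ind.mul_N (I.ρ_N _) hZN) (I.ρ_N _))) F'
      simp only [star_star] at r
      have r' := r.trans (mul_le_mul_of_nonneg_left
        (h1 F' fun μ hμ => (Finset.mem_filter.1 hμ).2) (sq_nonneg D))
      rw [← Finset.sum_subset (Finset.filter_subset (fun μ => μ ∈ Sh (L k) R ∧ g (pt μ) ≠ 0) F)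
        fun μ hμ hn => ?_]
      · refine (Finset.sum_le_sum fun μ _ => ?_).trans
          (((Finset.mul_sum _ _ (C ^ 2)).symm.trans_le
            (mul_le_mul_of_nonneg_left r' (sq_nonneg C))).trans_eq (by ring))
        rw [I.mJ_apply (b1 _), hz', map_smul, map_smul, norm_smul, norm_smul, hz, one_mul, mul_pow,
          star_mul _ (I.ρ μ), star_mul (I.ρ μ⁻¹), URep.star_apply, URep.star_apply, inv_inv]
        simp only [mul_apply_eq_comp, URep.apply_inv_apply]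
        gcongr
        rw [norm_mul]
        exact (mul_le_of_le_one_right (norm_nonneg _) (norm_ic_le _ _)).trans (hgC _)
      · rw [Finset.mem_filter, not_and, not_and, not_not] at hn
        rw [I.mJ_apply (b1 _)]
        by_cases hμ' : μ ∈ Sh (L k) R
        · simp [hn hμ hμ']
        · simp [hμ']
    have h6 := I.mJ_add (b1 (Sh (L k) R)) (b1 (Sh (L k) R)ᶜ)
    simp only [ic_compl, ← mul_add, add_sub_cancel, mul_one] at h6
    have h7 := norm_sub_norm_le (I.J (I.U (al k) ((Φ (ev 0)).E g (star Z η))))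
      (I.mJ (fun μ => g (pt μ)) (I.U (al k) (star Z η)))
    rw [norm_sub_rev, I.norm_J, URep.norm_map] at h7
    have h8 : ‖I.mJ (fun μ => g (pt μ)) (I.U (al k) (star Z η))‖ ≤ C * D * δ + C * δ := by
      rw [h6, _root_.add_apply]
      simp only [ic_compl] at h4
      exact (norm_add_le _ _).trans (add_le_add h5 h4)
    linarith
  refine ContinuousLinearMap.ext fun η => KF.eq_zero_of_small'
    (B := ‖(Φ (ev 0)).E g * star Z‖) fun δ hδ => ?_
  obtain ⟨D, η', hD, hη', hd⟩ := I.exists_bes_near η hδ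
  rw [show ((Φ (ev 0)).E g * star Z) η = ((Φ (ev 0)).E g * star Z) (η - η') by
    rw [map_sub, mul_apply_eq_comp _ _ η', bes D η' hD hη', sub_zero]]
  exact (ContinuousLinearMap.le_opNorm _ _).trans (by gcongr)

theorem St.star_lg (h : Geo I I' L Φ Ψ A B sc sc') {N f g : V → ℂ} (hN : BM N) (hN0 : Hom0 N)
    (hf : BM f) (hf0 : Hom0 f) (hfc : ContinuousOn f {0}ᶜ) (hg : BM g) (hg0 : Hom0 g)
    (hgc : ContinuousOn g {0}ᶜ) {θ : ℝ} (hθ : 0 < θ)
    (h₁ : ∀ a b, N a ≠ 0 → g b ≠ 0 → θ * (‖a‖ * ‖b‖) ≤ |a ⬝ᵥ b|)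
    (h₂ : ∀ a b, f a ≠ 0 → g b ≠ 0 → θ * (‖a‖ * ‖b‖) ≤ |a ⬝ᵥ b|) (t : ℝ) :
    (Φ (ev 1)).E N * (Φ (ev 0)).E f * (A (ev 0)).E (lg t) * (Ψ (ev 0)).E g = 0 := by
  have := congrArg star (St.core h.symm hN hN0 hf hf0 hfc hg.conj
    (fun z hz a => by simp only [hg0 z hz a]) (Complex.continuous_conj.comp_continuousOn hgc) hθ
    (fun a b ha hb => h₁ a b ha fun e => hb (by simp [e]))
    (fun a b ha hb => h₂ a b ha fun e => hb (by simp [e])) t)
  rwa [star_mul, star_star, ← POVM.E_star _ hg, star_star, star_zero] at this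

/-- **(\*\*)** -/
theorem Geo.star2 (h : Geo I I' L Φ Ψ A B sc sc') {N f g : V → ℂ} (hN : BM N) (hN0 : Hom0 N)
    (hf : BM f) (hf0 : Hom0 f) (hfc : ContinuousOn f {0}ᶜ) (hg : BM g) (hg0 : Hom0 g)
    (hgc : ContinuousOn g {0}ᶜ) {θ : ℝ} (hθ : 0 < θ)
    (h₁ : ∀ a b, N a ≠ 0 → g b ≠ 0 → θ * (‖a‖ * ‖b‖) ≤ |a ⬝ᵥ b|)
    (h₂ : ∀ a b, f a ≠ 0 → g b ≠ 0 → θ * (‖a‖ * ‖b‖) ≤ |a ⬝ᵥ b|) :
    (Φ (ev 1)).E N * (Φ (ev 0)).E f * (Ψ (ev 0)).E g = 0 := by
  have := St.star_lg h hN hN0 hf hf0 hfc hg hg0 hgc hθ h₁ h₂ 0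
  rwa [show lg 0 = fun _ => 1 from funext fun a => by simp [lg], POVM.E_one, mul_one] at this


end Crest.Agent.N111
end

-- ▼ part N111/F/End

/-! # Row 111: commutativity; `ComStmt`. -/

set_option autoImplicit false
set_option linter.unusedSectionVars false
set_option linter.unusedVariables false
set_option linter.unusedSimpArgs false
set_option maxHeartbeats 400000

namespace Crest.Agent.N111

open MeasureTheory Topology Filter Matrix
open scoped InnerProductSpace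

variable {K : Type} [NormedAddCommGroup K] [InnerProductSpace ℂ K] [CompleteSpace K]

variable {I I' : Ind K} {L : ℕ → ℝ} {Φ Ψ A B : V → POVM V K} {sc sc' : ℝ → ℝ}

namespace En

/-- (**) with the character `‖a‖^{is}` in the middle slot -/
def PS (Φ Ψ A : V → POVM V K) (N : V → ℂ) (θ s : ℝ) : Prop :=
  ∀ f g : V → ℂ, BM f → Hom0 f → ContinuousOn f {0}ᶜ → BM g → Hom0 g → ContinuousOn g {0}ᶜ →
    (∀ a b, N a ≠ 0 → g b ≠ 0 → 2 * θ * (‖a‖ * ‖b‖) ≤ |a ⬝ᵥ b|) →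
    (∀ a b, f a ≠ 0 → g b ≠ 0 → 2 * θ * (‖a‖ * ‖b‖) ≤ |a ⬝ᵥ b|) →
    (Φ (ev 1)).E N * (A (ev 0)).E (fun a => f a * lg s a) * (Ψ (ev 0)).E g = 0

theorem lg_zero (a : V) : lg 0 a = 1 := by rw [lg, zero_mul, ex_zero]

theorem lg_neg_mul (t : ℝ) (a : V) : lg (-t) a * lg t a = 1 := by
  rw [← lg_add, neg_add_cancel, lg_zero]

theorem ps_zero (h : Geo I I' L Φ Ψ A B sc sc') {N : V → ℂ} (hN : BM N) (hN0 : Hom0 N) {θ : ℝ}
    (hθ : 0 < θ) : PS Φ Ψ A N θ 0 := fun f g hf hf0 hfc hg hg0 hgc h₁ h₂ => by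
  simp only [lg_zero, mul_one]
  rw [h.lift.hom0 (ev_ne_zero 0) hf hf0]
  exact h.star2 hN hN0 hf hf0 hfc hg hg0 hgc (θ := 2 * θ) (by positivity) h₁ h₂

theorem contOn_slice {φ : (Fin 18 → ℝ) → V → ℂ}
    (h : ContinuousOn (fun p : (Fin 18 → ℝ) × V => φ p.1 p.2) {p | p.2 ≠ 0}) (w : Fin 18 → ℝ) :
    ContinuousOn (φ w) {0}ᶜ :=
  h.comp (f := fun a : V => (w, a)) (Continuous.prodMk_right w).continuousOn fun a ha => ha

theorem ps_step (h : Geo I I' L Φ Ψ A B sc sc') : ∃ t₀ > (0 : ℝ), ∀ t, |t| < t₀ →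
    ∀ (N : V → ℂ) (θ s : ℝ), 0 < θ → PS Φ Ψ A N θ s → PS Φ Ψ A N θ (s + t) := by
  obtain ⟨t₀, ht₀, H⟩ := h.symm.s8
  refine ⟨t₀, ht₀, fun t ht N θ s hθ hP f g hf hf0 hfc hg hg0 hgc h₁ h₂ => ?_⟩
  obtain ⟨z, hz, H⟩ := H (-t) (by rwa [abs_neg])
  obtain ⟨c, φ, ψ, hR⟩ := exists_pRep hθ (-t)
  have bf : BM fun a => f a * lg (s + t) a := hf.mul (bm_lg _)
  have bg : BM fun b => g b * lg t b := hg.mul (bm_lg _)
  have key := H (ev 0) (ev 0) (by simp [ev_dot_ev]) θ hθ c φ ψ hR _ _ bf bg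
    fun a b ha hb => h₂ a b (left_ne_zero_of_mul ha) (left_ne_zero_of_mul hb)
  have bφ : ∀ w, BM (φ w) := fun w => ⟨hR.measφ w, 1, hR.bdφ w⟩
  have bψ : ∀ w, BM (ψ w) := fun w => ⟨hR.measψ w, 1, hR.bdψ w⟩
  have e1 : ∀ w, (fun a => f a * lg (s + t) a * lg (-t) a * φ w a)
      = fun a => (f a * φ w a) * lg s a := fun w => funext fun a => by
    rw [mul_assoc (f a), ← lg_add, add_neg_cancel_right]; ring
  have e2 : ∀ w, (fun b => g b * lg t b * lg (-t) b * ψ w b) = fun b => g b * ψ w b :=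
    fun w => funext fun b => by rw [mul_assoc (g b), mul_comm (lg t b), lg_neg_mul, mul_one]
  simp only [e1, e2] at key
  obtain ⟨Cf, hCf0, hCf⟩ := hf.exists_nonneg
  obtain ⟨Cg, hCg0, hCg⟩ := hg.exists_nonneg
  have s1 : SCont fun w => (A (ev 0)).E fun a => (f a * φ w a) * lg s a :=
    (A (ev 0)).sCont_E (C := Cf) (fun w => ((hf.mul (bφ w)).mul (bm_lg s)).1)
      (fun w a => by
        rw [norm_mul, norm_mul, norm_lg, mul_one]
        exact (mul_le_of_le_one_right (norm_nonneg _) (hR.bdφ w a)).trans (hCf a))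
      fun a => (continuous_const.mul (hR.contφ a)).mul continuous_const
  have s2 : SCont fun w => (B (ev 0)).E fun b => g b * ψ w b :=
    (B (ev 0)).sCont_E (C := Cg) (fun w => (hg.mul (bψ w)).1)
      (fun w a => by
        rw [norm_mul]
        exact (mul_le_of_le_one_right (norm_nonneg _) (hR.bdψ w a)).trans (hCg a))
      fun a => continuous_const.mul (hR.contψ a)
  have k2 := congrArg (fun T => (Φ (ev 1)).E N * T) key
  rw [mul_sInt hR.int (s1.mul s2)] at k2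
  have e3 : (fun w => (Φ (ev 1)).E N * ((A (ev 0)).E (fun a => (f a * φ w a) * lg s a)
      * (B (ev 0)).E fun b => g b * ψ w b)) = fun _ => 0 := funext fun w => by
    have g0 : Hom0 fun b => g b * ψ w b := fun r hr b => by
      simp only [hg0 r hr b, hR.homψ w r hr b]
    rw [h.lift'.hom0 (ev_ne_zero 0) (hg.mul (bψ w)) g0, ← mul_assoc]
    exact hP _ _ (hf.mul (bφ w)) (fun r hr a => by simp only [hf0 r hr a, hR.homφ w r hr a])
      (hfc.mul (contOn_slice hR.jointφ w)) (hg.mul (bψ w)) g0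
      (hgc.mul (contOn_slice hR.jointψ w))
      (fun a b ha hb => h₁ a b ha (left_ne_zero_of_mul hb))
      fun a b ha hb => h₂ a b (left_ne_zero_of_mul ha) (left_ne_zero_of_mul hb)
  rw [e3, sInt_const hR.int, smul_zero, mul_smul_comm, eq_comm, smul_eq_zero,
    or_iff_right hz] at k2
  have e4 : (Ψ (ev 0)).E g = (B (ev 0)).E (fun b => g b * lg t b) * (B (ev 0)).E (lg (-t)) := by
    rw [← h.lift'.pvm _ _ _ bg (bm_lg _), ← h.lift'.hom0 (ev_ne_zero 0) hg hg0]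
    congr 1
    funext b
    rw [mul_assoc, mul_comm (lg t b), lg_neg_mul, mul_one]
  rw [e4, ← mul_assoc, mul_assoc ((Φ (ev 1)).E N), k2, zero_mul]

theorem ps_all (h : Geo I I' L Φ Ψ A B sc sc') {N : V → ℂ} (hN : BM N) (hN0 : Hom0 N) {θ : ℝ}
    (hθ : 0 < θ) (s : ℝ) : PS Φ Ψ A N θ s := by
  obtain ⟨t₀, ht₀, H⟩ := ps_step h
  obtain ⟨n, hn⟩ := exists_nat_gt (|s| / t₀)
  have hn0 : (0 : ℝ) < n := lt_of_le_of_lt (by positivity) hn
  have ht : |s / n| < t₀ := by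
    rw [abs_div, abs_of_pos hn0, div_lt_iff₀ hn0]
    rwa [div_lt_iff₀ ht₀, mul_comm] at hn
  have : ∀ k : ℕ, PS Φ Ψ A N θ (k * (s / n)) := fun k => by
    induction k with
    | zero => simpa using ps_zero h hN hN0 hθ
    | succ k ih => simpa [add_mul] using H _ ht N θ _ hθ ih
  simpa [mul_div_cancel₀ s hn0.ne'] using this n

/-- lifted (**) -/
theorem star_lift (h : Geo I I' L Φ Ψ A B sc sc') {N f g : V → ℂ} (hN : BM N) (hN0 : Hom0 N)
    (hf : BM f) (hf0 : Hom0 f) (hfc : ContinuousOn f {0}ᶜ) (hg : BM g) (hg0 : Hom0 g)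
    (hgc : ContinuousOn g {0}ᶜ) {θ : ℝ} (hθ : 0 < θ)
    (h₁ : ∀ a b, N a ≠ 0 → g b ≠ 0 → 2 * θ * (‖a‖ * ‖b‖) ≤ |a ⬝ᵥ b|)
    (h₂ : ∀ a b, f a ≠ 0 → g b ≠ 0 → 2 * θ * (‖a‖ * ‖b‖) ≤ |a ⬝ᵥ b|) {F : V → ℂ} (hF : BM F)
    (hev : Ev F) : (Φ (ev 1)).E N * (A (ev 0)).E (fun a => f a * F a) * (Ψ (ev 0)).E g = 0 := by
  have p0 : IsPoly1 fun F : V → ℂ => (0 : K →L[ℂ] K) * (A (ev 0)).E F * 0 :=
    (A (ev 0)).isPoly1.mul 0 0
  have p1 : ∀ u : V → ℂ, BM u → IsPoly1 fun F : V → ℂ =>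
      (Φ (ev 1)).E N * (A (ev 0)).E (fun a => u a * F a) * (Ψ (ev 0)).E g := fun u hu =>
    ((A (ev 0)).isPoly1.comp measurable_id hu).mul _ _
  have := (p1 f hf).ext_lift p0 ?_ ?_ F hF hev
  · simpa only [mul_zero] using this
  · rw [mul_zero, (A (ev 0)).E_congr_of_null (measurableSet_singleton 0) (h.lift.zero _)
      (hf.mul (BM.ic (measurableSet_singleton 0))) BM.zero fun a ha => by
        rw [ic_of_notMem ha, mul_zero], POVM.E_zero, mul_zero, zero_mul]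
  · intro F hF hF0 t
    have := (p1 (fun a => f a * lg t a) (hf.mul (bm_lg t))).ext_hom0 p0 ?_ F hF hF0
    · simp only [mul_zero] at this ⊢
      rw [← this]
      congr 3
      funext a
      ring
    · intro F hF hF0 hFc
      have := ps_all h hN hN0 hθ t (fun a => f a * F a) g (hf.mul hF)
        (fun r hr a => by simp only [hf0 r hr a, hF0 r hr a]) (hfc.mul hFc) hg hg0 hgc h₁
        fun a b ha hb => h₂ a b (left_ne_zero_of_mul ha) hb
      simp only [mul_zero]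
      rw [← this]
      congr 3
      funext a
      ring

end En

theorem Geo.star_supp (h : Geo I I' L Φ Ψ A B sc sc') {z : Fin 3 → V}
    (hz : z ∈ supp (word ![A (ev 1), A (ev 0), B (ev 0)])) (h₂ : z 1 ⬝ᵥ z 2 ≠ 0) :
    z 0 ⬝ᵥ z 2 = 0 := by
  by_contra h₁
  obtain ⟨θ₁, hθ₁, O₀, hO₀, O₂, hO₂, n₁⟩ := exists_ni h₁
  obtain ⟨θ₂, hθ₂, O₁, hO₁, O₂', hO₂', n₂⟩ := exists_ni h₂
  obtain ⟨u, U, a1, a2, -, a4, a5, a6, a7, -, a9, a10, a11⟩ :=
    exists_pbump (a := z 1) (by intro e; simp [e] at h₂) hO₁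
  obtain ⟨w, W, b1, b2, -, b4, b5, b6, b7, -, b9, b10, b11⟩ :=
    exists_pbump (a := z 2) (by intro e; simp [e] at h₂) (inter_mem hO₂ hO₂')
  have hθ : 0 < min θ₁ θ₂ / 2 := by positivity
  have key : ∀ F, BM F → Ev F → (Φ (ev 1)).E (ic (cone (interior O₀)))
      * (A (ev 0)).E (fun a => (u a : ℂ) * F a) * (Ψ (ev 0)).E (fun b => (w b : ℂ)) = 0 := by
    intro F hF hev
    refine En.star_lift h (BM.ic (isOpen_cone isOpen_interior).measurableSet) (hom0_ic_cone _)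
      a5 a6 (Complex.continuous_ofReal.comp_continuousOn a7) b5 b6
      (Complex.continuous_ofReal.comp_continuousOn b7) hθ (fun a b ha hb => ?_)
      (fun a b ha hb => ?_) hF hev
    · refine le_trans ?_ (n₁ a (Ap2.cone_mono interior_subset ?_) b
        (Ap2.cone_mono Set.inter_subset_left (b11 b (by simpa using hb))))
      · exact mul_le_mul_of_nonneg_right (by linarith [min_le_left θ₁ θ₂]) (by positivity)
      · by_contra h'
        exact ha (ic_of_notMem h')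
    · refine le_trans ?_ (n₂ a (a11 a (by simpa using ha)) b
        (Ap2.cone_mono Set.inter_subset_right (b11 b (by simpa using hb))))
      exact mul_le_mul_of_nonneg_right (by linarith [min_le_right θ₁ θ₂]) (by positivity)
  refine hz ![interior O₀, U, W] (fun k => ?_) fun f hf h0 => ?_
  · fin_cases k
    exacts [interior_mem_nhds.2 hO₀, a1.mem_nhds a2, b1.mem_nhds b2]
  have e1 : (A (ev 0)).E (f 1) = (A (ev 0)).E fun a => (u a : ℂ) * f 1 (sg a) := by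
    rw [h.lift.conc _ _ (hf 1)]
    congr 1
    funext a
    by_cases ha : sg a ∈ U
    · rw [a10 a (Ap2.mem_cone_of_sg ha), Complex.ofReal_one, one_mul]
    · rw [h0 1 _ ha, mul_zero]
  have e2 : (B (ev 0)).E (f 2) = (Ψ (ev 0)).E (fun b => (w b : ℂ)) * (B (ev 0)).E (f 2) := by
    rw [← h.lift'.hom0 (ev_ne_zero 0) b5 b6, h.lift'.conc _ _ (hf 2),
      ← h.lift'.pvm _ _ _ b5 ((hf 2).comp measurable_sg)]
    congr 1
    funext a
    by_cases ha : sg a ∈ W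
    · rw [b10 a (Ap2.mem_cone_of_sg ha), Complex.ofReal_one, one_mul]
    · rw [h0 2 _ ha, mul_zero]
  rw [word_three, (Ap2.absorb h.lift (ev_ne_zero 1) isOpen_interior (hf 0) (h0 0)).1, e1, e2]
  have := key _ ((hf 1).comp measurable_sg) (Ap2.ev_sg _)
  calc _ = (A (ev 1)).E (f 0) * ((Φ (ev 1)).E (ic (cone (interior O₀)))
      * (A (ev 0)).E (fun a => (u a : ℂ) * f 1 (sg a)) * (Ψ (ev 0)).E (fun b => (w b : ℂ)))
      * (B (ev 0)).E (f 2) := by simp only [mul_assoc]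
    _ = 0 := by rw [this, mul_zero, zero_mul]

namespace En

theorem ev20 : ev 2 ⨯₃ ev 0 = ev 1 := by
  funext i; fin_cases i <;> simp [cross_apply, ev]

theorem ev10 : ev 1 ⨯₃ ev 0 = -ev 2 := by
  funext i; fin_cases i <;> simp [cross_apply, ev]

theorem dot_ev {i k : Fin 3} (h : i ≠ k) : ev i ⬝ᵥ ev k = 0 := by rw [ev_dot_ev, if_neg h]

theorem norm_of_pm {a b : V} {k : ℝ} (hk : 0 < k) (h : a = k • b ∨ a = -(k • b)) :
    ‖a‖ = k * ‖b‖ := by
  rcases h with h | h <;> rw [h] <;> simp [norm_smul, abs_of_pos hk]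

/-- the vector algebra of the end game -/
theorem alg {C b a b' C' : V} {k k' : ℝ} (hk : 0 < k) (hk' : 0 < k') (hC : C ≠ 0) (hb : b ≠ 0)
    (h1 : C ⬝ᵥ b = 0) (h2 : C ⬝ᵥ b' = 0) (h3 : b ⬝ᵥ a = 0)
    (h4 : b ⨯₃ b' = k' • C' ∨ b ⨯₃ b' = -(k' • C')) (h5 : C ⨯₃ a = k • b ∨ C ⨯₃ a = -(k • b))
    (h6 : |a ⬝ᵥ b'| = k * k') : C' = C ∨ C' = -C := by
  have e1 : C ⨯₃ (b ⨯₃ b') = 0 := by
    rw [cross_cross_eq_smul_sub_smul', dotProduct_comm b, h1, h2]; simp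
  have e2 : C ⨯₃ C' = 0 := by
    rcases h4 with h4 | h4 <;> rw [h4] at e1
    · simpa [hk'.ne'] using e1
    · simpa [hk'.ne'] using e1
  obtain ⟨l, rfl⟩ := exists_smul_of_cross_eq_zero hC e2
  have e3 : ‖(b ⨯₃ b') ⨯₃ a‖ = k * k' * ‖b‖ := by
    rw [cross_cross_eq_smul_sub_smul, h3, zero_smul, zero_sub, norm_neg, norm_smul,
      Real.norm_eq_abs, dotProduct_comm, h6]
  have e4 : ‖(b ⨯₃ b') ⨯₃ a‖ = k' * (|l| * (k * ‖b‖)) := by
    rw [← norm_of_pm hk h5]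
    rcases h4 with h4 | h4 <;> rw [h4] <;> simp [norm_smul, abs_of_pos hk']
  have hb' := norm_pos_iff.2 hb
  have e5 : |l| = 1 := by
    have : k * k' * ‖b‖ * |l| = k * k' * ‖b‖ * 1 := by linarith
    exact mul_left_cancel₀ (by positivity) this
  rcases abs_eq (zero_le_one' ℝ) |>.1 e5 with e | e <;> simp [e]

/-- closed conditions descend from the support of a longer word -/
theorem lift_closed {n : ℕ} {κ : Type} [Fintype κ] {P : Fin n → POVM V K} (hP : ∀ i, (P i).Sym)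
    {W : (κ → V → ℂ) → K →L[ℂ] K} {e : κ → Fin n} (he : Function.Injective e)
    {u : Fin n → V → ℂ} (hu : ∀ i, BM (u i))
    (h : ∀ f, (∀ k, BM (f k)) →
      W f = word P fun i y => u i y * Function.extend e f (fun _ _ => 1) i y)
    {S : Set (κ → V)} (hS : IsClosed S)
    (hs : ∀ z ∈ supp (word P), (∀ i, z i ≠ 0) → (fun k => z (e k)) ∈ S) {z : κ → V}
    (hz : z ∈ supp W) (h0 : ∀ k, z k ≠ 0) : z ∈ S := by
  by_contra hn
  have hO := hS.isOpen_compl.mem_nhds hn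
  rw [nhds_pi, mem_pi'] at hO
  obtain ⟨t, O, hO, hsub⟩ := hO
  obtain ⟨z', hz', h0', hO'⟩ := exists_lift_supp
    (W := fun f => word P fun i y => u i y * f i y)
    ((isPoly_word P).comp (φ := fun _ => id) (fun _ => measurable_id) hu)
    (fun f hf => by
      rw [word_conc hP _ fun i => (hu i).mul (hf i)]
      simp only [mul_left_comm]) he h hz h0 hO
  refine hsub (fun k _ => hO' k) (hs z' (fun O hO hN => hz' O hO fun f hf hf0 => ?_) h0')
  exact hN _ (fun i => (hu i).mul (hf i)) fun i y hy => by rw [hf0 i y hy, mul_zero]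

end En

theorem Geo.end_supp (h : Geo I I' L Φ Ψ A B sc sc') {z : Fin 5 → V}
    (hz : z ∈ supp (word ![A (ev 1), B (ev 2), A (ev 0), B (ev 0), A (ev 1)]))
    (h0 : ∀ i, z i ≠ 0) : z 4 = z 0 ∨ z 4 = -z 0 := by
  obtain ⟨k, hk, h5⟩ := h.f5
  obtain ⟨k', hk', h5'⟩ := h.symm.f5
  have c : ∀ {i j : Fin 3}, i ≠ j → ∀ {f g : V → ℂ}, BM f → BM g →
      (A (ev i)).E f * (B (ev j)).E g = (B (ev j)).E g * (A (ev i)).E f := fun hij f g hf hg =>
    h.AB_inc (ev_ne_zero _) (ev_ne_zero _) (En.dot_ev hij) hf hg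
  have s01 := mem_supp_of_factor (W' := word ![A (ev 1), B (ev 2)]) (e := ![0, 1]) (by decide)
    (fun f hf => ⟨1, (A (ev 0)).E (f 2) * (B (ev 0)).E (f 3) * (A (ev 1)).E (f 4), by
      simp [mul_assoc]⟩) hz
  have s12 := mem_supp_of_factor (W' := word ![B (ev 2), A (ev 0)]) (e := ![1, 2]) (by decide)
    (fun f hf => ⟨(A (ev 1)).E (f 0), (B (ev 0)).E (f 3) * (A (ev 1)).E (f 4), by
      simp [mul_assoc]⟩) hz
  have s23 := mem_supp_of_factor (W' := word ![A (ev 0), B (ev 0)]) (e := ![2, 3]) (by decide)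
    (fun f hf => ⟨(A (ev 1)).E (f 0) * (B (ev 2)).E (f 1), (A (ev 1)).E (f 4), by
      simp [mul_assoc]⟩) hz
  have s012 := mem_supp_of_factor (W' := word ![A (ev 1), B (ev 2), A (ev 0)]) (e := ![0, 1, 2])
    (by decide) (fun f hf => ⟨1, (B (ev 0)).E (f 3) * (A (ev 1)).E (f 4), by
      simp [mul_assoc]⟩) hz
  have s143 := mem_supp_of_factor (W' := word ![B (ev 2), A (ev 1), B (ev 0)]) (e := ![1, 4, 3])
    (by decide) (fun f hf => ⟨(A (ev 1)).E (f 0) * (A (ev 0)).E (f 2), 1, by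
      rw [word_five, mul_assoc _ ((B (ev 0)).E (f 3)), ← c (by decide) (hf 4) (hf 3),
        mul_assoc ((A (ev 1)).E (f 0)), ← c (by decide) (hf 2) (hf 1)]
      simp [mul_assoc]⟩) hz
  have s023 := mem_supp_of_factor (W' := word ![A (ev 1), A (ev 0), B (ev 0)]) (e := ![0, 2, 3])
    (by decide) (fun f hf => ⟨(B (ev 2)).E (f 1), (A (ev 1)).E (f 4), by
      rw [word_five, c (by decide) (hf 0) (hf 1)]
      simp [mul_assoc]⟩) hz
  have l23 : |z 2 ⬝ᵥ z 3| = k * k' := h.opp hk hk' h5 h5' (by simp [ev_dot_ev]) s23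
    fun i => h0 _
  refine En.alg hk hk' (h0 0) (h0 1) (b' := z 3) (a := z 2)
    (h.incAB (ev_ne_zero 1) (ev_ne_zero 2) (En.dot_ev (by decide)) _ s01)
    (h.star_supp s023 fun e => ?_)
    (h.symm.incAB (ev_ne_zero 2) (ev_ne_zero 0) (En.dot_ev (by decide)) _ s12)
    (h5' _ _ _ (ev_ne_zero 1) (Or.inl En.ev20) _ s143 fun i => h0 _)
    (h5 _ _ _ (ev_ne_zero 2) (Or.inr En.ev10) _ s012 fun i => h0 _) l23
  have e' : z 2 ⬝ᵥ z 3 = 0 := e
  rw [e', abs_zero] at l23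
  exact (mul_pos hk hk').ne l23

theorem En.commute_conj {U : URep G K} (g : G) {S T : K →L[ℂ] K} (h : Commute S T) :
    Commute (U g * S * U g⁻¹) (U g * T * U g⁻¹) := by
  have e : U g⁻¹ * U g = 1 := by rw [← map_mul, inv_mul_cancel, map_one]
  have : ∀ S T : K →L[ℂ] K, U g * S * U g⁻¹ * (U g * T * U g⁻¹) = U g * (S * T) * U g⁻¹ :=
    fun S T => by simp only [mul_assoc, ← mul_assoc (U g⁻¹) (U g), e, one_mul]
  rw [Commute, SemiconjBy, this, this, h.eq]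

theorem En.AA01 (h : Geo I I' L Φ Ψ A B sc sc') {f g : V → ℂ} (hf : BM f) (hg : BM g) :
    Commute ((A (ev 0)).E f) ((A (ev 1)).E g) := by
  refine (h.lift.sym (ev 1)).commute (fun u hu hev => ?_) hg
  have key := (isPoly_two (A (ev 1)) (A (ev 1)) ((A (ev 0)).E f)).diag'
    (fun φ hφ => by simp only [← (h.lift.sym (ev 1)).cut (hφ _)]) (fun z hz h0 => ?_) hu hev
    BM.one BM.one
  · simp only [cons_val_zero, cons_val_one, mul_one, one_mul, POVM.E_one] at key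
    exact key.symm
  · refine En.lift_closed (P := ![A (ev 1), B (ev 2), A (ev 0), B (ev 0), A (ev 1)])
      (fun i => ?_) (e := ![0, 4]) (by decide)
      (u := ![fun _ => 1, fun _ => 1, f, fun _ => 1, fun _ => 1]) (fun i => ?_) (fun φ hφ => ?_)
      (S := {z : Fin 2 → V | z 1 = z 0 ∨ z 1 = -z 0})
      ((isClosed_eq (by fun_prop) (by fun_prop)).union (isClosed_eq (by fun_prop) (by fun_prop)))
      (fun z hz h0 => h.end_supp hz h0) hz h0
    · fin_cases i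
      exacts [h.lift.sym _, h.lift'.sym _, h.lift.sym _, h.lift'.sym _, h.lift.sym _]
    · fin_cases i
      exacts [BM.one, BM.one, hf, BM.one, BM.one]
    · have he : Function.Injective (![0, 4] : Fin 2 → Fin 5) := by decide
      have e0 := he.extend_apply φ (fun _ _ => (1 : ℂ)) 0
      have e4 := he.extend_apply φ (fun _ _ => (1 : ℂ)) 1
      have e1 := Function.extend_apply' (f := (![0, 4] : Fin 2 → Fin 5)) φ (fun _ _ => (1 : ℂ)) 1
        (by decide)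
      have e2 := Function.extend_apply' (f := (![0, 4] : Fin 2 → Fin 5)) φ (fun _ _ => (1 : ℂ)) 2
        (by decide)
      have e3 := Function.extend_apply' (f := (![0, 4] : Fin 2 → Fin 5)) φ (fun _ _ => (1 : ℂ)) 3
        (by decide)
      simp only [cons_val_zero, cons_val_one] at e0 e4
      simp [e0, e1, e2, e3, e4, POVM.E_one]

theorem Geo.AA (h : Geo I I' L Φ Ψ A B sc sc') {x x' : V} (hx : x ≠ 0) (hx' : x' ≠ 0)
    {f g : V → ℂ} (hf : BM f) (hg : BM g) : Commute ((A x).E f) ((A x').E g) := by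
  by_cases hc : x ⨯₃ x' = 0
  · obtain ⟨r, rfl⟩ := exists_smul_of_cross_eq_zero hx hc
    rw [h.lift.scal x hx r (left_ne_zero_of_smul hx') g hg]
    exact (h.lift.pvm x).commute hf (hg.comp (measurable_const_smul _))
  · obtain ⟨q, rfl, rfl⟩ := exists_ac_pair hc
    rw [← h.lift.covU _ (ev_ne_zero 0) f hf, ← h.lift.covU _ (ev_ne_zero 1) g hg]
    exact En.commute_conj q (En.AA01 h hf hg)

/-- a joint PVM lives on the support of the word -/
theorem joint_supp {n : ℕ} {P : Fin n → POVM V K} {J : POVM (Fin n → V) K} (hJ : J.IsPVM)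
    (h : ∀ f : Fin n → V → ℂ, (∀ i, BM (f i)) → J.E (fun z => ∏ i, f i (z i)) = word P f) :
    J.E (ic (supp (word P))) = 1 := by
  have hm : MeasurableSet (supp (word P)) := isClosed_supp.measurableSet
  rw [← J.E_one]
  refine J.E_congr_ae (BM.ic hm) BM.one fun η => ?_
  have h0 : J.ν η (supp (word P))ᶜ = 0 := by
    refine measure_null_of_locally_null _ fun z hz => ?_
    simp only [supp, Set.mem_compl_iff, Set.mem_ofPred_eq, not_forall, not_not] at hz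
    obtain ⟨O, h1, h2⟩ := hz
    have ho : IsOpen (Set.pi Set.univ fun i => interior (O i)) :=
      isOpen_set_pi Set.finite_univ fun i _ => isOpen_interior
    refine ⟨_, mem_nhdsWithin_of_mem_nhds (ho.mem_nhds fun i _ =>
      mem_interior_iff_mem_nhds.2 (h1 i)), J.ν_eq_zero ho.measurableSet ?_⟩
    have hb : ∀ i, BM (ic (interior (O i))) := fun i => BM.ic isOpen_interior.measurableSet
    have e : ic (Set.pi Set.univ fun i => interior (O i))
        = fun z => ∏ i, ic (interior (O i)) (z i) := funext fun w => by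
      by_cases hw : w ∈ Set.pi Set.univ fun i => interior (O i)
      · rw [ic_of_mem hw, Finset.prod_eq_one fun i _ => ic_of_mem (hw i trivial)]
      · rw [ic_of_notMem hw]
        simp only [Set.mem_pi, Set.mem_univ, true_imp_iff, not_forall] at hw
        obtain ⟨i, hi⟩ := hw
        exact (Finset.prod_eq_zero (Finset.mem_univ i) (ic_of_notMem hi)).symm
    rw [e, h _ hb, h2 _ hb fun i y hy => ic_of_notMem fun hy' => hy (interior_subset hy')]
    rfl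
  filter_upwards [measure_eq_zero_iff_ae_notMem.1 h0] with z hz
  exact ic_of_mem (not_not.1 hz)

namespace En

theorem cross (h : Geo I I' L Φ Ψ A B sc sc') {k : ℝ} (h5 : F5 A B k) {z : Fin 3 → V}
    (hz : z ∈ supp (word ![A (ev 0), A (ev 1), B (ev 2)])) (h0 : ∀ i, z i ≠ 0) :
    z 0 ⨯₃ z 1 = k • z 2 ∨ z 0 ⨯₃ z 1 = -(k • z 2) :=
  h5 _ _ _ (ev_ne_zero 2) (Or.inl Geo2.ev01) _
    (mem_supp_of_factor (W' := word ![A (ev 0), B (ev 2), A (ev 1)]) (e := ![0, 2, 1])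
      (by decide) (fun f hf => ⟨1, 1, by
        rw [word_three, mul_assoc, (h.AB_inc (ev_ne_zero 1) (ev_ne_zero 2) (dot_ev (by decide))
          (hf 1) (hf 2)).eq]
        simp [mul_assoc]⟩) hz) fun i => h0 _

/-- lines are functions of points -/
theorem commute_B2 (h : Geo I I' L Φ Ψ A B sc sc') {S : K →L[ℂ] K}
    (h₀ : ∀ f, BM f → Commute S ((A (ev 0)).E f)) (h₁ : ∀ f, BM f → Commute S ((A (ev 1)).E f))
    {g : V → ℂ} (hg : BM g) : Commute S ((B (ev 2)).E g) := by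
  refine (h.lift'.sym (ev 2)).commute (fun u hu hev => ?_) hg
  obtain ⟨k, hk, h5⟩ := h.f5
  have c : ∀ {i : Fin 3}, i ≠ 2 → ∀ {f g : V → ℂ}, BM f → BM g →
      Commute ((A (ev i)).E f) ((B (ev 2)).E g) := fun hij f g hf hg =>
    h.AB_inc (ev_ne_zero _) (ev_ne_zero _) (En.dot_ev hij) hf hg
  have hs : ∀ i, (![A (ev 0), A (ev 1), B (ev 2)] i).Sym := fun i => by
    fin_cases i
    exacts [h.lift.sym _, h.lift.sym _, h.lift'.sym _]
  obtain ⟨J, hJ, hE⟩ := POVM.exists_joint_fin (P := ![A (ev 0), A (ev 1), B (ev 2)])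
    (fun i => by fin_cases i; exacts [h.lift.pvm _, h.lift.pvm _, h.lift'.pvm _])
    (fun i j f g hf hg => by
      fin_cases i <;> fin_cases j
      exacts [h.AA (ev_ne_zero _) (ev_ne_zero _) hf hg, h.AA (ev_ne_zero _) (ev_ne_zero _) hf hg,
        c (by decide) hf hg, h.AA (ev_ne_zero _) (ev_ne_zero _) hf hg,
        h.AA (ev_ne_zero _) (ev_ne_zero _) hf hg, c (by decide) hf hg, (c (by decide) hg hf).symm,
        (c (by decide) hg hf).symm, (h.lift'.pvm _).commute hf hg])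
  have mφ : Measurable fun z : Fin 3 → V => (z 0, z 1) := by fun_prop
  have p := J.isPoly1.comp mφ BM.one
  have mH : Measurable fun q : V × V => k⁻¹ • (q.1 ⨯₃ q.2) := by
    refine Continuous.measurable (continuous_pi fun i => ?_)
    fin_cases i <;> simp [cross_apply] <;> fun_prop
  have key := (p.mul S 1).ext_prod (p.mul 1 S) (fun f g hf hg => by
    have := hE ![f, g, fun _ => 1] fun i => by fin_cases i; exacts [hf, hg, BM.one]
    simp only [Fin.prod_univ_three, cons_val_zero, cons_val_one, cons_val, mul_one, word_three,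
      POVM.E_one] at this
    simp only [one_mul, mul_one, this]
    exact ((h₀ f hf).mul_right (h₁ g hg)).eq) _ (hu.comp mH)
  have e2 := hE ![fun _ => 1, fun _ => 1, u] fun i => by fin_cases i; exacts [BM.one, BM.one, hu]
  simp only [Fin.prod_univ_three, cons_val_zero, cons_val_one, cons_val, one_mul, word_three,
    POVM.E_one] at e2
  have hO : MeasurableSet (Set.pi Set.univ fun _ : Fin 3 => ({0}ᶜ : Set V)) :=
    MeasurableSet.univ_pi fun _ => (measurableSet_singleton 0).compl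
  have e3 : J.E (ic (Set.pi Set.univ fun _ : Fin 3 => ({0}ᶜ : Set V))) = 1 := by
    have := hE (fun _ y => ic {0}ᶜ y * 1) fun _ => Cv1.bm_cut BM.one
    rw [← word_conc hs _ fun _ => BM.one, word_one] at this
    rw [← this]
    congr 1
    funext w
    by_cases hw : w ∈ Set.pi Set.univ fun _ : Fin 3 => ({0}ᶜ : Set V)
    · rw [ic_of_mem hw, Finset.prod_eq_one fun i _ => by rw [ic_of_mem (hw i trivial), one_mul]]
    · rw [ic_of_notMem hw]
      simp only [Set.mem_pi, Set.mem_univ, true_imp_iff, not_forall] at hw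
      obtain ⟨i, hi⟩ := hw
      exact (Finset.prod_eq_zero (Finset.mem_univ i) (by rw [ic_of_notMem hi, zero_mul])).symm
  have hm : MeasurableSet (supp (word ![A (ev 0), A (ev 1), B (ev 2)])) :=
    isClosed_supp.measurableSet
  have e4 := hJ.ic_mul_ic hm hO
  rw [joint_supp hJ hE, e3, mul_one] at e4
  have e5 : J.E (fun z => u (z 2)) = J.E fun z => u (k⁻¹ • (z 0 ⨯₃ z 1)) :=
    J.E_congr_of_conc (hm.inter hO) e4.symm (hu.comp (measurable_pi_apply 2))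
      (hu.comp (mH.comp mφ)) fun z hz => by
        rcases cross h h5 hz.1 fun i => hz.2 i trivial with e | e
        · rw [e, inv_smul_smul₀ hk.ne']
        · rw [e, smul_neg, inv_smul_smul₀ hk.ne', hev]
  simp only [one_mul, mul_one] at key
  rw [← e2, e5]
  exact key

theorem det (h : Geo I I' L Φ Ψ A B sc sc') : ∃ D > (0 : ℝ),
    ∀ z ∈ supp (word ![A (ev 0), A (ev 1), A (ev 2)]), (∀ i, z i ≠ 0) →
      |z 0 ⬝ᵥ (z 1 ⨯₃ z 2)| = D := by
  obtain ⟨k, hk, h5⟩ := h.f5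
  obtain ⟨k', hk', h5'⟩ := h.symm.f5
  refine ⟨k * (k' * k), by positivity, fun z hz h0 => ?_⟩
  refine lift_closed (P := ![A (ev 0), A (ev 1), B (ev 2), A (ev 2)]) (fun i => ?_)
    (e := ![0, 1, 3]) (by decide) (u := fun _ _ => 1) (fun _ => BM.one) (fun φ hφ => ?_)
    (S := {z : Fin 3 → V | |z 0 ⬝ᵥ (z 1 ⨯₃ z 2)| = k * (k' * k)})
    (isClosed_eq (by
      simp only [dotProduct, cross_apply, Fin.sum_univ_three, cons_val_zero, cons_val_one, cons_val]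
      fun_prop) continuous_const) (fun z hz h0 => ?_) hz h0
  · fin_cases i
    exacts [h.lift.sym _, h.lift.sym _, h.lift'.sym _, h.lift.sym _]
  · have he : Function.Injective (![0, 1, 3] : Fin 3 → Fin 4) := by decide
    have e0 := he.extend_apply φ (fun _ _ => (1 : ℂ)) 0
    have e1 := he.extend_apply φ (fun _ _ => (1 : ℂ)) 1
    have e3 := he.extend_apply φ (fun _ _ => (1 : ℂ)) 2
    have e2 := Function.extend_apply' (f := (![0, 1, 3] : Fin 3 → Fin 4)) φ (fun _ _ => (1 : ℂ)) 2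
      (by decide)
    simp only [cons_val_zero, cons_val_one, cons_val] at e0 e1 e3
    simp [e0, e1, e2, e3, POVM.E_one]
  · have s012 := mem_supp_of_factor (W' := word ![A (ev 0), A (ev 1), B (ev 2)]) (e := ![0, 1, 2])
      (by decide) (fun f hf => ⟨1, (A (ev 2)).E (f 3), by simp [mul_assoc]⟩) hz
    have s23 := mem_supp_of_factor (W' := word ![B (ev 2), A (ev 2)]) (e := ![2, 3])
      (by decide) (fun f hf => ⟨(A (ev 0)).E (f 0) * (A (ev 1)).E (f 1), 1, by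
        simp [mul_assoc]⟩) hz
    have l : |z 2 ⬝ᵥ z 3| = k' * k := h.symm.opp hk' hk h5' h5 (by simp [ev_dot_ev]) s23
      fun i => h0 _
    have c : z 0 ⨯₃ z 1 = k • z 2 ∨ z 0 ⨯₃ z 1 = -(k • z 2) := cross h h5 s012 fun i => h0 _
    change |z 0 ⬝ᵥ (z 1 ⨯₃ z 3)| = _
    rw [triple_product_permutation, triple_product_permutation, dotProduct_comm, ← l]
    rcases c with c | c <;> rw [c] <;> simp [abs_mul, abs_of_pos hk]

end En

theorem Geo.AB (h : Geo I I' L Φ Ψ A B sc sc') {x y : V} (hx : x ≠ 0) (hy : y ≠ 0)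
    {f g : V → ℂ} (hf : BM f) (hg : BM g) : Commute ((A x).E f) ((B y).E g) := by
  obtain ⟨q, rfl⟩ := exists_ac_ev hy 2
  have h1 := h.covB (ev_ne_zero 2) hg (dl q)
  have h2 := h.lift.covU _ (ac_ne_zero (dl q)⁻¹ hx) f hf (dl q)
  rw [dl_dl] at h1
  rw [← ac_mul, mul_inv_cancel, ac_one] at h2
  rw [← h1, ← h2]
  exact En.commute_conj _ (En.commute_B2 h
    (fun _ => h.AA (ac_ne_zero _ hx) (ev_ne_zero 0) hf)
    (fun _ => h.AA (ac_ne_zero _ hx) (ev_ne_zero 1) hf) hg)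

theorem com : ComStmt := fun K _ _ _ I I' L Φ Ψ A B sc sc' h =>
  { AA := fun _ _ hx hx' _ _ => h.AA hx hx'
    AB := fun _ _ hx hy _ _ => h.AB hx hy
    lc := h.lc
    lc' := h.lc'
    cross := h.f5.imp fun k hk => ⟨hk.1, fun z hz => En.cross h hk.2 hz⟩
    det := En.det h }

end Crest.Agent.N111
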